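/-
Row 258 (S0498), Sec. 6 (architect helper68).  FILE BaseFacts: first consequences of `LocSys.Valid`, `LocSys.Inner`, `HelpValid`, `HInner`
(`Loc/Iface.lean`, `Loc/IfaceTag.lean`), in the form used by all proofs of Secs. 6.4-6.6.
LEAF P-LOC-BASEFACTS (whole file).  No paper reading: unfolding of the structures + block [XV] + `S5/Form.lean`.

PLANS.
* `Inner.catOk`: `chart`, `bdd` from `hV.bud` (a column `Φ ∈ cat.cols` belongs to `cat.avail Φ.birth`); `eps`: if `rank = 0` the column is basic (`hV.rank0`) and `col_eps` of `hI.xv` applies, otherwise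
  `ε = 1` (`hV.fresh`) and `D⁻¹ ≤ 1`; `vtx`: basic column: `hV.basic` gives `vtx = lab`, and `hV.pres_iff`; inserted column: `hV.fresh` and `LocBase.pres_mono`.
* `z_size`: `pat l = true`: `U_size`; `pat l = false`: `B = cproj .. F - cproj .. F`, `loc_n2_cproj_le`, `s5f_n2_sub`, `s5f_n2_le_nnorm`, `f_norm`.
* `basic_expand`: `coef` of `X.Valid` for `c = 0, 1`; the two catalogs are disjoint as sets of columns (`lab_inj` of `X.Valid` gives `c = c'`) and both are contained in the rank-zero label mask;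
  define `a Φ = a₀ Φ` on `cat l 0 I`, `- a₁ Φ` on `cat l 1 I`, `0` elsewhere (`Finset.sum_subset`, `Finset.sum_union`).
-/
import Claimed.Agent.R258.Loc.Search

set_option autoImplicit false
open MeasureTheory

namespace Claimed.Agent.R258

namespace LocSys

variable {Y : LocSys LocTag} {c0 C0 k C3 : ℝ} {A : Acc}

theorem Inner.D_ge_one (hI : Y.Inner c0 C0 k C3 A) : 1 ≤ A.D := by
  have := hI.num.D_ge
  have h1 : (1 : ℝ) ≤ Real.exp k := Real.one_le_exp (by linarith [hI.num.k_ge])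
  linarith

theorem Inner.D_pos (hI : Y.Inner c0 C0 k C3 A) : 0 < A.D := by linarith [hI.D_ge_one]

theorem Inner.n_ge_one (hI : Y.Inner c0 C0 k C3 A) (r : ℕ) : 1 ≤ A.n r := by
  have h0 := hI.num.n_mono (Nat.zero_le r)
  linarith [hI.num.n_zero, hI.num.pD_ge, hI.D_ge_one]

theorem Inner.adm (hI : Y.Inner c0 C0 k C3 A) {I : Cell} (h : I ∈ Y.X.S) : Admissible c0 C0 I (Y.X.w I) := by
  obtain ⟨q, η, LU, _, hX⟩ := hI.xv
  exact hX.adm I h

theorem Inner.S_sub (hI : Y.Inner c0 C0 k C3 A) : Y.X.S ⊆ Y.X.T := by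
  obtain ⟨q, η, LU, _, hX⟩ := hI.xv
  exact hX.S_sub

theorem Inner.le_root (hI : Y.Inner c0 C0 k C3 A) {I : Cell} (h : I ∈ Y.X.T) : I ≤ Y.X.root := by
  obtain ⟨q, η, LU, _, hX⟩ := hI.xv
  exact hX.tree.le_root I h

theorem Inner.catCnt (hI : Y.Inner c0 C0 k C3 A) : Y.CatCnt Y.cat A.n := hI.cnt

/-- the main catalog satisfies the invariants -/
theorem Inner.catOk (hV : Y.Valid A.Dm A.m0) (hI : Y.Inner c0 C0 k C3 A) : Y.CatOk Y.cat A.D A.Hc := by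
  classical
  obtain ⟨q, η, LU, _, hX⟩ := hI.xv
  have hav : ∀ Φ ∈ Y.cat.cols, Φ ∈ Y.cat.avail Φ.birth := fun Φ hΦ => by
    simp only [LocCat.avail, Finset.mem_filter]
    exact ⟨hΦ, le_rfl⟩
  refine ⟨hV.lab_inj, fun Φ hΦ => hV.bud.chart _ Φ (hav Φ hΦ), hI.cplx, fun Φ hΦ => hV.bud.bdd _ Φ (hav Φ hΦ),
    ?_, hI.tag_col, ?_⟩
  · intro Φ hΦ
    by_cases h0 : Y.cat.rank Φ.lab = 0
    · obtain ⟨l, c, I, _, h⟩ := hV.rank0 Φ hΦ h0
      exact hX.col_eps l c I Φ h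
    · obtain ⟨he, -, -⟩ := hV.fresh Φ hΦ (Nat.pos_of_ne_zero h0)
      rw [he, Real.sqrt_one]
      exact ⟨inv_le_one_of_one_le₀ hI.D_ge_one, le_rfl⟩
  · intro Φ hΦ I h1 h2
    by_cases h0 : Y.cat.rank Φ.lab = 0
    · obtain ⟨l, c, I', hI', h⟩ := hV.rank0 Φ hΦ h0
      rw [(hV.basic l c I' hI' Φ h).2.2.1, hV.pres_iff]
      exact ⟨h1, l, c, I', hI', Φ, h, rfl, h2⟩
    · obtain ⟨-, -, hp⟩ := hV.fresh Φ hΦ (Nat.pos_of_ne_zero h0)
      exact Y.B.pres_mono h2 hp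

/-- a helper catalog satisfies the invariants -/
theorem HInner.catOk (hV : Y.Valid A.Dm A.m0) (hI : Y.Inner c0 C0 k C3 A) {hc : LocCat} {bases : Cell → Finset (Fin 4 × XV)}
    (hH : Y.HelpValid hc A.Dm) (hHI : Y.HInner hc bases A) : Y.CatOk hc A.D A.Hc := by
  classical
  have hm := hI.catOk hV
  have hav : ∀ Φ ∈ hc.cols, Φ ∈ hc.avail Φ.birth := fun Φ hΦ => by
    simp only [LocCat.avail, Finset.mem_filter]
    exact ⟨hΦ, le_rfl⟩
  refine ⟨hH.lab_inj, fun Φ hΦ => hH.bud.chart _ Φ (hav Φ hΦ), hHI.cplx, fun Φ hΦ => hH.bud.bdd _ Φ (hav Φ hΦ),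
    ?_, hHI.tag_col, ?_⟩
  · intro Φ hΦ
    by_cases h0 : Φ ∈ Y.cat.cols
    · exact hm.eps Φ h0
    · obtain ⟨he, -, -⟩ := hH.fresh Φ hΦ h0
      rw [he, Real.sqrt_one]
      exact ⟨inv_le_one_of_one_le₀ hI.D_ge_one, le_rfl⟩
  · intro Φ hΦ I h1 h2
    by_cases h0 : Φ ∈ Y.cat.cols
    · rw [hH.ext.vtx Φ h0]
      exact hm.vtx Φ h0 I h1 h2
    · obtain ⟨-, -, hp⟩ := hH.fresh Φ hΦ h0
      exact Y.B.pres_mono h2 hp

/-- path counts of a helper catalog: main ranks as before, everything at the helper rank -/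
theorem HInner.catCnt (hV : Y.Valid A.Dm A.m0) (hI : Y.Inner c0 C0 k C3 A) {hc : LocCat} {bases : Cell → Finset (Fin 4 × XV)}
    (hH : Y.HelpValid hc A.Dm) (hHI : Y.HInner hc bases A) :
    Y.CatCnt hc fun r => if r < Y.hrank then A.n r else A.n (Y.p.L + 5) := by
  classical
  intro I hIr r
  by_cases hr : r < Y.hrank
  · simp only [if_pos hr]
    refine le_trans ?_ (hI.cnt I hIr r)
    have hsub : ((hc.avail I).filter fun Φ => hc.rank Φ.lab ≤ r) ⊆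
        ((Y.cat.avail I).filter fun Φ => Y.cat.rank Φ.lab ≤ r) := by
      intro Φ hΦ
      simp only [LocCat.avail, Finset.mem_filter] at hΦ ⊢
      obtain ⟨⟨h1, h2⟩, h3⟩ := hΦ
      have h0 : Φ ∈ Y.cat.cols := by
        by_contra h0
        have := hH.ext.new Φ h1 h0
        omega
      exact ⟨⟨h0, h2⟩, by rw [← hH.ext.rank Φ h0]; exact h3⟩
    exact_mod_cast Finset.card_le_card hsub
  · simp only [if_neg hr]
    refine le_trans ?_ (hHI.cnt I hIr)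
    exact_mod_cast Finset.card_filter_le _ _

/-- tags of the attached vertices satisfy the fixed basic bounds -/
theorem CatOk.tag_ok (hI : Y.Inner c0 C0 k C3 A) {c : LocCat} {D Hc : ℝ} (hc : Y.CatOk c D Hc) {Φ : Col} (hΦ : Φ ∈ c.cols) {I : Cell}
    (h1 : I ≤ Y.X.root) (h2 : I ≤ Φ.birth) : ((c.chart Φ.lab).tag (c.slot Φ.lab)).Ok A.dmax A.Hb := by
  rw [hc.tag_col Φ hΦ]
  exact hI.tag_ok _ ((Y.B.mem_pres I _).1 (hc.vtx Φ hΦ I h1 h2)).1

/-- basic local sizes -/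
theorem Inner.z_size (hI : Y.Inner c0 C0 k C3 A) (l : Fin 4) {I : Cell} (h : I ∈ Y.X.T) : n2 I (Y.z l I) ≤ 2 := by
  obtain ⟨q, η, LU, hq, hX⟩ := hI.xv
  unfold z BaseSeg.arg
  by_cases hp : Y.pat l = true
  · simp only [hp, if_true]
    linarith [hX.U_size l I h]
  · simp only [hp]
    have hF : n2 I (Y.X.F l) ≤ 1 :=
      (s5f_n2_le_nnorm q hq I (Y.X.f l) (hX.f_cs l)).trans (hX.f_norm l I h)
    have h0 := loc_n2_cproj_le (Y.X.cat l 0 I) I (Y.X.F l)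
    have h1 := loc_n2_cproj_le (Y.X.cat l 1 I) I (Y.X.F l)
    have h2 := s5f_n2_sub I (cproj (Y.X.cat l 0 I) I (Y.X.F l)) (cproj (Y.X.cat l 1 I) I (Y.X.F l))
    show n2 I (cproj (Y.X.cat l 0 I) I (Y.X.F l) - cproj (Y.X.cat l 1 I) I (Y.X.F l)) ≤ 2
    linarith

/-- `z_l = B_l` in a basic coarse slot -/
theorem z_eq_B (l : Fin 4) (I : Cell) (h : Y.pat l = false) : Y.z l I = Y.X.B l I := by
  simp [z, BaseSeg.arg, h]

/-- **the basic expansion**: a basic coarse argument is a combination of the available rank-zero sources of its slot with coefficient sum `≤ D` -/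
theorem Inner.basic_expand (hV : Y.Valid A.Dm A.m0) (hI : Y.Inner c0 C0 k C3 A) (l : Fin 4) (hl : Y.pat l = false) {I : Cell}
    (h : I ∈ Y.X.T) :
    ∃ a : Col → ℂ, Y.z l I = ∑ Φ ∈ Y.cat.lm l 0 (Y.B.pres I : Set ℕ) I, a Φ • Φ.vec I ∧
      ∑ Φ ∈ Y.cat.lm l 0 (Y.B.pres I : Set ℕ) I, ‖a Φ‖ ≤ A.D := by
  classical
  obtain ⟨q, η, LU, hq, hX⟩ := hI.xv
  obtain ⟨a0, ha0, hb0⟩ := hX.coef l 0 I h
  obtain ⟨a1, ha1, hb1⟩ := hX.coef l 1 I h
  set S0 := Y.X.cat l 0 I with hS0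
  set S1 := Y.X.cat l 1 I with hS1
  set M := Y.cat.lm l 0 (Y.B.pres I : Set ℕ) I with hM
  have hsubc : ∀ c, Y.X.cat l c I ⊆ M := by
    intro c Φ hΦ
    obtain ⟨h1, h2, h3, h4, -⟩ := hV.basic l c I h Φ hΦ
    have hb := hX.cat_birth l c I Φ hΦ
    simp only [hM, LocCat.lm, Finset.mem_filter]
    refine ⟨h1, hb, h2, h4.le, ?_⟩
    rw [h3]
    exact Finset.mem_coe.2 ((hV.pres_iff I Φ.lab).2 ⟨hI.le_root h, l, c, I, h, Φ, hΦ, rfl, hb⟩)
  have hdisj : Disjoint S0 S1 := by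
    rw [Finset.disjoint_left]
    intro Φ h0 h1
    have := (hX.lab_inj l 0 I l 1 I Φ h0 Φ h1 rfl).2.2
    exact absurd this (by decide)
  have hsub : S0 ∪ S1 ⊆ M := Finset.union_subset (hsubc 0) (hsubc 1)
  set a : Col → ℂ := fun Φ => if Φ ∈ S0 then a0 Φ else if Φ ∈ S1 then - a1 Φ else 0 with ha
  have e0 : ∀ Φ ∈ S0, a Φ = a0 Φ := fun Φ hΦ => by simp only [ha, if_pos hΦ]
  have e1 : ∀ Φ ∈ S1, a Φ = - a1 Φ := fun Φ hΦ => by
    simp only [ha, if_neg (Finset.disjoint_right.1 hdisj hΦ), if_pos hΦ]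
  have e2 : ∀ Φ ∈ M, Φ ∉ S0 ∪ S1 → a Φ = 0 := fun Φ _ hΦ => by
    rw [Finset.mem_union, not_or] at hΦ
    simp only [ha, if_neg hΦ.1, if_neg hΦ.2]
  refine ⟨a, ?_, ?_⟩
  · rw [z_eq_B l I hl]
    show cproj S0 I (Y.X.F l) - cproj S1 I (Y.X.F l) = _
    rw [ha0, ha1, ← Finset.sum_subset hsub (fun Φ h1 h2 => by rw [e2 Φ h1 h2, zero_smul]),
      Finset.sum_union hdisj, sub_eq_add_neg, ← Finset.sum_neg_distrib]
    congr 1
    · exact Finset.sum_congr rfl fun Φ hΦ => by rw [e0 Φ hΦ]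
    · exact Finset.sum_congr rfl fun Φ hΦ => by rw [e1 Φ hΦ, neg_smul]
  · rw [← Finset.sum_subset hsub (fun Φ h1 h2 => by rw [e2 Φ h1 h2, norm_zero]), Finset.sum_union hdisj]
    have f0 : ∑ Φ ∈ S0, ‖a Φ‖ = ∑ Φ ∈ S0, ‖a0 Φ‖ := Finset.sum_congr rfl fun Φ hΦ => by rw [e0 Φ hΦ]
    have f1 : ∑ Φ ∈ S1, ‖a Φ‖ = ∑ Φ ∈ S1, ‖a1 Φ‖ := Finset.sum_congr rfl fun Φ hΦ => by rw [e1 Φ hΦ, norm_neg]
    rw [f0, f1]
    linarith

/-- a rank-zero column is attached to its own label -/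
theorem Valid.vtx_rank0 (hV : Y.Valid A.Dm A.m0) {Φ : Col} (hΦ : Φ ∈ Y.cat.cols) (h0 : Y.cat.rank Φ.lab = 0) :
    Y.cat.vtx Φ.lab = Φ.lab := by
  obtain ⟨l, c, I, hI, h⟩ := hV.rank0 Φ hΦ h0
  exact (hV.basic l c I hI Φ h).2.2.1

/-- the number of current groups of one colour -/
theorem cur_card_le (κ : ℕ) (I : Cell) : (Y.cur κ I).card ≤ Y.p.D := by
  classical
  unfold cur
  exact (Finset.card_filter_le _ _).trans (Finset.card_image_le.trans (Y.B.card_le I))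

theorem mem_cur {κ : ℕ} {I : Cell} {G : ℕ} : G ∈ Y.cur κ I ↔ Y.CS.use G I ∧ Y.CS.gcol G = κ := by
  classical
  unfold cur
  simp only [Finset.mem_filter, Finset.mem_image]
  constructor
  · exact fun h => h.2
  · rintro ⟨⟨v, hv, hc⟩, hg⟩
    exact ⟨⟨v, hv, by simp [hc]⟩, ⟨v, hv, hc⟩, hg⟩

/-- the tolerance cancels the coefficient bound of a lower-rank source -/
theorem Inner.tol_cancel (hI : Y.Inner c0 C0 k C3 A) {r r' : ℕ} (h : r < r') :
    A.D * Real.sqrt (A.n r) * tol A.D A.τ3 A.n r' ≤ A.τ3 := by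
  unfold tol
  have hD := hI.D_pos
  have hτ := hI.num.τ3_pos
  have h1 : A.n r ≤ A.n (r' - 1) := hI.num.n_mono (by omega)
  have h2 : Real.sqrt (A.n r) ≤ Real.sqrt (A.n (r' - 1)) := Real.sqrt_le_sqrt h1
  have h3 : 0 < Real.sqrt (A.n (r' - 1)) := Real.sqrt_pos.2 (by linarith [hI.n_ge_one (r' - 1)])
  rw [mul_div_assoc', div_le_iff₀ (by positivity)]
  calc A.D * Real.sqrt (A.n r) * A.τ3 ≤ A.D * Real.sqrt (A.n (r' - 1)) * A.τ3 := by gcongr
    _ = A.τ3 * (A.D * Real.sqrt (A.n (r' - 1))) := by ring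

theorem Inner.tol_nonneg (hI : Y.Inner c0 C0 k C3 A) (r : ℕ) : 0 ≤ tol A.D A.τ3 A.n r := by
  unfold tol
  have := hI.D_pos; have := hI.num.τ3_pos
  positivity

end LocSys

end Claimed.Agent.R258
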