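/-
Row 258 (S0498), Sec. 6 (architect helper68).  FILE Pair: calculus of the form `formV I w` in ONE slot (`Function.update`) and of the
pair norms `PairSmall`.  Everything follows from `s5f_multilinear`, `s5f_restr` (S5/Form.lean) by pure algebra.  No paper reading.
-/
import Claimed.Agent.R258.S5.Form
import Claimed.Agent.R258.Pack011

set_option autoImplicit false
open MeasureTheory

namespace Claimed.Agent.R258

section
variable {c0 C0 : ℝ} {I : Cell} {w : ℝ × ℝ → ℂ}

theorem loc_form_add (hc0 : 0 < c0) (hw : Admissible c0 C0 I w) (z : Fin 4 → XV) (l : Fin 4) (x y : XV) :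
    formV I w (Function.update z l (x + y)) = formV I w (Function.update z l x) + formV I w (Function.update z l y) := by
  obtain ⟨M, hM⟩ := s5f_multilinear c0 C0 hc0 I w hw
  simp only [← hM]; exact M.map_update_add z l x y

theorem loc_form_smul (hc0 : 0 < c0) (hw : Admissible c0 C0 I w) (z : Fin 4 → XV) (l : Fin 4) (c : ℂ) (x : XV) :
    formV I w (Function.update z l (c • x)) = c * formV I w (Function.update z l x) := by
  obtain ⟨M, hM⟩ := s5f_multilinear c0 C0 hc0 I w hw
  simp only [← hM]; exact M.map_update_smul z l c x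

theorem loc_form_sub (hc0 : 0 < c0) (hw : Admissible c0 C0 I w) (z : Fin 4 → XV) (l : Fin 4) (x y : XV) :
    formV I w (Function.update z l (x - y)) = formV I w (Function.update z l x) - formV I w (Function.update z l y) := by
  obtain ⟨M, hM⟩ := s5f_multilinear c0 C0 hc0 I w hw
  simp only [← hM]; exact M.map_update_sub z l x y

theorem loc_form_zero (hc0 : 0 < c0) (hw : Admissible c0 C0 I w) (z : Fin 4 → XV) (l : Fin 4) :
    formV I w (Function.update z l 0) = 0 := by
  obtain ⟨M, hM⟩ := s5f_multilinear c0 C0 hc0 I w hw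
  simp only [← hM]; exact M.map_update_zero z l

theorem loc_form_sum (hc0 : 0 < c0) (hw : Admissible c0 C0 I w) (z : Fin 4 → XV) (l : Fin 4) {ι : Type*} (s : Finset ι)
    (x : ι → XV) :
    formV I w (Function.update z l (∑ i ∈ s, x i)) = ∑ i ∈ s, formV I w (Function.update z l (x i)) := by
  obtain ⟨M, hM⟩ := s5f_multilinear c0 C0 hc0 I w hw
  simp only [← hM]; exact M.map_update_sum s l x z

/-- locality in one slot -/
theorem loc_form_restr (hc0 : 0 < c0) (hw : Admissible c0 C0 I w) (z : Fin 4 → XV) (l : Fin 4) (x : XV) :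
    formV I w (Function.update z l (restr I.set x)) = formV I w (Function.update z l x) := by
  rw [← s5f_restr c0 C0 hc0 I w hw (Function.update z l (restr I.set x)),
    ← s5f_restr c0 C0 hc0 I w hw (Function.update z l x)]
  congr 1; funext j
  by_cases h : j = l
  · subst h; simp [xv_restr_idem]
  · simp [Function.update_of_ne h]

/-- the product of the sizes of the two spectators -/
noncomputable def loc_oth (I : Cell) (z : Fin 4 → XV) (l l' : Fin 4) : ℝ :=
  ∏ j ∈ (Finset.univ.erase l).erase l', n2 I (z j)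

theorem loc_oth_nonneg (z : Fin 4 → XV) (l l' : Fin 4) : 0 ≤ loc_oth I z l l' :=
  Finset.prod_nonneg fun _ _ => s5f_n2_nonneg _ _

theorem loc_oth_comm (z : Fin 4 → XV) (l l' : Fin 4) : loc_oth I z l l' = loc_oth I z l' l := by
  unfold loc_oth; rw [Finset.erase_right_comm]

/-- the spectator product does not see the two distinguished slots -/
theorem loc_oth_update_left (z : Fin 4 → XV) (l l' : Fin 4) (x : XV) :
    loc_oth I (Function.update z l x) l l' = loc_oth I z l l' := by
  unfold loc_oth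
  refine Finset.prod_congr rfl fun j hj => ?_
  have : j ≠ l := (Finset.mem_erase.1 (Finset.mem_erase.1 hj).2).1
  rw [Function.update_of_ne this]

theorem loc_oth_update_right (z : Fin 4 → XV) (l l' : Fin 4) (x : XV) :
    loc_oth I (Function.update z l' x) l l' = loc_oth I z l l' := by
  rw [loc_oth_comm, loc_oth_update_left, loc_oth_comm]

theorem loc_oth_le {z : Fin 4 → XV} {l l' : Fin 4} (hl : l ≠ l') {c : ℝ} (hz : ∀ j, j ≠ l → j ≠ l' → n2 I (z j) ≤ c) :
    loc_oth I z l l' ≤ c ^ 2 := by
  unfold loc_oth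
  have hcard : ((Finset.univ.erase l).erase l' : Finset (Fin 4)).card = 2 := by
    rw [Finset.card_erase_of_mem (Finset.mem_erase.2 ⟨hl.symm, Finset.mem_univ _⟩),
      Finset.card_erase_of_mem (Finset.mem_univ _)]; simp
  calc ∏ j ∈ (Finset.univ.erase l).erase l', n2 I (z j) ≤ ∏ _j ∈ (Finset.univ.erase l).erase l', c := by
        refine Finset.prod_le_prod (fun _ _ => s5f_n2_nonneg _ _) fun j hj => ?_
        exact hz j (Finset.mem_erase.1 (Finset.mem_erase.1 hj).2).1 (Finset.mem_erase.1 hj).1
    _ = c ^ 2 := by rw [Finset.prod_const, hcard]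

theorem PairSmall.le {l l' : Fin 4} {x y : XV} {t : ℝ} (h : PairSmall I w l l' x y t) (z : Fin 4 → XV) (h1 : z l = x)
    (h2 : z l' = y) : ‖formV I w z‖ ≤ t * loc_oth I z l l' := h z h1 h2

theorem PairSmall.mono {l l' : Fin 4} {x y : XV} {t t' : ℝ} (h : PairSmall I w l l' x y t) (ht : t ≤ t') :
    PairSmall I w l l' x y t' := fun z h1 h2 =>
  (h z h1 h2).trans (mul_le_mul_of_nonneg_right ht (loc_oth_nonneg z l l'))

theorem PairSmall.symm {l l' : Fin 4} {x y : XV} {t : ℝ} (h : PairSmall I w l l' x y t) : PairSmall I w l' l y x t := by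
  intro z h1 h2
  have := h z h2 h1
  rwa [Finset.erase_right_comm] at this

/-- linear combinations in the SECOND argument -/
theorem loc_pair_sum_right (hc0 : 0 < c0) (hw : Admissible c0 C0 I w) {l l' : Fin 4} (hl : l ≠ l') {ι : Type*} (s : Finset ι)
    (a : ι → ℂ) (x : XV) (y : ι → XV) (t : ι → ℝ) (h : ∀ i ∈ s, PairSmall I w l l' x (y i) (t i)) :
    PairSmall I w l l' x (∑ i ∈ s, a i • y i) (∑ i ∈ s, ‖a i‖ * t i) := by
  intro z h1 h2
  have hz : z = Function.update z l' (∑ i ∈ s, a i • y i) := by rw [← h2, Function.update_eq_self]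
  rw [hz, loc_form_sum hc0 hw]
  change _ ≤ _ * loc_oth I (Function.update z l' _) l l'
  rw [loc_oth_update_right, Finset.sum_mul]
  refine (norm_sum_le _ _).trans (Finset.sum_le_sum fun i hi => ?_)
  rw [loc_form_smul hc0 hw, norm_mul, mul_assoc]
  refine mul_le_mul_of_nonneg_left ?_ (norm_nonneg _)
  have := (h i hi).le (Function.update z l' (y i)) (by rw [Function.update_of_ne hl, h1]) (by simp)
  rwa [loc_oth_update_right] at this

/-- linear combinations in the FIRST argument -/
theorem loc_pair_sum_left (hc0 : 0 < c0) (hw : Admissible c0 C0 I w) {l l' : Fin 4} (hl : l ≠ l') {ι : Type*} (s : Finset ι)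
    (a : ι → ℂ) (x : ι → XV) (y : XV) (t : ι → ℝ) (h : ∀ i ∈ s, PairSmall I w l l' (x i) y (t i)) :
    PairSmall I w l l' (∑ i ∈ s, a i • x i) y (∑ i ∈ s, ‖a i‖ * t i) :=
  (loc_pair_sum_right hc0 hw hl.symm s a y x t fun i hi => (h i hi).symm).symm

/-- uniform tolerance, first argument -/
theorem loc_pair_sum_left' (hc0 : 0 < c0) (hw : Admissible c0 C0 I w) {l l' : Fin 4} (hl : l ≠ l') {ι : Type*} (s : Finset ι)
    (a : ι → ℂ) (x : ι → XV) (y : XV) (t : ℝ) (h : ∀ i ∈ s, PairSmall I w l l' (x i) y t) :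
    PairSmall I w l l' (∑ i ∈ s, a i • x i) y ((∑ i ∈ s, ‖a i‖) * t) := by
  rw [Finset.sum_mul]; exact loc_pair_sum_left hc0 hw hl s a x y _ h

theorem loc_pair_sum_right' (hc0 : 0 < c0) (hw : Admissible c0 C0 I w) {l l' : Fin 4} (hl : l ≠ l') {ι : Type*} (s : Finset ι)
    (a : ι → ℂ) (x : XV) (y : ι → XV) (t : ℝ) (h : ∀ i ∈ s, PairSmall I w l l' x (y i) t) :
    PairSmall I w l l' x (∑ i ∈ s, a i • y i) ((∑ i ∈ s, ‖a i‖) * t) := by
  rw [Finset.sum_mul]; exact loc_pair_sum_right hc0 hw hl s a x y _ h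

/-- averages over the pads `1 ≤ pd ≤ P` in the second argument -/
theorem loc_pair_avg_right (hc0 : 0 < c0) (hw : Admissible c0 C0 I w) {l l' : Fin 4} (hl : l ≠ l') {P : ℕ} (hP : 1 ≤ P)
    (x : XV) (y : ℕ → XV) (t : ℝ) (h : ∀ pd ∈ Finset.Icc 1 P, PairSmall I w l l' x (y pd) t) :
    PairSmall I w l l' x (((P : ℂ)⁻¹) • ∑ pd ∈ Finset.Icc 1 P, y pd) t := by
  have h1 := loc_pair_sum_right' hc0 hw hl (Finset.Icc 1 P) (fun _ => ((P : ℂ)⁻¹)) x y t h
  rw [← Finset.smul_sum] at h1
  have h2 : (∑ _i ∈ Finset.Icc 1 P, ‖((P : ℂ)⁻¹)‖) = 1 := by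
    have hP' : (P : ℝ) ≠ 0 := by positivity
    simp [Finset.sum_const, Nat.card_Icc, norm_inv, hP']
  rwa [h2, one_mul] at h1

theorem loc_pair_sub_right (hc0 : 0 < c0) (hw : Admissible c0 C0 I w) {l l' : Fin 4} (hl : l ≠ l') {x y y' : XV} {t t' : ℝ}
    (h : PairSmall I w l l' x y t) (h' : PairSmall I w l l' x y' t') : PairSmall I w l l' x (y - y') (t + t') := by
  have := loc_pair_sum_right hc0 hw hl (Finset.univ : Finset (Fin 2)) ![1, -1] x ![y, y'] ![t, t']
    (by intro i _; fin_cases i <;> simpa)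
  simpa [Fin.sum_univ_two, sub_eq_add_neg] using this

theorem loc_pair_zero_right (hc0 : 0 < c0) (hw : Admissible c0 C0 I w) (l l' : Fin 4) (x : XV) : PairSmall I w l l' x 0 0 := by
  intro z _ h2
  have hz : z = Function.update z l' 0 := by rw [← h2, Function.update_eq_self]
  rw [hz, loc_form_zero hc0 hw]; simp

/-- the second argument may be restricted to the cell -/
theorem loc_pair_restr_right (hc0 : 0 < c0) (hw : Admissible c0 C0 I w) {l l' : Fin 4} {x y : XV} {t : ℝ}
    (h : PairSmall I w l l' x (restr I.set y) t) (hl : l ≠ l') : PairSmall I w l l' x y t := by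
  intro z h1 h2
  have hz : z = Function.update z l' y := by rw [← h2, Function.update_eq_self]
  have := h.le (Function.update z l' (restr I.set y)) (by rw [Function.update_of_ne hl, h1]) (by simp)
  rw [loc_form_restr hc0 hw, loc_oth_update_right, ← hz] at this
  exact this

/-- replacing the argument in the slot `l'`, the slot `l` being occupied by `x` -/
theorem loc_form_replace (hc0 : 0 < c0) (hw : Admissible c0 C0 I w) {l l' : Fin 4} (hl : l ≠ l') (z : Fin 4 → XV) (y' : XV)
    {t : ℝ} (h : PairSmall I w l l' (z l) (z l' - y') t) :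
    ‖formV I w z - formV I w (Function.update z l' y')‖ ≤ t * loc_oth I z l l' := by
  have hz : formV I w z = formV I w (Function.update z l' (z l')) := by rw [Function.update_eq_self]
  rw [hz, ← loc_form_sub hc0 hw]
  have := h.le (Function.update z l' (z l' - y')) (by rw [Function.update_of_ne hl]) (by simp)
  rwa [loc_oth_update_right] at this

end

end Claimed.Agent.R258
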