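/-
Row 258 (S0498), Sec. 6.4 (architect helper68).  FILE Filt: API of the cell-local column projections and of the generic smeared filters.
No paper reading.  Tools: block [XV] (`R258/XV/*.lean`, all proved), `Loc/Pair.lean`, `Loc/Gen.lean`.

LEAF P-LOC-COEF  = section `coef`  (private coordinate lower bound, `ℓ¹` coefficient bound, expansion of a projection).
LEAF P-LOC-FILT  = section `filt`  (contractions, supports, expansions of `gQ`, `gQbar`, `gEval`).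
LEAF P-LOC-SEPP  = section `sep`   (Lemma 6.1 in the form of `PairSmall` / inner products of column vectors).

PROOF PLANS.
* `loc_coef_lower`: put `z = ∑ a Φ • Φ.vec I`.  For `Φ ∈ A`: `xvCoord (Φ.lab+1) z =ᵐ I.set.indicator (fun _ => a Φ * √ε_Φ)` (`xv_coord_sum`, `xv_coord_smul`,
  `xv_vec_ae`, `xv_fn_lab`, `xv_fn_ne`, labels are distinct).  For `h : HV` and a finite set `s` of coordinates `∑_{k ∈ s} ‖h k‖² ≤ ‖h‖²`
  (`lp.norm_sq_eq_of_L2` / `hasSum`, `sum_le_hasSum`).  Integrate over `I.set` (`xv_normsq_eq_integral`, `setIntegral_mono`, `cell_volume`).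
* `loc_coef_l1`: Cauchy-Schwarz `∑ ‖a‖ ≤ √card √(∑ ‖a‖²)`, `‖a Φ‖² ≤ W² ‖a Φ‖² ε_Φ`, `restr I z = z`, `n2 I z = ‖z‖/√|I|`.
* `loc_cproj_expand`: `xv_cproj_exists_coef`, `loc_coef_l1`, `loc_n2_cproj_le`.
* `gQbar_expand`: extend the coefficients of `gQ .. pd` by zero to `glm .. P` (`glm_mono_pad`), average; the `ℓ¹` norm of an average is at most the maximum.
* `loc_pair_of_sep`: for `z` with `z i = Φ.vec I`, `z j = Ψ.vec I` put `g l = physFn (z l)` for `l ≠ i, j`, `g i = a.eval`, `g j = a'.eval`;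
  `formV I w z = form I w g` by `s5f_form_congr` (`xv_physFn_vec`: `physFn (Φ.vec I) = φ` a.e. on `I`); `nnorm 2 I (physFn x) ≤ n2 I x`.
* `loc_inner_of_sep`: `⟪Φ.vec I, Ψ.vec I⟫ = |I| mom I (Ψ.vec I) φ + √ε ∫_I (Ψ.vec I)_{lab Φ + 1}`, (`xv_inner_vec`), the last term vanishes as `Φ.lab ≠ Ψ.lab`.
-/
import Claimed.Agent.R258.Pack020
import Claimed.Agent.R258.Pack017

set_option autoImplicit false
open MeasureTheory
open scoped InnerProductSpace

namespace Claimed.Agent.R258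

section coef

/-- **private coordinate lower bound** (Lemma 3.2) -/
theorem loc_coef_lower (A : Finset Col) (I : Cell) (hlab : ∀ Φ ∈ A, ∀ Φ' ∈ A, Φ.lab = Φ'.lab → Φ = Φ')
    (hreg : ∀ Φ ∈ A, Φ.Reg I) (heps : ∀ Φ ∈ A, 0 ≤ Φ.eps) (a : Col → ℂ) :
    I.len * ∑ Φ ∈ A, ‖a Φ‖ ^ 2 * Φ.eps ≤ ‖∑ Φ ∈ A, a Φ • Φ.vec I‖ ^ 2 := by
  have h := xv_lower hreg hlab heps a
  simpa only [mul_comm] using h

/-- `ℓ¹` bound of the coefficients -/
theorem loc_coef_l1 (A : Finset Col) (I : Cell) (W : ℝ) (hW : 0 < W) (hlab : ∀ Φ ∈ A, ∀ Φ' ∈ A, Φ.lab = Φ'.lab → Φ = Φ')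
    (hreg : ∀ Φ ∈ A, Φ.Reg I) (heps : ∀ Φ ∈ A, W⁻¹ ≤ Real.sqrt Φ.eps) (a : Col → ℂ) :
    ∑ Φ ∈ A, ‖a Φ‖ ≤ W * Real.sqrt A.card * n2 I (∑ Φ ∈ A, a Φ • Φ.vec I) := by
  set z : XV := ∑ Φ ∈ A, a Φ • Φ.vec I with hz
  have hL := cell_len_pos I
  have hWi : 0 < W⁻¹ := inv_pos.2 hW
  have heps0 : ∀ Φ ∈ A, 0 ≤ Φ.eps := fun Φ hΦ =>
    (Real.sqrt_pos.1 (hWi.trans_le (heps Φ hΦ))).le
  have hlow := loc_coef_lower A I hlab hreg heps0 a
  rw [← hz] at hlow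
  have hrz : restr I.set z = z := by
    rw [hz, map_sum]
    refine Finset.sum_congr rfl fun Φ _ => ?_
    rw [map_smul, xv_restr_vec_self]
  have hn2 : ‖z‖ ^ 2 = n2 I z ^ 2 * I.len := by
    rw [← xv_normsq_restr_eq, hrz]
  have h1 : ∀ Φ ∈ A, ‖a Φ‖ ^ 2 ≤ W ^ 2 * (‖a Φ‖ ^ 2 * Φ.eps) := by
    intro Φ hΦ
    have h2 : (W⁻¹) ^ 2 ≤ Φ.eps := by
      have := pow_le_pow_left₀ hWi.le (heps Φ hΦ) 2
      rwa [Real.sq_sqrt (heps0 Φ hΦ)] at this
    have h3 : 1 ≤ W ^ 2 * Φ.eps := by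
      have : W ^ 2 * (W⁻¹) ^ 2 = 1 := by
        rw [← mul_pow, mul_inv_cancel₀ hW.ne', one_pow]
      calc (1 : ℝ) = W ^ 2 * (W⁻¹) ^ 2 := this.symm
        _ ≤ W ^ 2 * Φ.eps := by gcongr
    calc ‖a Φ‖ ^ 2 = ‖a Φ‖ ^ 2 * 1 := (mul_one _).symm
      _ ≤ ‖a Φ‖ ^ 2 * (W ^ 2 * Φ.eps) := by gcongr
      _ = _ := by ring
  have h2 : ∑ Φ ∈ A, ‖a Φ‖ ^ 2 ≤ W ^ 2 * n2 I z ^ 2 := by
    calc ∑ Φ ∈ A, ‖a Φ‖ ^ 2 ≤ ∑ Φ ∈ A, W ^ 2 * (‖a Φ‖ ^ 2 * Φ.eps) := Finset.sum_le_sum h1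
      _ = W ^ 2 * ∑ Φ ∈ A, ‖a Φ‖ ^ 2 * Φ.eps := by rw [Finset.mul_sum]
      _ ≤ W ^ 2 * n2 I z ^ 2 := by
          gcongr
          rw [hn2] at hlow
          have : I.len * ∑ Φ ∈ A, ‖a Φ‖ ^ 2 * Φ.eps ≤ I.len * n2 I z ^ 2 := by linarith
          exact le_of_mul_le_mul_left this hL
  have h3 : (∑ Φ ∈ A, ‖a Φ‖) ^ 2 ≤ A.card * ∑ Φ ∈ A, ‖a Φ‖ ^ 2 := sq_sum_le_card_mul_sum_sq
  have h4 : 0 ≤ W * Real.sqrt A.card * n2 I z :=
    mul_nonneg (mul_nonneg hW.le (Real.sqrt_nonneg _)) (xv_n2_nonneg I z)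
  refine le_of_pow_le_pow_left₀ (two_ne_zero) h4 ?_
  calc (∑ Φ ∈ A, ‖a Φ‖) ^ 2 ≤ A.card * ∑ Φ ∈ A, ‖a Φ‖ ^ 2 := h3
    _ ≤ A.card * (W ^ 2 * n2 I z ^ 2) := by gcongr
    _ = (W * Real.sqrt A.card * n2 I z) ^ 2 := by
        rw [mul_pow, mul_pow, Real.sq_sqrt (Nat.cast_nonneg _)]
        ring

theorem loc_n2_cproj_le (A : Finset Col) (I : Cell) (x : XV) : n2 I (cproj A I x) ≤ n2 I x := by
  apply xv_n2_le_of_norm_le
  rw [xv_restr_cproj]; exact xv_norm_cproj_le_restr A I x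

theorem loc_n2_res_le (A : Finset Col) (I : Cell) (x : XV) : n2 I ((restr I.set - cproj A I) x) ≤ n2 I x := by
  apply xv_n2_le_of_norm_le
  have h1 : (restr I.set - cproj A I) x = restr I.set x - cproj A I (restr I.set x) := by
    rw [sub_apply, xv_cproj_restr]
  rw [h1, map_sub, xv_restr_idem, xv_restr_cproj]
  exact xv_norm_sub_proj_le _ _

/-- expansion of an outer primal range with the coefficient bound `W √card ‖input‖_{2,I}` -/
theorem loc_cproj_expand (A : Finset Col) (I : Cell) (W : ℝ) (hW : 0 < W)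
    (hlab : ∀ Φ ∈ A, ∀ Φ' ∈ A, Φ.lab = Φ'.lab → Φ = Φ') (hreg : ∀ Φ ∈ A, Φ.Reg I)
    (heps : ∀ Φ ∈ A, W⁻¹ ≤ Real.sqrt Φ.eps) (x : XV) :
    ∃ a : Col → ℂ, cproj A I x = ∑ Φ ∈ A, a Φ • Φ.vec I ∧ ∑ Φ ∈ A, ‖a Φ‖ ≤ W * Real.sqrt A.card * n2 I x := by
  obtain ⟨a, ha⟩ := xv_cproj_exists_coef A I x
  refine ⟨a, ha, (loc_coef_l1 A I W hW hlab hreg heps a).trans ?_⟩
  rw [← ha]
  exact mul_le_mul_of_nonneg_left (loc_n2_cproj_le A I x) (by positivity)

end coef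

/-- `n2` of a finite sum -/
theorem loc_filt_n2_sum_le {ι : Type*} (s : Finset ι) (I : Cell) (F : ι → XV) :
    n2 I (∑ i ∈ s, F i) ≤ ∑ i ∈ s, n2 I (F i) := by
  classical
  induction s using Finset.induction_on with
  | empty => simp [xv_n2_zero]
  | insert a s ha ih =>
    rw [Finset.sum_insert ha, Finset.sum_insert ha]
    exact (xv_n2_add_le I _ _).trans (by linarith)

/-- `n2` of an average -/
theorem loc_filt_n2_avg_le (P : ℕ) (hP : 1 ≤ P) (I : Cell) (F : ℕ → XV) {B : ℝ}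
    (h : ∀ pd ∈ Finset.Icc 1 P, n2 I (F pd) ≤ B) :
    n2 I (((P : ℂ)⁻¹) • ∑ pd ∈ Finset.Icc 1 P, F pd) ≤ B := by
  have hP0 : (0 : ℝ) < P := by exact_mod_cast hP
  rw [xv_n2_smul, norm_inv, Complex.norm_natCast]
  calc (P : ℝ)⁻¹ * n2 I (∑ pd ∈ Finset.Icc 1 P, F pd)
      ≤ (P : ℝ)⁻¹ * ∑ pd ∈ Finset.Icc 1 P, n2 I (F pd) := by
        gcongr
        exact loc_filt_n2_sum_le _ I F
    _ ≤ (P : ℝ)⁻¹ * ∑ _pd ∈ Finset.Icc 1 P, B := by
        gcongr with pd hpd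
        exact h pd hpd
    _ = B := by
        rw [Finset.sum_const, Nat.card_Icc, nsmul_eq_mul]
        simp only [add_tsub_cancel_right]
        field_simp

namespace LocSys

section filt
variable {Tag : Type} (Y : LocSys Tag) (c : LocCat) (ρ : LocFilt → ℕ)

theorem n2_gQ_le (l : Fin 4) (f : LocFilt) (pd : ℕ) (I : Cell) (x : XV) : n2 I (Y.gQ c ρ l f pd I x) ≤ n2 I x :=
  loc_n2_cproj_le _ I x

theorem n2_gRes_le (l : Fin 4) (f : LocFilt) (pd : ℕ) (I : Cell) (x : XV) :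
    n2 I ((restr I.set - Y.gQ c ρ l f pd I) x) ≤ n2 I x := loc_n2_res_le _ I x

/-- value of the average -/
theorem gQbar_apply (l : Fin 4) (f : LocFilt) (I : Cell) (x : XV) :
    Y.gQbar c ρ l f I x = ((Y.p.P : ℂ)⁻¹) • ∑ pd ∈ Finset.Icc 1 Y.p.P, Y.gQ c ρ l f pd I x := by
  simp [gQbar]

/-- the complement of the average is the average of the residual projections -/
theorem gRes_apply (hP : 1 ≤ Y.p.P) (l : Fin 4) (f : LocFilt) (I : Cell) (x : XV) :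
    (restr I.set - Y.gQbar c ρ l f I) x =
      ((Y.p.P : ℂ)⁻¹) • ∑ pd ∈ Finset.Icc 1 Y.p.P, (restr I.set - Y.gQ c ρ l f pd I) x := by
  have hP0 : (Y.p.P : ℂ) ≠ 0 := by
    have : Y.p.P ≠ 0 := by omega
    exact_mod_cast this
  simp only [sub_apply]
  rw [Finset.sum_sub_distrib, smul_sub, ← gQbar_apply, Finset.sum_const, Nat.card_Icc,
    add_tsub_cancel_right, ← Nat.cast_smul_eq_nsmul ℂ, smul_smul, inv_mul_cancel₀ hP0, one_smul]

theorem n2_gQbar_le (hP : 1 ≤ Y.p.P) (l : Fin 4) (f : LocFilt) (I : Cell) (x : XV) : n2 I (Y.gQbar c ρ l f I x) ≤ n2 I x := by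
  rw [gQbar_apply]
  exact loc_filt_n2_avg_le _ hP I _ fun pd _ => Y.n2_gQ_le c ρ l f pd I x

theorem n2_gResbar_le (hP : 1 ≤ Y.p.P) (l : Fin 4) (f : LocFilt) (I : Cell) (x : XV) :
    n2 I ((restr I.set - Y.gQbar c ρ l f I) x) ≤ n2 I x := by
  rw [Y.gRes_apply c ρ hP]
  exact loc_filt_n2_avg_le _ hP I _ fun pd _ => Y.n2_gRes_le c ρ l f pd I x

theorem n2_gEval_le (hP : 1 ≤ Y.p.P) (l : Fin 4) (I : Cell) (h : LocHist) (x : XV) : n2 I (Y.gEval c ρ l I h x) ≤ n2 I x := by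
  induction h with
  | nil => exact (xv_n2_restr I x).le
  | cons e t ih =>
    obtain ⟨f, b⟩ := e
    cases b
    · exact (Y.n2_gQbar_le c ρ hP l f I _).trans ih
    · exact (Y.n2_gResbar_le c ρ hP l f I _).trans ih

theorem restr_gQbar (l : Fin 4) (f : LocFilt) (I : Cell) (x : XV) :
    restr I.set (Y.gQbar c ρ l f I x) = Y.gQbar c ρ l f I x := by
  rw [gQbar_apply, map_smul, map_sum]
  congr 1
  exact Finset.sum_congr rfl fun pd _ => xv_restr_cproj _ I x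

theorem restr_gEval (l : Fin 4) (I : Cell) (h : LocHist) (x : XV) : restr I.set (Y.gEval c ρ l I h x) = Y.gEval c ρ l I h x := by
  cases h with
  | nil => exact xv_restr_idem _ _
  | cons e t =>
    obtain ⟨f, b⟩ := e
    cases b
    · exact Y.restr_gQbar c ρ l f I _
    · show restr I.set ((restr I.set - Y.gQbar c ρ l f I) (Y.gEval c ρ l I t x))
        = (restr I.set - Y.gQbar c ρ l f I) (Y.gEval c ρ l I t x)
      rw [sub_apply, map_sub, xv_restr_idem, Y.restr_gQbar c ρ l f I]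

theorem gEval_restr (l : Fin 4) (I : Cell) (h : LocHist) (x : XV) : Y.gEval c ρ l I h (restr I.set x) = Y.gEval c ρ l I h x := by
  induction h with
  | nil => exact xv_restr_idem _ _
  | cons e t ih =>
    obtain ⟨f, b⟩ := e
    cases b
    · show Y.gQbar c ρ l f I (Y.gEval c ρ l I t (restr I.set x)) = Y.gQbar c ρ l f I (Y.gEval c ρ l I t x)
      rw [ih]
    · show (restr I.set - Y.gQbar c ρ l f I) (Y.gEval c ρ l I t (restr I.set x))
        = (restr I.set - Y.gQbar c ρ l f I) (Y.gEval c ρ l I t x)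
      rw [ih]

end filt

section expand
variable (Y : LocSys LocTag) (c : LocCat) (ρ : LocFilt → ℕ) {D Hc : ℝ} {n : ℕ → ℝ}

/-- expansion of an individual projection: coefficient `ℓ¹` norm `≤ D √n_r ‖input‖_{2,I}`, `r = ρ f` -/
theorem gQ_expand (hD : 0 < D) (hc : Y.CatOk c D Hc) (hn : Y.CatCnt c n) (l : Fin 4) (f : LocFilt) (pd : ℕ) {I : Cell}
    (hI : I ≤ Y.X.root) (x : XV) :
    ∃ a : Col → ℂ, Y.gQ c ρ l f pd I x = ∑ Φ ∈ Y.glm c ρ l f pd I, a Φ • Φ.vec I ∧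
      ∑ Φ ∈ Y.glm c ρ l f pd I, ‖a Φ‖ ≤ D * Real.sqrt (n (ρ f)) * n2 I x := by
  have hsub : ∀ Φ ∈ Y.glm c ρ l f pd I, Φ ∈ c.cols := fun Φ hΦ => ((Y.mem_glm c ρ).1 hΦ).1
  obtain ⟨a, ha1, ha2⟩ := loc_cproj_expand (Y.glm c ρ l f pd I) I D hD
    (fun Φ hΦ Φ' hΦ' h => hc.lab_inj Φ (hsub Φ hΦ) Φ' (hsub Φ' hΦ') h)
    (fun Φ hΦ => hc.reg (hsub Φ hΦ) I) (fun Φ hΦ => (hc.eps Φ (hsub Φ hΦ)).1) x
  refine ⟨a, ha1, ha2.trans ?_⟩
  have h1 := Y.glm_card_le c ρ hn l f pd hI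
  have h2 := xv_n2_nonneg I x
  gcongr

/-- expansion of a positive smeared filter into the sources of its largest mask, keeping the average -/
theorem gQbar_expand (hD : 0 < D) (hP : 1 ≤ Y.p.P) (hc : Y.CatOk c D Hc) (hn : Y.CatCnt c n) (l : Fin 4) (f : LocFilt) {I : Cell}
    (hI : I ≤ Y.X.root) (x : XV) :
    ∃ a : Col → ℂ, Y.gQbar c ρ l f I x = ∑ Φ ∈ Y.glm c ρ l f Y.p.P I, a Φ • Φ.vec I ∧
      ∑ Φ ∈ Y.glm c ρ l f Y.p.P I, ‖a Φ‖ ≤ D * Real.sqrt (n (ρ f)) * n2 I x := by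
  classical
  have hP0 : (0 : ℝ) < Y.p.P := by exact_mod_cast hP
  have hex := fun pd => Y.gQ_expand c ρ hD hc hn l f pd hI x
  choose a ha1 ha2 using hex
  set B : ℝ := D * Real.sqrt (n (ρ f)) * n2 I x with hB
  set G : Finset Col := Y.glm c ρ l f Y.p.P I with hG
  have hsub : ∀ pd ∈ Finset.Icc 1 Y.p.P, Y.glm c ρ l f pd I ⊆ G := fun pd hpd =>
    Y.glm_mono_pad c ρ l f (Finset.mem_Icc.1 hpd).2 I
  set a' : ℕ → Col → ℂ := fun pd Φ => if Φ ∈ Y.glm c ρ l f pd I then a pd Φ else 0 with ha'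
  have hext : ∀ pd ∈ Finset.Icc 1 Y.p.P, Y.gQ c ρ l f pd I x = ∑ Φ ∈ G, a' pd Φ • Φ.vec I := by
    intro pd hpd
    rw [ha1 pd]
    rw [← Finset.sum_subset (hsub pd hpd)]
    · refine Finset.sum_congr rfl fun Φ hΦ => ?_
      simp only [ha', if_pos hΦ]
    · intro Φ _ hΦ
      simp only [ha', if_neg hΦ, zero_smul]
  have hextn : ∀ pd ∈ Finset.Icc 1 Y.p.P, ∑ Φ ∈ G, ‖a' pd Φ‖ ≤ B := by
    intro pd hpd
    rw [← Finset.sum_subset (hsub pd hpd)]
    · refine le_trans (le_of_eq ?_) (ha2 pd)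
      refine Finset.sum_congr rfl fun Φ hΦ => ?_
      simp only [ha', if_pos hΦ]
    · intro Φ _ hΦ
      simp only [ha', if_neg hΦ, norm_zero]
  refine ⟨fun Φ => ((Y.p.P : ℂ)⁻¹) * ∑ pd ∈ Finset.Icc 1 Y.p.P, a' pd Φ, ?_, ?_⟩
  · rw [gQbar_apply, Finset.sum_congr rfl hext, Finset.sum_comm, Finset.smul_sum]
    refine Finset.sum_congr rfl fun Φ _ => ?_
    rw [← Finset.sum_smul, smul_smul]
  · calc ∑ Φ ∈ G, ‖((Y.p.P : ℂ)⁻¹) * ∑ pd ∈ Finset.Icc 1 Y.p.P, a' pd Φ‖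
        ≤ ∑ Φ ∈ G, (Y.p.P : ℝ)⁻¹ * ∑ pd ∈ Finset.Icc 1 Y.p.P, ‖a' pd Φ‖ := by
          refine Finset.sum_le_sum fun Φ _ => ?_
          rw [norm_mul, norm_inv, Complex.norm_natCast]
          gcongr
          exact norm_sum_le _ _
      _ = (Y.p.P : ℝ)⁻¹ * ∑ pd ∈ Finset.Icc 1 Y.p.P, ∑ Φ ∈ G, ‖a' pd Φ‖ := by
          rw [← Finset.mul_sum, Finset.sum_comm]
      _ ≤ (Y.p.P : ℝ)⁻¹ * ∑ _pd ∈ Finset.Icc 1 Y.p.P, B := by
          gcongr with pd hpd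
          exact hextn pd hpd
      _ = B := by
          rw [Finset.sum_const, Nat.card_Icc, nsmul_eq_mul]
          simp only [add_tsub_cancel_right]
          field_simp

end expand

end LocSys

section sep
variable {T : LocTagSys LocTag} {c0 C0 Hc τ2 : ℝ} {dmax : ℕ} {Hb : ℝ}

theorem loc_nnorm_phys_le (I : Cell) (x : XV) : nnorm 2 I (physFn x) ≤ n2 I x :=
  s5f_nnorm_phys_le I x

/-- a bounded chart atom is square integrable on a cell -/
theorem loc_sepp_memLp_chart {a : Chart} (ha : a.Cplx Hc) (hb : a.Bdd) (I : Cell) :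
    MemLp a.eval 2 (volume.restrict I.set) := by
  have := xv_cell_finite I
  exact MemLp.of_bound (xv_chart_measurable a ha).aestronglyMeasurable 1
    (Filter.Eventually.of_forall hb)

theorem loc_sepp_nnorm_one (I : Cell) : nnorm 2 I (fun _ : ℝ => (1 : ℂ)) = 1 := by
  unfold nnorm
  simp only [norm_one, Real.one_rpow]
  rw [cell_integral_const, mul_one, inv_mul_cancel₀ (cell_len_ne_zero I), Real.one_rpow]

/-- the tolerance of a nonvacuous instance of `LocSepOk.cross` is nonnegative -/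
theorem loc_sepp_tau_nonneg (hsep : LocSepOk T c0 C0 Hc τ2 dmax Hb) (a a' : Chart) (i j : Fin 4) (I : Cell)
    (w : ℝ × ℝ → ℂ) (hij : i ≠ j) (hw : Admissible c0 C0 I w)
    (ha : a.Cplx Hc) (ha' : a'.Cplx Hc) (hb : a.Bdd) (hb' : a'.Bdd) (ht : (a.tag i).Ok dmax Hb) (ht' : (a'.tag j).Ok dmax Hb)
    (hd : 1 < T.d I.depth (a.tag i) (a'.tag j)) : 0 ≤ τ2 := by
  have := xv_cell_finite I
  set g : Fin 4 → ℝ → ℂ := fun l => if l = i then a.eval else if l = j then a'.eval else fun _ => 1 with hg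
  have hgi : g i = a.eval := by simp [hg]
  have hgj : g j = a'.eval := by simp [hg, hij.symm]
  have hmem : ∀ l, MemLp (g l) 2 (volume.restrict I.set) := by
    intro l
    by_cases hli : l = i
    · subst hli; rw [hgi]; exact loc_sepp_memLp_chart ha hb I
    · by_cases hlj : l = j
      · subst hlj; rw [hgj]; exact loc_sepp_memLp_chart ha' hb' I
      · simp only [hg, if_neg hli, if_neg hlj]
        exact memLp_const 1
  have h := hsep.cross a a' i j I w hij hw ha ha' hb hb' ht ht' hd g hmem hgi hgj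
  have hprod : ∏ l ∈ (Finset.univ.erase i).erase j, nnorm 2 I (g l) = 1 := by
    refine Finset.prod_eq_one fun l hl => ?_
    have hlj : l ≠ j := (Finset.mem_erase.1 hl).1
    have hli : l ≠ i := (Finset.mem_erase.1 (Finset.mem_erase.1 hl).2).1
    simp only [hg, if_neg hli, if_neg hlj]
    exact loc_sepp_nnorm_one I
  rw [hprod, mul_one] at h
  exact (norm_nonneg _).trans h

theorem loc_sepp_phys_vec {Φ : Col} {I : Cell} (h : Φ.Reg I) :
    physFn (Φ.vec I) =ᵐ[volume.restrict I.set] Φ.phi :=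
  Filter.EventuallyEq.trans (ae_restrict_of_ae (xv_physFn_vec h))
    (indicator_ae_eq_restrict (cell_measurableSet I))

/-- Lemma 6.1, distinct slots, for column vectors -/
theorem loc_pair_of_sep (hc0 : 0 < c0) (hsep : LocSepOk T c0 C0 Hc τ2 dmax Hb) (Φ Ψ : Col) (a a' : Chart) (i j : Fin 4) (I : Cell)
    (w : ℝ × ℝ → ℂ) (hij : i ≠ j) (hw : Admissible c0 C0 I w) (hΦ : Φ.phi = a.eval) (hΨ : Ψ.phi = a'.eval)
    (ha : a.Cplx Hc) (ha' : a'.Cplx Hc) (hb : a.Bdd) (hb' : a'.Bdd) (ht : (a.tag i).Ok dmax Hb) (ht' : (a'.tag j).Ok dmax Hb)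
    (hd : 1 < T.d I.depth (a.tag i) (a'.tag j)) : PairSmall I w i j (Φ.vec I) (Ψ.vec I) τ2 := by
  have hτ : 0 ≤ τ2 := loc_sepp_tau_nonneg hsep a a' i j I w hij hw ha ha' hb hb' ht ht' hd
  intro z h1 h2
  set g : Fin 4 → ℝ → ℂ := fun l => if l = i then a.eval else if l = j then a'.eval else physFn (z l) with hg
  have hgi : g i = a.eval := by simp [hg]
  have hgj : g j = a'.eval := by simp [hg, hij.symm]
  have hgo : ∀ l, l ≠ i → l ≠ j → g l = physFn (z l) := by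
    intro l hli hlj
    simp only [hg, if_neg hli, if_neg hlj]
  have hmem : ∀ l, MemLp (g l) 2 (volume.restrict I.set) := by
    intro l
    by_cases hli : l = i
    · subst hli; rw [hgi]; exact loc_sepp_memLp_chart ha hb I
    · by_cases hlj : l = j
      · subst hlj; rw [hgj]; exact loc_sepp_memLp_chart ha' hb' I
      · rw [hgo l hli hlj]
        exact (xv_physFn_memLp (z l)).restrict _
  have hform : formV I w z = form I w g := by
    unfold formV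
    refine s5f_form_congr c0 C0 hc0 I w hw _ _ fun l => ?_
    by_cases hli : l = i
    · subst hli
      rw [hgi, h1, ← hΦ]
      exact loc_sepp_phys_vec (xv_reg_of_chart hΦ ha hb I)
    · by_cases hlj : l = j
      · subst hlj
        rw [hgj, h2, ← hΨ]
        exact loc_sepp_phys_vec (xv_reg_of_chart hΨ ha' hb' I)
      · rw [hgo l hli hlj]
  rw [hform]
  refine (hsep.cross a a' i j I w hij hw ha ha' hb hb' ht ht' hd g hmem hgi hgj).trans ?_
  refine mul_le_mul_of_nonneg_left ?_ hτ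
  refine Finset.prod_le_prod (fun l _ => nnorm_nonneg _ _ _) fun l hl => ?_
  have hlj : l ≠ j := (Finset.mem_erase.1 hl).1
  have hli : l ≠ i := (Finset.mem_erase.1 (Finset.mem_erase.1 hl).2).1
  rw [hgo l hli hlj]
  exact s5f_nnorm_phys_le I (z l)

theorem loc_sepp_smom_conj (I : Cell) (f g : ℝ → ℂ) : smom I g f = (starRingEnd ℂ) (smom I f g) := by
  unfold smom
  rw [map_mul, Complex.conj_ofReal, ← integral_conj]
  congr 1
  refine integral_congr_ae (Filter.Eventually.of_forall fun y => ?_)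
  simp [mul_comm]

/-- Lemma 6.1, same slot, for column vectors with distinct private labels -/
theorem loc_inner_of_sep (hsep : LocSepOk T c0 C0 Hc τ2 dmax Hb) (Φ Ψ : Col) (a a' : Chart) (i : Fin 4) (I : Cell)
    (hlab : Φ.lab ≠ Ψ.lab) (hΦ : Φ.phi = a.eval) (hΨ : Ψ.phi = a'.eval)
    (ha : a.Cplx Hc) (ha' : a'.Cplx Hc) (hb : a.Bdd) (hb' : a'.Bdd) (ht : (a.tag i).Ok dmax Hb) (ht' : (a'.tag i).Ok dmax Hb)
    (hd : 1 < T.d I.depth (a.tag i) (a'.tag i)) : ‖⟪Φ.vec I, Ψ.vec I⟫_ℂ‖ ≤ τ2 * I.len := by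
  have hL := cell_len_pos I
  rw [xv_inner_vec_of_privZero (xv_reg_of_chart hΦ ha hb I) (xv_vec_mem_privZero Ψ I hlab.symm)]
  have hmom : mom I (Ψ.vec I) Φ.phi = smom I a'.eval a.eval := by
    unfold mom smom
    congr 1
    refine integral_congr_ae ?_
    filter_upwards [loc_sepp_phys_vec (xv_reg_of_chart hΨ ha' hb' I)] with y hy
    rw [hy, hΨ, hΦ]
  rw [hmom, loc_sepp_smom_conj I a.eval a'.eval, norm_mul, RCLike.norm_conj, Complex.norm_real,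
    Real.norm_of_nonneg hL.le, mul_comm]
  exact mul_le_mul_of_nonneg_right (hsep.same a a' i I ha ha' hb hb' ht ht' hd) hL.le

end sep

end Claimed.Agent.R258
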