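/-
Row 258 (S0498), Sec. 6.4 (architect helper68).  FILE CatOps: extension of catalogs, insertion of one fresh column, locality of the label masks.
Everything is proved.
-/
import Claimed.Agent.R258.Loc.Filt

set_option autoImplicit false
open MeasureTheory

namespace Claimed.Agent.R258

namespace LocCat

/-- `c'` extends `c` without changing the data of the old labels -/
structure Le (c c' : LocCat) : Prop where
  sub : c.cols ⊆ c'.cols
  slot : ∀ Φ ∈ c.cols, c'.slot Φ.lab = c.slot Φ.lab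
  vtx : ∀ Φ ∈ c.cols, c'.vtx Φ.lab = c.vtx Φ.lab
  rank : ∀ Φ ∈ c.cols, c'.rank Φ.lab = c.rank Φ.lab
  chart : ∀ Φ ∈ c.cols, c'.chart Φ.lab = c.chart Φ.lab

theorem Le.refl (c : LocCat) : c.Le c := ⟨fun _ h => h, fun _ _ => rfl, fun _ _ => rfl, fun _ _ => rfl, fun _ _ => rfl⟩

theorem Le.trans {c c' c'' : LocCat} (h : c.Le c') (h' : c'.Le c'') : c.Le c'' :=
  ⟨fun _ hΦ => h'.sub (h.sub hΦ), fun Φ hΦ => (h'.slot Φ (h.sub hΦ)).trans (h.slot Φ hΦ),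
    fun Φ hΦ => (h'.vtx Φ (h.sub hΦ)).trans (h.vtx Φ hΦ), fun Φ hΦ => (h'.rank Φ (h.sub hΦ)).trans (h.rank Φ hΦ),
    fun Φ hΦ => (h'.chart Φ (h.sub hΦ)).trans (h.chart Φ hΦ)⟩

theorem mem_lm {c : LocCat} {l : Fin 4} {r : ℕ} {M : Set ℕ} {I : Cell} {Φ : Col} :
    Φ ∈ c.lm l r M I ↔ Φ ∈ c.cols ∧ I ≤ Φ.birth ∧ c.slot Φ.lab = l ∧ c.rank Φ.lab ≤ r ∧ c.vtx Φ.lab ∈ M := by
  classical
  simp only [lm, Finset.mem_filter]

theorem Le.lm_sub {c c' : LocCat} (h : c.Le c') (l : Fin 4) (r : ℕ) (M : Set ℕ) (I : Cell) : c.lm l r M I ⊆ c'.lm l r M I := by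
  intro Φ hΦ
  rw [mem_lm] at hΦ ⊢
  obtain ⟨h1, h2, h3, h4, h5⟩ := hΦ
  exact ⟨h.sub h1, h2, by rw [h.slot Φ h1, h3], by rw [h.rank Φ h1]; exact h4, by rw [h.vtx Φ h1]; exact h5⟩

/-- new columns that are not available on `I` do not change the label masks on `I` -/
theorem Le.lm_eq {c c' : LocCat} (h : c.Le c') {I : Cell} (hnew : ∀ Φ ∈ c'.cols, Φ ∉ c.cols → ¬ I ≤ Φ.birth) (l : Fin 4) (r : ℕ)
    (M : Set ℕ) : c'.lm l r M I = c.lm l r M I := by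
  apply Finset.Subset.antisymm _ (h.lm_sub l r M I)
  intro Φ hΦ
  rw [mem_lm] at hΦ ⊢
  obtain ⟨h1, h2, h3, h4, h5⟩ := hΦ
  have h0 : Φ ∈ c.cols := by
    by_contra hc; exact hnew Φ h1 hc h2
  exact ⟨h0, h2, by rw [← h.slot Φ h0, h3], by rw [← h.rank Φ h0]; exact h4, by rw [← h.vtx Φ h0]; exact h5⟩

open Classical in
/-- insertion of the column `Ψ` with slot `l`, attached vertex `v`, rank `r`, chart `ch` -/
noncomputable def ins (c : LocCat) (Ψ : Col) (l : Fin 4) (v r : ℕ) (ch : Chart) : LocCat where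
  cols := insert Ψ c.cols
  slot := Function.update c.slot Ψ.lab l
  vtx := Function.update c.vtx Ψ.lab v
  rank := Function.update c.rank Ψ.lab r
  chart := Function.update c.chart Ψ.lab ch

section ins
variable (c : LocCat) (Ψ : Col) (l : Fin 4) (v r : ℕ) (ch : Chart)

theorem mem_ins {Φ : Col} : Φ ∈ (c.ins Ψ l v r ch).cols ↔ Φ = Ψ ∨ Φ ∈ c.cols := by
  classical
  simp [ins]

@[simp] theorem ins_slot_self : (c.ins Ψ l v r ch).slot Ψ.lab = l := by simp [ins]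
@[simp] theorem ins_vtx_self : (c.ins Ψ l v r ch).vtx Ψ.lab = v := by simp [ins]
@[simp] theorem ins_rank_self : (c.ins Ψ l v r ch).rank Ψ.lab = r := by simp [ins]
@[simp] theorem ins_chart_self : (c.ins Ψ l v r ch).chart Ψ.lab = ch := by simp [ins]

theorem le_ins (hfresh : ∀ Φ ∈ c.cols, Φ.lab ≠ Ψ.lab) : c.Le (c.ins Ψ l v r ch) := by
  classical
  refine ⟨fun Φ hΦ => (mem_ins c Ψ l v r ch).2 (Or.inr hΦ), ?_, ?_, ?_, ?_⟩ <;>
  · intro Φ hΦ
    simp [ins, Function.update_of_ne (hfresh Φ hΦ)]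

end ins

end LocCat

namespace LocSys

variable {Tag : Type} (Y : LocSys Tag) (ρ : LocFilt → ℕ)

theorem glm_sub {c c' : LocCat} (h : c.Le c') (l : Fin 4) (f : LocFilt) (pd : ℕ) (I : Cell) :
    Y.glm c ρ l f pd I ⊆ Y.glm c' ρ l f pd I := h.lm_sub _ _ _ _

/-- locality of the whole filter calculus -/
theorem gQ_eq_of_local {c c' : LocCat} (h : c.Le c') {I : Cell} (hnew : ∀ Φ ∈ c'.cols, Φ ∉ c.cols → ¬ I ≤ Φ.birth) (l : Fin 4)
    (f : LocFilt) (pd : ℕ) : Y.gQ c' ρ l f pd I = Y.gQ c ρ l f pd I := by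
  unfold gQ glm; rw [h.lm_eq hnew]

theorem gQbar_eq_of_local {c c' : LocCat} (h : c.Le c') {I : Cell} (hnew : ∀ Φ ∈ c'.cols, Φ ∉ c.cols → ¬ I ≤ Φ.birth) (l : Fin 4)
    (f : LocFilt) : Y.gQbar c' ρ l f I = Y.gQbar c ρ l f I := by
  unfold gQbar
  congr 1
  exact Finset.sum_congr rfl fun pd _ => Y.gQ_eq_of_local ρ h hnew l f pd

theorem gEval_eq_of_local {c c' : LocCat} (h : c.Le c') {I : Cell} (hnew : ∀ Φ ∈ c'.cols, Φ ∉ c.cols → ¬ I ≤ Φ.birth) (l : Fin 4)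
    (hs : LocHist) : Y.gEval c' ρ l I hs = Y.gEval c ρ l I hs := by
  induction hs with
  | nil => rfl
  | cons e t ih =>
    obtain ⟨f, b⟩ := e
    cases b <;> simp only [gEval, ih, Y.gQbar_eq_of_local ρ h hnew]

end LocSys

end Claimed.Agent.R258
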