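/-
Row 258 (S0498), Sec. 6.4 (architect helper68).  FILE Cfg: the GENERIC closure tests (13): configurations, failing tests, `GClosedAt`; bridges to `Closed` (main) and `HClosed` (helper);
the hypotheses `Eng` of the closure engine; finiteness and number of the configurations of a cell.

LEAF P-LOC-CFG-BR   : `closed_of_g`, `hclosed_of_g`, `GClosedAt.of_local`, `Fails.base_pos`   (unfolding; `evalH_eq`, `evalD_eq`, `Qm_eq`, `Qh_eq`, `gEval_eq_of_local`, …).
LEAF P-LOC-CFG-CARD : `named_finite`, `hist_finite`, `cfg_finite`                             (pure counting).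

PLANS.
* `closed_of_g`: unfold `Closed`; given `I l f pd h Φ`, apply the hypothesis to `γ = ⟨l, Y.z l I, f, pd, h⟩` (`IsCfg`: `(l, z l I) ∈ mainBases I` by `Finset.mem_image`) and `Φ`; `by_contra` on the `PairSmall`.
* `hclosed_of_g`: the same with `γ = ⟨x.1, x.2, f, pd, pos h⟩`; a main column `Φ ∈ Y.cat.cols` lies in `hc.cols` with the same slot, vertex, rank (`hH.ext`), `rank ≤ 𝓛+4 < hrank` (`hV.rank_le`); `evalD_eq`.
* `GClosedAt.of_local`: `Fails c' … ↔ Fails c …` for the sources available on `I` (a source `Φ ∈ c'.cols` with `I ≤ Φ.birth` is old).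
* `Fails.base_pos`: if `n2 I γ.b = 0` then `restr I γ.b = 0` (`xv_norm_restr_eq`), `gState = gEval (restr b) = 0` (`gEval_restr`, `map_zero`), the residual is `0`, and `loc_pair_zero_right` contradicts the failure.
* `named_finite`: cumulative names: image of `Finset.Icc 1 𝓛`; ball names: image of `Icc 1 4 ×ˢ (pres I).image (fun v => (cen I v).getD 0)`; `use G I` means `cen I v = some G` for some `v ∈ pres I`; `card_le`.
* `hist_finite`: lists of length `≤ m` over a finite alphabet `F` of `a` letters: induction on `m`: `W (m+1) = {[]} ∪ image cons (F ×ˢ W m)`, `1 + a (a+1)^m ≤ (a+1)^{m+1}`.  Alphabet = named filters × Bool: `a = 2 Nf`.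
* `cfg_finite`: image of the product `bases I ×ˢ names ×ˢ Icc 1 P ×ˢ histories`.
-/
import Claimed.Agent.R258.Loc.CatOps
import Claimed.Agent.R258.Loc.BaseFacts

set_option autoImplicit false
open MeasureTheory

namespace Claimed.Agent.R258

/-- a configuration of the closure on a cell: base (slot, vector), target filter, pad, history -/
structure LocCfg where
  l : Fin 4
  b : XV
  f : LocFilt
  pd : ℕ
  h : LocHist

namespace LocSys

variable (Y : LocSys LocTag)

/-- the required configurations of the cell `I` -/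
def IsCfg (bases : Cell → Finset (Fin 4 × XV)) (m0 : ℕ) (I : Cell) (γ : LocCfg) : Prop :=
  (γ.l, γ.b) ∈ bases I ∧ Y.Named I γ.f ∧ 1 ≤ γ.pd ∧ γ.pd ≤ Y.p.P ∧ γ.h.length ≤ m0 ∧ ∀ e ∈ γ.h, Y.Named I e.1

/-- the tested state -/
noncomputable def gState (c : LocCat) (ρ : LocFilt → ℕ) (I : Cell) (γ : LocCfg) : XV := Y.gEval c ρ γ.l I γ.h γ.b

/-- the tested residual -/
noncomputable def gResid (c : LocCat) (ρ : LocFilt → ℕ) (I : Cell) (γ : LocCfg) : XV :=
  (restr I.set - Y.gQ c ρ γ.l γ.f γ.pd I) (Y.gState c ρ I γ)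

/-- the source `Φ` makes the test of the configuration `γ` fail -/
def Fails (c : LocCat) (ρ : LocFilt → ℕ) (A : Acc) (I : Cell) (γ : LocCfg) (Φ : Col) : Prop :=
  Φ ∈ c.cols ∧ I ≤ Φ.birth ∧ c.slot Φ.lab ≠ γ.l ∧ c.rank Φ.lab < ρ γ.f ∧ c.vtx Φ.lab ∈ Y.msk γ.f (γ.f.pad0 Y.p + γ.pd) I ∧
    ¬ PairSmall I (Y.X.w I) (c.slot Φ.lab) γ.l (Φ.vec I) (Y.gResid c ρ I γ) (tol A.D A.τ3 A.n (ρ γ.f) * n2 I γ.b)

/-- all tests (13) hold on the cell `I` -/
def GClosedAt (c : LocCat) (ρ : LocFilt → ℕ) (bases : Cell → Finset (Fin 4 × XV)) (A : Acc) (I : Cell) : Prop :=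
  ∀ γ, Y.IsCfg bases A.m0 I γ → ∀ Φ, ¬ Y.Fails c ρ A I γ Φ

open Classical in
/-- the bases of the main closure: the four basic arguments -/
noncomputable def mainBases (I : Cell) : Finset (Fin 4 × XV) := Finset.univ.image fun l => (l, Y.z l I)

/-- the hypotheses of the closure engine (everything that is fixed before the catalogs) -/
structure Eng (c0 C0 k C3 : ℝ) (A : Acc) : Prop where
  num : A.Num Y.p k C3
  xv : ∃ q η LU : ℝ, 2 ≤ q ∧ Y.X.Valid c0 C0 q η A.D A.M LU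
  tag_ok : ∀ v ∈ Y.B.verts, (Y.B.tag v).Ok A.dmax A.Hb
  same : LocSameTagOk c0 C0 A.Hc A.H0 A.dmax A.Hb
  P_pos : 1 ≤ Y.p.P

variable {Y}

theorem Inner.eng {c0 C0 k C3 : ℝ} {A : Acc} (hV : Y.Valid A.Dm A.m0) (hI : Y.Inner c0 C0 k C3 A) : Y.Eng c0 C0 k C3 A :=
  ⟨hI.num, hI.xv, hI.tag_ok, hI.same, hV.P_pos⟩

section bridges
variable {c0 C0 k C3 : ℝ} {A : Acc}

/-- the generic closure of the main catalog is (13) -/
theorem closed_of_g (h : ∀ I ∈ Y.X.S, Y.CS.good I → Y.GClosedAt Y.cat Y.rkM Y.mainBases A I) :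
    Y.Closed A.D A.τ3 A.n A.m0 := by
  classical
  intro I hI hg l f pd hf h1 h2 hs hlen hnamed Φ hΦ hb hslot hrank hvtx
  by_contra hc
  have e : Y.gResid Y.cat Y.rkM I ⟨l, Y.z l I, f, pd, hs⟩ = (restr I.set - Y.Qm l f pd I) (Y.evalH l I hs (Y.z l I)) := by
    rw [evalH_eq]
    rfl
  refine h I hI hg ⟨l, Y.z l I, f, pd, hs⟩ ⟨?_, hf, h1, h2, hlen, hnamed⟩ Φ ⟨hΦ, hb, hslot, hrank, hvtx, ?_⟩
  · exact Finset.mem_image.2 ⟨l, Finset.mem_univ _, rfl⟩
  · rw [e]
    exact hc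

/-- the generic closure of a helper catalog is the helper version of (13) -/
theorem hclosed_of_g (hV : Y.Valid A.Dm A.m0) {hc : LocCat} (hext : Y.cat.Ext hc Y.hrank) {bases : Cell → Finset (Fin 4 × XV)}
    (h : ∀ I ∈ Y.X.S, Y.CS.good I → Y.GClosedAt hc Y.rkH bases A I) : Y.HClosed hc bases A.D A.τ3 A.n A.m0 := by
  intro I hI hg x hx f pd hf h1 h2 hs hlen hnamed Φ hΦ hb hslot hvtx
  by_contra hcon
  have e : Y.gResid hc Y.rkH I ⟨x.1, x.2, f, pd, pos hs⟩ = (restr I.set - Y.Qh hc x.1 f pd I) (Y.evalD hc x.1 I hs x.2) := by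
    rw [evalD_eq]
    rfl
  refine h I hI hg ⟨x.1, x.2, f, pd, pos hs⟩ ⟨hx, hf, h1, h2, ?_, ?_⟩ Φ ⟨hext.sub hΦ, hb, ?_, ?_, ?_, ?_⟩
  · show (pos hs).length ≤ A.m0
    unfold pos
    rw [List.length_map]
    exact hlen
  · intro e' he'
    obtain ⟨f', hf', rfl⟩ := List.mem_map.1 he'
    exact hnamed f' hf'
  · rw [hext.slot Φ hΦ]
    exact hslot
  · rw [hext.rank Φ hΦ]
    have := hV.rank_le Φ hΦ
    show Y.cat.rank Φ.lab < Y.p.L + 5
    omega
  · rw [hext.vtx Φ hΦ]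
    exact hvtx
  · rw [e, hext.slot Φ hΦ]
    exact hcon

/-- later insertions on cells that are not above `I` do not affect the tests on `I` -/
theorem GClosedAt.of_local {c c' : LocCat} {ρ : LocFilt → ℕ} {bases : Cell → Finset (Fin 4 × XV)} {I : Cell}
    (h : Y.GClosedAt c ρ bases A I) (hle : c.Le c') (hnew : ∀ Φ ∈ c'.cols, Φ ∉ c.cols → ¬ I ≤ Φ.birth) :
    Y.GClosedAt c' ρ bases A I := by
  intro γ hγ Φ hF
  obtain ⟨h1, h2, h3, h4, h5, h6⟩ := hF
  have h0 : Φ ∈ c.cols := by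
    by_contra hc
    exact hnew Φ h1 hc h2
  have e : Y.gResid c' ρ I γ = Y.gResid c ρ I γ := by
    unfold gResid gState
    rw [Y.gQ_eq_of_local ρ hle hnew, Y.gEval_eq_of_local ρ hle hnew]
  rw [hle.slot Φ h0] at h3 h6
  rw [hle.rank Φ h0] at h4
  rw [hle.vtx Φ h0] at h5
  rw [e] at h6
  exact h γ hγ Φ ⟨h0, h2, h3, h4, h5, h6⟩

/-- if the base has zero norm no test fails -/
theorem Fails.base_pos (hc0 : 0 < c0) {c : LocCat} {ρ : LocFilt → ℕ} {I : Cell} (hw : Admissible c0 C0 I (Y.X.w I)) {γ : LocCfg}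
    {Φ : Col} (h : Y.Fails c ρ A I γ Φ) : 0 < n2 I γ.b := by
  by_contra hcon
  have h0 : n2 I γ.b = 0 := le_antisymm (not_lt.1 hcon) (xv_n2_nonneg I γ.b)
  have h1 : restr I.set γ.b = 0 := by
    rw [← norm_eq_zero, xv_norm_restr_eq, h0, zero_mul]
  have h2 : Y.gResid c ρ I γ = 0 := by
    unfold gResid gState
    rw [← Y.gEval_restr c ρ, h1, map_zero, map_zero]
  apply h.2.2.2.2.2
  rw [h2, h0, mul_zero]
  exact loc_pair_zero_right hc0 hw _ _ _

end bridges

section card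

/-- the named filters of a cell -/
theorem named_finite (I : Cell) : ∃ F : Finset LocFilt, (∀ f, Y.Named I f → f ∈ F) ∧ (F.card : ℝ) ≤ Acc.Nf Y.p := by
  classical
  obtain ⟨Gs, hGs⟩ : ∃ Gs : Finset ℕ, Gs = (Y.B.pres I).image (fun v => (Y.CS.cen I v).getD 0) := ⟨_, rfl⟩
  have hGc : Gs.card ≤ Y.p.D := by
    rw [hGs]
    exact Finset.card_image_le.trans (Y.B.card_le I)
  refine ⟨(Finset.Icc 1 Y.p.L).image LocFilt.cum ∪ ((Finset.Icc 1 4) ×ˢ Gs).image (fun q => LocFilt.ball q.1 q.2), ?_, ?_⟩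
  · intro f hf
    cases f with
    | cum m =>
      exact Finset.mem_union_left _ (Finset.mem_image.2 ⟨m, Finset.mem_Icc.2 hf, rfl⟩)
    | ball j G =>
      obtain ⟨h1, h2, v, hv, hcen⟩ := hf
      refine Finset.mem_union_right _ (Finset.mem_image.2 ⟨(j, G), ?_, rfl⟩)
      rw [Finset.mem_product]
      refine ⟨Finset.mem_Icc.2 ⟨h1, h2⟩, ?_⟩
      rw [hGs]
      refine Finset.mem_image.2 ⟨v, hv, ?_⟩
      rw [hcen]
      rfl
  · have h1 : ((Finset.Icc 1 Y.p.L).image LocFilt.cum ∪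
        ((Finset.Icc 1 4) ×ˢ Gs).image (fun q => LocFilt.ball q.1 q.2)).card ≤ Y.p.L + 4 * Y.p.D := by
      refine (Finset.card_union_le _ _).trans (add_le_add ?_ ?_)
      · refine Finset.card_image_le.trans ?_
        simp
      · refine Finset.card_image_le.trans ?_
        rw [Finset.card_product]
        simp only [Nat.card_Icc]
        omega
    unfold Acc.Nf
    exact_mod_cast h1

/-- lists of bounded length over a finite alphabet -/
theorem loc_lists_finite {α : Type*} (F : Finset α) (m : ℕ) :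
    ∃ W : Finset (List α), (∀ h : List α, h.length ≤ m → (∀ e ∈ h, e ∈ F) → h ∈ W) ∧ W.card ≤ (F.card + 1) ^ m := by
  classical
  induction m with
  | zero =>
    refine ⟨{[]}, ?_, by simp⟩
    intro h hl _
    have : h = [] := List.length_eq_zero_iff.1 (Nat.le_zero.1 hl)
    simp [this]
  | succ m ih =>
    obtain ⟨W, hW, hc⟩ := ih
    refine ⟨insert [] ((F ×ˢ W).image fun q => q.1 :: q.2), ?_, ?_⟩
    · intro h hl hF
      cases h with
      | nil => exact Finset.mem_insert_self _ _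
      | cons a t =>
        refine Finset.mem_insert_of_mem (Finset.mem_image.2 ⟨(a, t), ?_, rfl⟩)
        rw [Finset.mem_product]
        refine ⟨hF a (List.mem_cons_self), hW t ?_ fun e he => hF e (List.mem_cons_of_mem _ he)⟩
        simp only [List.length_cons] at hl
        omega
    · refine (Finset.card_insert_le _ _).trans ?_
      have h1 : ((F ×ˢ W).image fun q => q.1 :: q.2).card ≤ F.card * (F.card + 1) ^ m := by
        refine Finset.card_image_le.trans ?_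
        rw [Finset.card_product]
        exact Nat.mul_le_mul_left _ hc
      have h2 : 1 ≤ (F.card + 1) ^ m := Nat.one_le_pow _ _ (Nat.succ_pos _)
      calc ((F ×ˢ W).image fun q => q.1 :: q.2).card + 1 ≤ F.card * (F.card + 1) ^ m + (F.card + 1) ^ m :=
            add_le_add h1 h2
        _ = (F.card + 1) ^ (m + 1) := by ring

theorem hist_finite (I : Cell) (m : ℕ) : ∃ W : Finset LocHist, (∀ h : LocHist, h.length ≤ m → (∀ e ∈ h, Y.Named I e.1) → h ∈ W) ∧
    (W.card : ℝ) ≤ (2 * Acc.Nf Y.p + 1) ^ m := by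
  classical
  obtain ⟨F, hF, hFc⟩ := Y.named_finite I
  obtain ⟨W, hW, hWc⟩ := loc_lists_finite (F ×ˢ (Finset.univ : Finset Bool)) m
  refine ⟨W, fun h hl hn => hW h hl fun e he => ?_, ?_⟩
  · rw [Finset.mem_product]
    exact ⟨hF _ (hn e he), Finset.mem_univ _⟩
  · have h1 : ((F ×ˢ (Finset.univ : Finset Bool)).card : ℝ) = 2 * F.card := by
      rw [Finset.card_product]
      simp [mul_comm]
    calc (W.card : ℝ) ≤ (((F ×ˢ (Finset.univ : Finset Bool)).card : ℝ) + 1) ^ m := by exact_mod_cast hWc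
      _ = (2 * (F.card : ℝ) + 1) ^ m := by rw [h1]
      _ ≤ _ := by
          refine pow_le_pow_left₀ (by positivity) ?_ m
          linarith

/-- the number of configurations of a cell -/
theorem cfg_finite (A : Acc) (bases : Cell → Finset (Fin 4 × XV)) (I : Cell) (hb : ((bases I).card : ℝ) ≤ A.Nb) :
    ∃ F : Finset LocCfg, (∀ γ, Y.IsCfg bases A.m0 I γ → γ ∈ F) ∧ (F.card : ℝ) ≤ A.Ncfg Y.p := by
  classical
  obtain ⟨Fn, hFn, hFnc⟩ := Y.named_finite I
  obtain ⟨W, hW, hWc⟩ := Y.hist_finite I A.m0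
  refine ⟨(bases I ×ˢ Fn ×ˢ Finset.Icc 1 Y.p.P ×ˢ W).image
    (fun q => (⟨q.1.1, q.1.2, q.2.1, q.2.2.1, q.2.2.2⟩ : LocCfg)), ?_, ?_⟩
  · intro γ hγ
    obtain ⟨h1, h2, h3, h4, h5, h6⟩ := hγ
    refine Finset.mem_image.2 ⟨((γ.l, γ.b), γ.f, γ.pd, γ.h), ?_, rfl⟩
    simp only [Finset.mem_product]
    exact ⟨h1, hFn _ h2, Finset.mem_Icc.2 ⟨h3, h4⟩, hW _ h5 h6⟩
  · have h1 : (((bases I ×ˢ Fn ×ˢ Finset.Icc 1 Y.p.P ×ˢ W).image
        (fun q => (⟨q.1.1, q.1.2, q.2.1, q.2.2.1, q.2.2.2⟩ : LocCfg))).card : ℝ)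
        ≤ ((bases I).card : ℝ) * ((Fn.card : ℝ) * ((Y.p.P : ℝ) * (W.card : ℝ))) := by
      have := Finset.card_image_le (s := bases I ×ˢ Fn ×ˢ Finset.Icc 1 Y.p.P ×ˢ W)
        (f := fun q => (⟨q.1.1, q.1.2, q.2.1, q.2.2.1, q.2.2.2⟩ : LocCfg))
      rw [Finset.card_product, Finset.card_product, Finset.card_product, Nat.card_Icc, add_tsub_cancel_right] at this
      exact_mod_cast this
    refine h1.trans ?_
    unfold Acc.Ncfg
    have hNb : 0 ≤ A.Nb := le_trans (Nat.cast_nonneg _) hb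
    have hNf : 0 ≤ Acc.Nf Y.p := le_trans (Nat.cast_nonneg _) hFnc
    calc ((bases I).card : ℝ) * ((Fn.card : ℝ) * ((Y.p.P : ℝ) * (W.card : ℝ)))
        ≤ A.Nb * (Acc.Nf Y.p * ((Y.p.P : ℝ) * (2 * Acc.Nf Y.p + 1) ^ A.m0)) := by
          gcongr
      _ = _ := by ring

end card

end LocSys

end Claimed.Agent.R258
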