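/-
Row 258 (S0498), Sec. 6.4 (architect helper68).  FILE ChainRows: the row version of the binary prefix argument along an insertion sequence (proof of Lemma 6.7, third paragraph).
LEAF P-LOC-ROWS (all sorries).  No paper reading.  Tools: `S3/Prefix.lean`, `S3/PrefixCor.lean` (helper93, sorry-free): `s3_Nested`, `s3_Nested.bessel`, `s3_prefix_one_fac`, `s3_sum_sq_avg`, `s3_LT`;
block [XV]: `xv_cproj_inner`, `xv_cproj_cproj_of_subset'`, `xv_cproj_restr`, `xv_norm_restr_le`;  `Loc/CatOps.lean`: `glm_sub`.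

Setting: an increasing sequence of catalogs `s : ℕ → LocCat` (`∀ n, (s n).Le (s (n+1))`), a fixed cell `I`.
* `chain_nested`: `n ↦ gQ (s n) ρ l f pd I` (as a linear map) is a nested family of orthogonal projections: `symm` = `xv_cproj_inner`, `fix` = `xv_cproj_cproj_of_subset'` with `glm_sub` (`Le` is transitive: `chain_le`).
* `chain_layer`: ONE averaged flagged layer.  `F n = gQbar (s n) ρ l f I` (flag false) or `restr I - gQbar (s n) ρ l f I` (flag true).  For Bessel rows `B ν` and indices `n ν ≤ T`: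
     `∑_ν B ν (F (n ν) y)² ≤ (1 + L_T)² ‖y‖²`.
  Proof: `F n y = ∑_{pd ∈ Icc 1 P} P⁻¹ • s3_fac (gQ (s ·) .. pd) flag n (restr I y)`  (`gQ ∘ restr = gQ`; `gRes_apply`);  seminorm of a sum `≤` sum (`s3_seminorm_sum_le`, `map_smul_eq_mul`);
  `s3_sum_sq_avg` with weights `P⁻¹` (sum `= 1`) and `s3_prefix_one_fac` for each `pd`;  `‖restr I y‖ ≤ ‖y‖`.
* `chain_rows_gen`: induction on the history (outermost factor = head), exactly as in the proof of `s3_prefix_rows_fac`: with `L = 1 + L_T` put `B' ν = L⁻¹ • (B ν).comp (F_head (n ν))`, Bessel by `chain_layer`;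
  apply the induction hypothesis to `B'`.  Base case: `gEval [] = restr I`, `hB (restr I x)`.
* `chain_rows`: `B i = ‖(gQ (s (i+1)) - gQ (s i)) ·‖` for `i ∈ range T` is Bessel by `s3_Nested.bessel` (blocks `(i, i+1]`), `n i = i ≤ T`.
-/
import Claimed.Agent.R258.Loc.Cfg
import Claimed.Agent.R258.Pack022

set_option autoImplicit false
open MeasureTheory

namespace Claimed.Agent.R258

namespace LocSys

variable {Tag : Type} (Y : LocSys Tag) (ρ : LocFilt → ℕ) (s : ℕ → LocCat)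

theorem chain_le (hs : ∀ n, (s n).Le (s (n + 1))) {n n' : ℕ} (h : n ≤ n') : (s n).Le (s n') := by
  induction h with
  | refl => exact LocCat.Le.refl _
  | step _ ih => exact ih.trans (hs _)

theorem chain_nested (hs : ∀ n, (s n).Le (s (n + 1))) (l : Fin 4) (f : LocFilt) (pd : ℕ) (I : Cell) :
    s3_Nested (𝕜 := ℂ) fun n => (Y.gQ (s n) ρ l f pd I : XV →ₗ[ℂ] XV) := by
  constructor
  · intro n x y
    exact xv_cproj_inner _ I x y
  · intro n n' x hn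
    exact xv_cproj_cproj_of_subset' (Y.glm_sub ρ (chain_le s hs hn) l f pd I) I x

/-- one averaged layer, positive (`flag = false`) or complementary (`flag = true`) -/
noncomputable def gLayer (c : LocCat) (l : Fin 4) (I : Cell) (e : LocFilt × Bool) : XV →L[ℂ] XV :=
  if e.2 then restr I.set - Y.gQbar c ρ l e.1 I else Y.gQbar c ρ l e.1 I

theorem gEval_cons (c : LocCat) (l : Fin 4) (I : Cell) (e : LocFilt × Bool) (t : LocHist) :
    Y.gEval c ρ l I (e :: t) = (Y.gLayer ρ c l I e).comp (Y.gEval c ρ l I t) := by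
  obtain ⟨f, b⟩ := e
  cases b <;> simp [gEval, gLayer]

/-- an averaged flagged layer is the average of the flagged individual projections, applied to the restricted input -/
theorem loc_rows_layer_eq (hP : 1 ≤ Y.p.P) (l : Fin 4) (I : Cell) (e : LocFilt × Bool) (n : ℕ) (y : XV) :
    Y.gLayer ρ (s n) l I e y = ∑ pd ∈ Finset.Icc 1 Y.p.P, ((Y.p.P : ℂ)⁻¹) •
      s3_fac (𝕜 := ℂ) (fun n => (Y.gQ (s n) ρ l e.1 pd I : XV →ₗ[ℂ] XV)) e.2 n (restr I.set y) := by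
  obtain ⟨f, b⟩ := e
  cases b
  · simp only [gLayer, s3_fac, Bool.false_eq_true, if_false]
    rw [gQbar_apply, Finset.smul_sum]
    refine Finset.sum_congr rfl fun pd _ => ?_
    congr 1
    exact (xv_cproj_restr _ I y).symm
  · simp only [gLayer, s3_fac, if_true]
    rw [gRes_apply Y (s n) ρ hP, Finset.smul_sum]
    refine Finset.sum_congr rfl fun pd _ => ?_
    congr 1
    have h : Y.gQ (s n) ρ l f pd I (restr I.set y) = Y.gQ (s n) ρ l f pd I y := xv_cproj_restr _ I y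
    simp only [LinearMap.sub_apply, LinearMap.id_apply, ContinuousLinearMap.coe_coe, h]
    rfl

theorem chain_layer (hP : 1 ≤ Y.p.P) (hs : ∀ n, (s n).Le (s (n + 1))) (l : Fin 4) (I : Cell) (e : LocFilt × Bool) (T : ℕ)
    {ι : Type*} (t : Finset ι) (B : ι → Seminorm ℂ XV) (hB : ∀ h, ∑ ν ∈ t, (B ν h) ^ 2 ≤ ‖h‖ ^ 2) (n : ι → ℕ)
    (hn : ∀ ν ∈ t, n ν ≤ T) (y : XV) :
    ∑ ν ∈ t, (B ν (Y.gLayer ρ (s (n ν)) l I e y)) ^ 2 ≤ (1 + (s3_LT T : ℝ)) ^ 2 * ‖y‖ ^ 2 := by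
  have hL := s3_LT_pos T
  have hP0 : (0 : ℝ) < (Y.p.P : ℝ) := by exact_mod_cast hP
  have h1 := s3_sum_sq_avg t (Finset.Icc 1 Y.p.P) (fun _ => ((Y.p.P : ℝ))⁻¹)
    (fun pd ν => B ν (s3_fac (𝕜 := ℂ) (fun n => (Y.gQ (s n) ρ l e.1 pd I : XV →ₗ[ℂ] XV)) e.2 (n ν) (restr I.set y)))
    ((1 + (s3_LT T : ℝ)) * ‖restr I.set y‖) (by positivity) (fun _ _ => by positivity)
    (fun _ _ _ _ => apply_nonneg _ _)
    (fun pd _ => by
      rw [mul_pow]
      exact s3_prefix_one_fac _ (Y.chain_nested ρ s hs l e.1 pd I) e.2 T t B hB n hn (restr I.set y))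
  have hsum : ∑ _pd ∈ Finset.Icc 1 Y.p.P, ((Y.p.P : ℝ))⁻¹ = 1 := by
    rw [Finset.sum_const, Nat.card_Icc, nsmul_eq_mul]
    simp only [Nat.add_sub_cancel]
    field_simp
  rw [hsum, one_mul] at h1
  calc ∑ ν ∈ t, (B ν (Y.gLayer ρ (s (n ν)) l I e y)) ^ 2
      ≤ ∑ ν ∈ t, (∑ pd ∈ Finset.Icc 1 Y.p.P, ((Y.p.P : ℝ))⁻¹ *
          B ν (s3_fac (𝕜 := ℂ) (fun n => (Y.gQ (s n) ρ l e.1 pd I : XV →ₗ[ℂ] XV)) e.2 (n ν) (restr I.set y))) ^ 2 := by
        refine Finset.sum_le_sum fun ν _ => ?_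
        refine pow_le_pow_left₀ (apply_nonneg _ _) ?_ 2
        rw [loc_rows_layer_eq Y ρ s hP]
        refine (s3_seminorm_sum_le (B ν) _ _).trans (le_of_eq ?_)
        refine Finset.sum_congr rfl fun pd _ => ?_
        rw [map_smul_eq_mul, norm_inv, Complex.norm_natCast]
    _ ≤ ((1 + (s3_LT T : ℝ)) * ‖restr I.set y‖) ^ 2 := h1
    _ ≤ (1 + (s3_LT T : ℝ)) ^ 2 * ‖y‖ ^ 2 := by
        rw [mul_pow]
        exact mul_le_mul_of_nonneg_left (pow_le_pow_left₀ (norm_nonneg _) (xv_norm_restr_le _ _) 2) (sq_nonneg _)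

theorem chain_rows_gen (hP : 1 ≤ Y.p.P) (hs : ∀ n, (s n).Le (s (n + 1))) (l : Fin 4) (I : Cell) (h : LocHist) (T : ℕ)
    {ι : Type*} (t : Finset ι) (B : ι → Seminorm ℂ XV) (hB : ∀ h, ∑ ν ∈ t, (B ν h) ^ 2 ≤ ‖h‖ ^ 2) (n : ι → ℕ)
    (hn : ∀ ν ∈ t, n ν ≤ T) (x : XV) :
    ∑ ν ∈ t, (B ν (Y.gEval (s (n ν)) ρ l I h x)) ^ 2 ≤ ((1 + (s3_LT T : ℝ)) ^ h.length) ^ 2 * ‖restr I.set x‖ ^ 2 := by
  induction h generalizing B with
  | nil => simpa [gEval] using hB (restr I.set x)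
  | cons e h ih =>
    have hL : (1 : ℝ) ≤ (s3_LT T : ℝ) := s3_LT_pos T
    obtain ⟨L, hLdef⟩ : ∃ L : ℝ, L = 1 + (s3_LT T : ℝ) := ⟨_, rfl⟩
    rw [← hLdef]
    have hL0 : (0 : ℝ) < L := by linarith
    let B' : ι → Seminorm ℂ XV := fun ν =>
      (Real.toNNReal L⁻¹) • (B ν).comp (Y.gLayer ρ (s (n ν)) l I e : XV →ₗ[ℂ] XV)
    have hB'v : ∀ ν z, B' ν z = L⁻¹ * B ν (Y.gLayer ρ (s (n ν)) l I e z) := by
      intro ν z
      simp only [B', smul_apply, Seminorm.comp_apply, NNReal.smul_def, smul_eq_mul]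
      rw [Real.coe_toNNReal _ (by positivity)]
      rfl
    have hB' : ∀ z, ∑ ν ∈ t, (B' ν z) ^ 2 ≤ ‖z‖ ^ 2 := by
      intro z
      have h1 := Y.chain_layer ρ s hP hs l I e T t B hB n hn z
      rw [← hLdef] at h1
      have : ∑ ν ∈ t, (B' ν z) ^ 2 = (L⁻¹) ^ 2 * ∑ ν ∈ t, (B ν (Y.gLayer ρ (s (n ν)) l I e z)) ^ 2 := by
        rw [Finset.mul_sum]; refine Finset.sum_congr rfl fun ν _ => ?_
        rw [hB'v, mul_pow]
      rw [this]
      calc (L⁻¹) ^ 2 * ∑ ν ∈ t, (B ν (Y.gLayer ρ (s (n ν)) l I e z)) ^ 2 ≤ (L⁻¹) ^ 2 * (L ^ 2 * ‖z‖ ^ 2) :=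
            mul_le_mul_of_nonneg_left h1 (sq_nonneg _)
        _ = ‖z‖ ^ 2 := by field_simp
    have h2 := ih B' hB'
    rw [← hLdef] at h2
    have : ∑ ν ∈ t, (B ν (Y.gEval (s (n ν)) ρ l I (e :: h) x)) ^ 2
        = L ^ 2 * ∑ ν ∈ t, (B' ν (Y.gEval (s (n ν)) ρ l I h x)) ^ 2 := by
      rw [Finset.mul_sum]; refine Finset.sum_congr rfl fun ν _ => ?_
      rw [hB'v, mul_pow, gEval_cons, ContinuousLinearMap.comp_apply]; field_simp
    rw [this]
    calc L ^ 2 * ∑ ν ∈ t, (B' ν (Y.gEval (s (n ν)) ρ l I h x)) ^ 2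
        ≤ L ^ 2 * ((L ^ h.length) ^ 2 * ‖restr I.set x‖ ^ 2) := mul_le_mul_of_nonneg_left h2 (sq_nonneg _)
      _ = (L ^ (e :: h).length) ^ 2 * ‖restr I.set x‖ ^ 2 := by
          rw [List.length_cons]; ring

/-- **the target increments are orthogonal rows; the history is evaluated at the old insertion index** -/
theorem chain_rows (hP : 1 ≤ Y.p.P) (hs : ∀ n, (s n).Le (s (n + 1))) (l : Fin 4) (f : LocFilt) (pd : ℕ) (I : Cell) (h : LocHist)
    (T : ℕ) (x : XV) :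
    ∑ i ∈ Finset.range T, ‖(Y.gQ (s (i + 1)) ρ l f pd I - Y.gQ (s i) ρ l f pd I) (Y.gEval (s i) ρ l I h x)‖ ^ 2
      ≤ ((1 + (s3_LT T : ℝ)) ^ h.length) ^ 2 * ‖restr I.set x‖ ^ 2 := by
  let B : ℕ → Seminorm ℂ XV := fun i => (normSeminorm ℂ XV).comp
    ((Y.gQ (s (i + 1)) ρ l f pd I : XV →ₗ[ℂ] XV) - (Y.gQ (s i) ρ l f pd I : XV →ₗ[ℂ] XV))
  have hB : ∀ z, ∑ i ∈ Finset.range T, (B i z) ^ 2 ≤ ‖z‖ ^ 2 := by
    intro z
    refine (Y.chain_nested ρ s hs l f pd I).bessel (Finset.range T) (fun i => i) (fun i => i + 1)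
      (fun k _ => Nat.le_succ k) ?_ z
    intro k _ k' _ hkk'
    rcases Nat.lt_or_gt_of_ne hkk' with h1 | h1
    · left; exact h1
    · right; exact h1
  exact Y.chain_rows_gen ρ s hP hs l I h T (Finset.range T) B hB (fun i => i)
    (fun i hi => (Finset.mem_range.mp hi).le) x

end LocSys

end Claimed.Agent.R258
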