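/-
Row 258 (S0498), Sec. 6.4 (architect helper68).  FILE Gain: ONE greedy insertion (proof of Lemma 6.7, second paragraph).
LEAF P-LOC-STEP : `exists_step`, `Step.le`, `Step.catOk`, `Step.new`.
LEAF P-LOC-GAIN : `gState_privZero`, `gResid_privZero`, `Step.gain`.
No paper reading.

A step on the cell `I`, triggered by the configuration `γ`: some source `Φ` fails the test; Lemma 6.6 (`LocSameTagOk`) supplies a bounded atom `ψ` of the same normalized tag in the slot `γ.l` with moment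
`≥ tol · ‖base‖ / H0` against the tested residual; a fresh copy `Ψ = ⟨v, I, ψ.eval, 1⟩` (label `v ≥ N0`, not used by the catalog) is inserted at the target rank `ρ γ.f`, attached to the vertex of the source.

PLANS.
* `exists_step`: `Fails.base_pos` gives `t0 = tol · n2 I γ.b > 0` (`tol > 0`: `τ₃, D > 0`, `n ≥ 1`); apply `hE.same Φ (c.chart Φ.lab) (c.slot Φ.lab) γ.l I (Y.X.w I) (gResid ..) t0` (`CatOk.chart/cplx/bdd`, tag `Ok` from `hc.tag_col`, `hE.tag_ok`,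
  `hc.vtx`, `mem_pres`);  fresh label `v = max N0 (1 + sup of the labels of c.cols)`.
* `Step.catOk`: the new column: `chart` `ins_chart_self`, `eps = 1`: `D⁻¹ ≤ √1 = 1` as `D ≥ 1`; `tag_col`: `ψ.tag γ.l = tag of the source = B.tag (vtx source)`; `vtx`: for `J ≤ I`: `pres_mono` from `vtx Φ ∈ msk .. I ⊆ pres I` (`msk_pres`);
  old columns: `Function.update_of_ne` (labels differ from `v`).
* `gState_privZero`: the submodule `xvPrivZero v` contains `γ.b` (`LabFree N0`, `N0 ≤ v`: `xv_mem_privZero` is `LabFree` at `v` by definition of `xvCoord`), is stable under `restr I` (`xv_restr_mem_privZero`) and contains all values of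
  `cproj A I` if no column of `A` has the label `v` (`xv_cproj_mem_privZero`); induction on the history (`gQbar` = multiple of a sum of `cproj`s).
* `Step.gain`: `W = colSpan (glm c ..) I ≤ V = colSpan (glm c' ..) I` (`glm_sub`, `xv_colSpan_mono`), `Ψ.vec I ∈ V` (`mem_glm`: slot, rank `= ρ γ.f`, vertex in the target mask, born on `I`).  `X = gState`, `restr I X = X` (`restr_gEval`), so
  `gResid = X - cproj W X`.  `xv_proj_gain`: `‖⟪Ψ.vec I, X - P_W X⟫‖² ≤ ‖Ψ.vec I‖² (‖P_V X‖² - ‖P_W X‖²) = ‖Ψ.vec I‖² ‖(P_V - P_W) X‖²` (`xv_normsq_proj_sub`).  `⟪Ψ.vec I, gResid⟫ = |I| mom I gResid ψ.eval` (`xv_inner_vec_of_privZero`,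
  `gResid_privZero`), `‖Ψ.vec I‖² ≤ 2 |I|` (`xv_normsq_vec_le`, `ψ.Bdd`).  Hence `|I|² (tol n2 b / H0)² ≤ 2 |I| ‖(P_V-P_W)X‖²`, and `|I| (n2 I b)² = ‖restr I b‖²` (`xv_normsq_restr_eq`).
-/
import Claimed.Agent.R258.Loc.ChainRows

set_option autoImplicit false
open MeasureTheory

namespace Claimed.Agent.R258

namespace LocSys

variable (Y : LocSys LocTag)

/-- one greedy insertion on the cell `I`, triggered by the configuration `γ` -/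
def Step (ρ : LocFilt → ℕ) (A : Acc) (N0 : ℕ) (I : Cell) (c c' : LocCat) (γ : LocCfg) : Prop :=
  ∃ (Φ : Col) (ψ : Chart) (v : ℕ), Y.Fails c ρ A I γ Φ ∧
    ψ.tag γ.l = (c.chart Φ.lab).tag (c.slot Φ.lab) ∧ ψ.Cplx A.Hc ∧ ψ.Bdd ∧
    tol A.D A.τ3 A.n (ρ γ.f) * n2 I γ.b / A.H0 ≤ ‖mom I (Y.gResid c ρ I γ) ψ.eval‖ ∧
    N0 ≤ v ∧ (∀ Φ' ∈ c.cols, Φ'.lab ≠ v) ∧
    c' = c.ins ⟨v, I, ψ.eval, 1⟩ γ.l (c.vtx Φ.lab) (ρ γ.f) ψ

variable {Y} {c0 C0 k C3 : ℝ} {A : Acc} {ρ : LocFilt → ℕ} {N0 : ℕ} {I : Cell} {c c' : LocCat} {γ : LocCfg}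

/-- positivity of the tolerances -/
theorem Eng.step_tol_pos (hE : Y.Eng c0 C0 k C3 A) (r : ℕ) : 0 < tol A.D A.τ3 A.n r := by
  have hD : 0 < A.D := lt_of_lt_of_le (Real.exp_pos k) hE.num.D_ge
  have hn : 0 < A.n (r - 1) :=
    lt_of_lt_of_le hD ((hE.num.pD_ge.trans hE.num.n_zero).trans (hE.num.n_mono (Nat.zero_le _)))
  unfold tol
  exact div_pos hE.num.τ3_pos (mul_pos hD (Real.sqrt_pos.2 hn))

/-- a failed test can be answered by an insertion -/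
theorem exists_step (hc0 : 0 < c0) (hE : Y.Eng c0 C0 k C3 A) (hc : Y.CatOk c A.D A.Hc) (hS : I ∈ Y.X.S) (N0 : ℕ) {Φ : Col}
    (hF : Y.Fails c ρ A I γ Φ) : ∃ c', Y.Step ρ A N0 I c c' γ := by
  obtain ⟨q, η, LU, hq, hXV⟩ := hE.xv
  have hw : Admissible c0 C0 I (Y.X.w I) := hXV.adm I hS
  have hb := hF.base_pos hc0 hw
  have ht0 : 0 < tol A.D A.τ3 A.n (ρ γ.f) * n2 I γ.b := mul_pos (hE.step_tol_pos _) hb
  obtain ⟨h1, h2, h3, h4, h5, h6⟩ := hF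
  have hpres : c.vtx Φ.lab ∈ Y.B.pres I := Y.msk_pres _ _ _ h5
  have htag : ((c.chart Φ.lab).tag (c.slot Φ.lab)).Ok A.dmax A.Hb := by
    rw [hc.tag_col Φ h1]
    exact hE.tag_ok _ ((Y.B.mem_pres I _).1 hpres).1
  obtain ⟨ψ, hψ1, hψ2, hψ3, hψ4⟩ := hE.same Φ (c.chart Φ.lab) (c.slot Φ.lab) γ.l I (Y.X.w I) (Y.gResid c ρ I γ) _ h3 hw
    (hc.chart Φ h1) (hc.cplx Φ h1) (hc.bdd Φ h1) htag ht0 h6
  refine ⟨_, Φ, ψ, max N0 (c.cols.sup (fun Φ => Φ.lab) + 1), ⟨h1, h2, h3, h4, h5, h6⟩, hψ1, hψ2, hψ3, hψ4, le_max_left _ _, ?_, rfl⟩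
  intro Φ' hΦ' heq
  have h7 : Φ'.lab ≤ c.cols.sup (fun Φ => Φ.lab) := Finset.le_sup (f := fun Φ : Col => Φ.lab) hΦ'
  have h8 : c.cols.sup (fun Φ => Φ.lab) + 1 ≤ max N0 (c.cols.sup (fun Φ => Φ.lab) + 1) := le_max_right _ _
  omega

theorem Step.le (h : Y.Step ρ A N0 I c c' γ) : c.Le c' := by
  obtain ⟨Φ, ψ, v, -, -, -, -, -, -, hv, rfl⟩ := h
  exact LocCat.le_ins _ _ _ _ _ _ hv

/-- the invariants of the catalog are preserved -/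
theorem Step.catOk (hE : Y.Eng c0 C0 k C3 A) (hc : Y.CatOk c A.D A.Hc) (h : Y.Step ρ A N0 I c c' γ) : Y.CatOk c' A.D A.Hc := by
  have hle := h.le
  obtain ⟨Φ, ψ, v, hF, htag, hcplx, hbdd, hmom, hN0, hv, rfl⟩ := h
  obtain ⟨h1, h2, h3, h4, h5, h6⟩ := hF
  have hmem : ∀ {Φ' : Col}, Φ' ∈ (c.ins ⟨v, I, ψ.eval, 1⟩ γ.l (c.vtx Φ.lab) (ρ γ.f) ψ).cols →
      Φ' = ⟨v, I, ψ.eval, 1⟩ ∨ Φ' ∈ c.cols := fun h => (LocCat.mem_ins _ _ _ _ _ _).1 h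
  have hD1 : 1 ≤ A.D := le_trans (Real.one_le_exp (by linarith [hE.num.k_ge])) hE.num.D_ge
  refine ⟨?_, ?_, ?_, ?_, ?_, ?_, ?_⟩
  · intro Φ1 hΦ1 Φ2 hΦ2 hl
    rcases hmem hΦ1 with rfl | hΦ1
    · rcases hmem hΦ2 with rfl | hΦ2
      · rfl
      · exact absurd hl.symm (hv Φ2 hΦ2)
    · rcases hmem hΦ2 with rfl | hΦ2
      · exact absurd hl (hv Φ1 hΦ1)
      · exact hc.lab_inj Φ1 hΦ1 Φ2 hΦ2 hl
  · intro Φ1 hΦ1
    rcases hmem hΦ1 with rfl | hΦ1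
    · rw [LocCat.ins_chart_self]
    · rw [hle.chart Φ1 hΦ1]
      exact hc.chart Φ1 hΦ1
  · intro Φ1 hΦ1
    rcases hmem hΦ1 with rfl | hΦ1
    · rw [LocCat.ins_chart_self]
      exact hcplx
    · rw [hle.chart Φ1 hΦ1]
      exact hc.cplx Φ1 hΦ1
  · intro Φ1 hΦ1
    rcases hmem hΦ1 with rfl | hΦ1
    · rw [LocCat.ins_chart_self]
      exact hbdd
    · rw [hle.chart Φ1 hΦ1]
      exact hc.bdd Φ1 hΦ1
  · intro Φ1 hΦ1
    rcases hmem hΦ1 with rfl | hΦ1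
    · refine ⟨?_, le_rfl⟩
      show A.D⁻¹ ≤ Real.sqrt 1
      rw [Real.sqrt_one]
      exact inv_le_one_of_one_le₀ hD1
    · exact hc.eps Φ1 hΦ1
  · intro Φ1 hΦ1
    rcases hmem hΦ1 with rfl | hΦ1
    · rw [LocCat.ins_chart_self, LocCat.ins_slot_self, LocCat.ins_vtx_self, htag]
      exact hc.tag_col Φ h1
    · rw [hle.chart Φ1 hΦ1, hle.slot Φ1 hΦ1, hle.vtx Φ1 hΦ1]
      exact hc.tag_col Φ1 hΦ1
  · intro Φ1 hΦ1 J hJ hJb
    rcases hmem hΦ1 with rfl | hΦ1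
    · rw [LocCat.ins_vtx_self]
      exact Y.B.pres_mono hJb (Y.msk_pres _ _ _ h5)
    · rw [hle.vtx Φ1 hΦ1]
      exact hc.vtx Φ1 hΦ1 J hJ hJb

/-- exactly one new column -/
theorem Step.new (h : Y.Step ρ A N0 I c c' γ) :
    ∃ Ψ : Col, Ψ ∉ c.cols ∧ (∀ Φ, Φ ∈ c'.cols ↔ Φ = Ψ ∨ Φ ∈ c.cols) ∧ Ψ.birth = I ∧ Ψ.eps = 1 ∧ N0 ≤ Ψ.lab ∧
      c'.rank Ψ.lab = ρ γ.f ∧ c'.slot Ψ.lab = γ.l := by
  obtain ⟨Φ, ψ, v, hF, htag, hcplx, hbdd, hmom, hN0, hv, rfl⟩ := h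
  refine ⟨⟨v, I, ψ.eval, 1⟩, fun hm => hv _ hm rfl, fun Φ' => LocCat.mem_ins _ _ _ _ _ _, rfl, rfl, hN0,
    LocCat.ins_rank_self _ _ _ _ _ _, LocCat.ins_slot_self _ _ _ _ _ _⟩

theorem gain_gQ_privZero (c : LocCat) (ρ : LocFilt → ℕ) (l : Fin 4) (f : LocFilt) (pd : ℕ) (I : Cell) {v : ℕ}
    (hv : ∀ Φ ∈ c.cols, Φ.lab ≠ v) (x : XV) : Y.gQ c ρ l f pd I x ∈ xvPrivZero v :=
  xv_cproj_mem_privZero I (fun Φ hΦ => hv Φ ((Y.mem_glm c ρ).1 hΦ).1) x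

theorem gain_gQbar_privZero (c : LocCat) (ρ : LocFilt → ℕ) (l : Fin 4) (f : LocFilt) (I : Cell) {v : ℕ}
    (hv : ∀ Φ ∈ c.cols, Φ.lab ≠ v) (x : XV) : Y.gQbar c ρ l f I x ∈ xvPrivZero v := by
  rw [gQbar_apply]
  exact Submodule.smul_mem _ _ (Submodule.sum_mem _ fun pd _ => gain_gQ_privZero c ρ l f pd I hv x)

theorem gain_gEval_privZero (c : LocCat) (ρ : LocFilt → ℕ) (l : Fin 4) (I : Cell) (h : LocHist) {v : ℕ}
    (hv : ∀ Φ ∈ c.cols, Φ.lab ≠ v) {x : XV} (hx : x ∈ xvPrivZero v) : Y.gEval c ρ l I h x ∈ xvPrivZero v := by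
  induction h with
  | nil => exact xv_restr_mem_privZero (cell_measurableSet I) hx
  | cons e t ih =>
    obtain ⟨f, b⟩ := e
    cases b
    · exact gain_gQbar_privZero c ρ l f I hv _
    · show (restr I.set - Y.gQbar c ρ l f I) (Y.gEval c ρ l I t x) ∈ xvPrivZero v
      rw [sub_apply]
      exact Submodule.sub_mem _ (xv_restr_mem_privZero (cell_measurableSet I) ih) (gain_gQbar_privZero c ρ l f I hv _)

/-- the tested state has no component in a private coordinate that is used neither by the base nor by the catalog -/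
theorem gState_privZero (c : LocCat) (ρ : LocFilt → ℕ) (I : Cell) (γ : LocCfg) {v : ℕ} (hb : γ.b ∈ xvPrivZero v)
    (hv : ∀ Φ ∈ c.cols, Φ.lab ≠ v) : Y.gState c ρ I γ ∈ xvPrivZero v :=
  gain_gEval_privZero c ρ γ.l I γ.h hv hb

theorem gResid_privZero (c : LocCat) (ρ : LocFilt → ℕ) (I : Cell) (γ : LocCfg) {v : ℕ} (hb : γ.b ∈ xvPrivZero v)
    (hv : ∀ Φ ∈ c.cols, Φ.lab ≠ v) : Y.gResid c ρ I γ ∈ xvPrivZero v := by
  unfold gResid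
  rw [sub_apply]
  exact Submodule.sub_mem _ (xv_restr_mem_privZero (cell_measurableSet I) (gState_privZero c ρ I γ hb hv))
    (gain_gQ_privZero c ρ _ _ _ I hv _)

/-- **the energy increment of one insertion** -/
theorem Step.gain (hE : Y.Eng c0 C0 k C3 A) (hc : Y.CatOk c A.D A.Hc) (hb : LabFree N0 γ.b) (h : Y.Step ρ A N0 I c c' γ) :
    (tol A.D A.τ3 A.n (ρ γ.f)) ^ 2 / (2 * A.H0 ^ 2) * ‖restr I.set γ.b‖ ^ 2 ≤
      ‖(Y.gQ c' ρ γ.l γ.f γ.pd I - Y.gQ c ρ γ.l γ.f γ.pd I) (Y.gState c ρ I γ)‖ ^ 2 := by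
  have hle := h.le
  obtain ⟨Φ, ψ, v, hF, htag, hcplx, hbdd, hmom, hN0, hv, rfl⟩ := h
  obtain ⟨h1, h2, h3, h4, h5, h6⟩ := hF
  obtain ⟨Ψ, hΨ⟩ : ∃ Ψ : Col, Ψ = ⟨v, I, ψ.eval, 1⟩ := ⟨_, rfl⟩
  rw [← hΨ] at hle ⊢
  have hlab : Ψ.lab = v := by rw [hΨ]
  have hphi : Ψ.phi = ψ.eval := by rw [hΨ]
  have heps : Ψ.eps = 1 := by rw [hΨ]
  have hbirth : Ψ.birth = I := by rw [hΨ]
  obtain ⟨c', hc'⟩ : ∃ c', c' = c.ins Ψ γ.l (c.vtx Φ.lab) (ρ γ.f) ψ := ⟨_, rfl⟩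
  rw [← hc'] at hle ⊢
  have hWV : colSpan (Y.glm c ρ γ.l γ.f γ.pd I) I ≤ colSpan (Y.glm c' ρ γ.l γ.f γ.pd I) I :=
    xv_colSpan_mono (Y.glm_sub ρ hle _ _ _ _) I
  have hΨV : Ψ.vec I ∈ colSpan (Y.glm c' ρ γ.l γ.f γ.pd I) I := by
    refine xv_vec_mem_colSpan ((Y.mem_glm c' ρ).2 ⟨?_, ?_, ?_, ?_, ?_⟩) I
    · rw [hc']
      exact (LocCat.mem_ins _ _ _ _ _ _).2 (Or.inl rfl)
    · rw [hbirth]
    · rw [hc', LocCat.ins_slot_self]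
    · rw [hc', LocCat.ins_rank_self]
    · rw [hc', LocCat.ins_vtx_self]
      exact h5
  obtain ⟨X, hX⟩ : ∃ X, X = Y.gState c ρ I γ := ⟨_, rfl⟩
  have hrX : restr I.set X = X := by
    rw [hX]
    exact Y.restr_gEval c ρ _ _ _ _
  have hres : Y.gResid c ρ I γ = X - (colSpan (Y.glm c ρ γ.l γ.f γ.pd I) I).starProjection X := by
    unfold gResid
    rw [← hX, sub_apply, hrX]
    rfl
  have hgain := xv_proj_gain hWV hΨV X
  rw [← xv_normsq_proj_sub hWV X, ← hres] at hgain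
  have hreg : Ψ.Reg I := xv_reg_of_chart hphi hcplx hbdd I
  have hbv : γ.b ∈ xvPrivZero v := hb v hN0
  have hpz : Y.gResid c ρ I γ ∈ xvPrivZero Ψ.lab := by
    rw [hlab]
    exact gResid_privZero c ρ I γ hbv hv
  rw [xv_inner_vec_of_privZero hreg hpz, hphi] at hgain
  have hvec : ‖Ψ.vec I‖ ^ 2 ≤ 2 * I.len := by
    have := xv_normsq_vec_le (Φ := Ψ) (I := I) (by rw [heps]; norm_num) (B := 1) (fun y _ => by rw [hphi]; exact hbdd y)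
    rw [heps] at this
    linarith
  have hL := cell_len_pos I
  have hH0 : 0 < A.H0 := lt_of_lt_of_le one_pos hE.num.H0_ge
  have htol := (hE.step_tol_pos (ρ γ.f)).le
  have hn2 := xv_n2_nonneg I γ.b
  obtain ⟨G, hG⟩ : ∃ G, G = ‖(colSpan (Y.glm c' ρ γ.l γ.f γ.pd I) I).starProjection X
      - (colSpan (Y.glm c ρ γ.l γ.f γ.pd I) I).starProjection X‖ ^ 2 := ⟨_, rfl⟩
  rw [← hG] at hgain
  have hG0 : 0 ≤ G := by rw [hG]; positivity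
  have hgoal : ‖(Y.gQ c' ρ γ.l γ.f γ.pd I - Y.gQ c ρ γ.l γ.f γ.pd I) X‖ ^ 2 = G := by
    rw [hG, sub_apply]
    rfl
  rw [← hX, hgoal, xv_normsq_restr_eq]
  rw [norm_mul, Complex.norm_real, Real.norm_of_nonneg hL.le, mul_pow] at hgain
  obtain ⟨t, ht⟩ : ∃ t, t = tol A.D A.τ3 A.n (ρ γ.f) := ⟨_, rfl⟩
  rw [← ht] at hmom htol ⊢
  obtain ⟨μ, hμ⟩ : ∃ μ, μ = ‖mom I (Y.gResid c ρ I γ) ψ.eval‖ := ⟨_, rfl⟩
  rw [← hμ] at hmom hgain
  have h7 : (t * n2 I γ.b / A.H0) ^ 2 ≤ μ ^ 2 := pow_le_pow_left₀ (by positivity) hmom 2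
  have h8 : I.len ^ 2 * μ ^ 2 ≤ 2 * I.len * G := hgain.trans (mul_le_mul_of_nonneg_right hvec hG0)
  have h9 : I.len * μ ^ 2 ≤ 2 * G := by
    have : I.len * (I.len * μ ^ 2) ≤ I.len * (2 * G) := by nlinarith
    exact le_of_mul_le_mul_left this hL
  have h10 : I.len * (t * n2 I γ.b / A.H0) ^ 2 ≤ 2 * G := (mul_le_mul_of_nonneg_left h7 hL.le).trans h9
  have e : t ^ 2 / (2 * A.H0 ^ 2) * (n2 I γ.b ^ 2 * I.len) = (I.len * (t * n2 I γ.b / A.H0) ^ 2) / 2 := by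
    field_simp
  rw [e]
  linarith

end LocSys

end Claimed.Agent.R258
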