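/-
Row 258 (S0498), Sec. 6.4 (architect helper68).  FILE Greedy: the greedy closure on ONE cell terminates, with the rank counts of Lemma 6.7.
LEAF P-LOC-CHAIN-A : `IsChain.facts`                                       (induction on the length; bookkeeping of the new columns).
LEAF P-LOC-CHAIN-B : `IsChain.count_cfg`, `IsChain.count_rank`, `IsChain.length_lt`   (energy counting).
LEAF P-LOC-CHAIN-C : `exists_closed_chain`                                  (greedy extension).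
`cell_closure` is proved from them.   No paper reading.

PLANS.
* `IsChain.facts`: induction on `T`.  Step `T → T+1`: `Step.le`, `Step.catOk`, `Step.new` for the step `T`; a column of `s (T+1)` that is not in `s 0` is either the new one `Ψ` (rank `ρ (γ T).f`, `Named` from `IsCfg`) or a column of `s T`
  (its rank is unchanged, `Le.rank`).  For (4): the set for `T+1` is contained in (the set for `T`) `∪ {Ψ}`, and `Ψ` counts only if `ρ (γ T).f = r`; `Finset.range_succ`, `Finset.filter_insert`, `Finset.card_insert_le`.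
* `IsChain.count_cfg`.  If no `i < T` has `γ i = γ0` the left side is `0`.  Otherwise `γ0` is a configuration, `b = γ0.b`, `‖restr I b‖ > 0` (`Fails.base_pos`, `xv_norm_restr_eq`, `cell_len_pos`).  Put `s' n = s (min n T)`: increasing for ALL `n`
  (`Step.le` for `n < T`, `Le.refl` otherwise).  `chain_rows` for `s'` gives `∑_{i<T} ‖(gQ (s (i+1)) - gQ (s i)) (gState (s i) γ0)‖² ≤ ((1+L_T)^{|h|})² ‖restr I b‖²`, `|h| ≤ m0`; each `i` with `γ i = γ0` contributes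
  `≥ tol²/(2H0²) ‖restr I b‖²` (`Step.gain`, `CatOk (s i)` from `facts`).  `Finset.sum_le_sum_of_subset_of_nonneg`, `Finset.card_nsmul_le_sum`; divide by `‖restr I b‖²`.
* `IsChain.count_rank`.  `F` from `cfg_finite`.  `#{i<T : ρ (γ i).f = r} = ∑_{γ0 ∈ F, ρ γ0.f = r} #{i<T : γ i = γ0}` (`Finset.card_eq_sum_card_fiberwise`), each term `≤ ((1+L_T)^{m0})² · 2H0²/tol_r²`;
  `1/tol_r² = D² n(r-1)/τ₃²` (`Real.sq_sqrt`);  `1 + L_T ≤ 2 L_{T0}` (`s3_LT_pos`, `Nat.clog_mono_right`), so `((1+L_T)^{m0})² ≤ A.K p`;  `#F ≤ A.Ncfg p`;  the product is `n(r-1) · A.E p`.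
* `IsChain.length_lt`.  `T = ∑_{r=1}^{𝓛+5} #{i<T : ρ (γ i).f = r}` (`hρ`), `≤ ∑_r n(r-1) E ≤ ∑_r (n r - n(r-1)) = n(𝓛+5) - n 0 < T0` (`hE.num.ratio`, `M ≥ 1`, `Finset.sum_range_sub`, `Nat.le_ceil`).
* `exists_closed_chain`.  By induction on `T ≤ T0`: either there is a chain of length `T` starting at `c`, or a closed chain of length `< T`.  Extension: if `s T` is not closed, `exists_step` gives `c''`;
  `s' = Function.update s (T+1) c''`, `γ' = Function.update γ T γnew`.  For `T = T0` the first alternative contradicts `length_lt`.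
-/
import Claimed.Agent.R258.Loc.Gain

set_option autoImplicit false
open MeasureTheory

namespace Claimed.Agent.R258

namespace LocSys

variable (Y : LocSys LocTag)

/-- a sequence of `T` greedy insertions on the cell `I` -/
def IsChain (ρ : LocFilt → ℕ) (A : Acc) (N0 : ℕ) (bases : Cell → Finset (Fin 4 × XV)) (I : Cell) (s : ℕ → LocCat) (γ : ℕ → LocCfg)
    (T : ℕ) : Prop :=
  ∀ i < T, Y.IsCfg bases A.m0 I (γ i) ∧ Y.Step ρ A N0 I (s i) (s (i + 1)) (γ i)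

open Classical in
/-- the output of the closure on one cell -/
structure CellExt (ρ : LocFilt → ℕ) (A : Acc) (N0 : ℕ) (bases : Cell → Finset (Fin 4 × XV)) (I : Cell) (c c' : LocCat) : Prop where
  le : c.Le c'
  ok : Y.CatOk c' A.D A.Hc
  new : ∀ Φ ∈ c'.cols, Φ ∉ c.cols → Φ.birth = I ∧ Φ.eps = 1 ∧ N0 ≤ Φ.lab ∧ ∃ f, Y.Named I f ∧ c'.rank Φ.lab = ρ f
  cnt : ∀ r, 1 ≤ r → ((c'.cols.filter fun Φ => Φ ∉ c.cols ∧ c'.rank Φ.lab = r).card : ℝ) ≤ A.n (r - 1) * A.E Y.p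
  closed : Y.GClosedAt c' ρ bases A I

variable {Y} {c0 C0 k C3 : ℝ} {A : Acc} {ρ : LocFilt → ℕ} {N0 : ℕ} {bases : Cell → Finset (Fin 4 × XV)} {I : Cell}
  {s : ℕ → LocCat} {γ : ℕ → LocCfg} {T : ℕ}

open Classical in
theorem IsChain.facts (hE : Y.Eng c0 C0 k C3 A) (hc : Y.CatOk (s 0) A.D A.Hc) (h : Y.IsChain ρ A N0 bases I s γ T) :
    (s 0).Le (s T) ∧ Y.CatOk (s T) A.D A.Hc ∧
    (∀ Φ ∈ (s T).cols, Φ ∉ (s 0).cols → Φ.birth = I ∧ Φ.eps = 1 ∧ N0 ≤ Φ.lab ∧ ∃ f, Y.Named I f ∧ (s T).rank Φ.lab = ρ f) ∧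
    ∀ r, ((s T).cols.filter fun Φ => Φ ∉ (s 0).cols ∧ (s T).rank Φ.lab = r).card ≤
      ((Finset.range T).filter fun i => ρ (γ i).f = r).card := by
  induction T with
  | zero =>
    refine ⟨LocCat.Le.refl _, hc, fun Φ h1 h2 => absurd h1 h2, fun r => ?_⟩
    rw [Finset.filter_eq_empty_iff.2 (fun Φ hΦ hh => hh.1 hΦ)]
    simp
  | succ T ih =>
    obtain ⟨i1, i2, i3, i4⟩ := ih (fun i hi => h i (Nat.lt_succ_of_lt hi))
    obtain ⟨hcfg, hstep⟩ := h T (Nat.lt_succ_self T)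
    have hle := hstep.le
    obtain ⟨Ψ, hΨ, hmem, hbirth, heps, hlab, hrank, hslot⟩ := hstep.new
    refine ⟨i1.trans hle, hstep.catOk hE i2, ?_, ?_⟩
    · intro Φ hΦ hΦ0
      rcases (hmem Φ).1 hΦ with rfl | hΦ'
      · exact ⟨hbirth, heps, hlab, (γ T).f, hcfg.2.1, hrank⟩
      · obtain ⟨a, b, c, f, hf, hr⟩ := i3 Φ hΦ' hΦ0
        exact ⟨a, b, c, f, hf, by rw [hle.rank Φ hΦ', hr]⟩
    · intro r
      rw [Finset.range_add_one, Finset.filter_insert]
      by_cases hr : ρ (γ T).f = r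
      · rw [if_pos hr, Finset.card_insert_of_notMem (by simp)]
        refine le_trans (Finset.card_le_card (t := insert Ψ ((s T).cols.filter fun Φ => Φ ∉ (s 0).cols ∧ (s T).rank Φ.lab = r)) ?_)
          (le_trans (Finset.card_insert_le _ _) (Nat.add_le_add_right (i4 r) 1))
        intro Φ hΦ
        obtain ⟨h1, h2, h3⟩ := Finset.mem_filter.1 hΦ
        rcases (hmem Φ).1 h1 with rfl | hΦ'
        · exact Finset.mem_insert_self _ _
        · refine Finset.mem_insert_of_mem (Finset.mem_filter.2 ⟨hΦ', h2, ?_⟩)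
          rw [← hle.rank Φ hΦ', h3]
      · rw [if_neg hr]
        refine le_trans (Finset.card_le_card ?_) (i4 r)
        intro Φ hΦ
        obtain ⟨h1, h2, h3⟩ := Finset.mem_filter.1 hΦ
        rcases (hmem Φ).1 h1 with rfl | hΦ'
        · exact absurd (hrank.symm.trans h3) hr
        · refine Finset.mem_filter.2 ⟨hΦ', h2, ?_⟩
          rw [← hle.rank Φ hΦ', h3]

theorem IsChain.mono {T' : ℕ} (h : Y.IsChain ρ A N0 bases I s γ T) (hT : T' ≤ T) : Y.IsChain ρ A N0 bases I s γ T' :=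
  fun i hi => h i (lt_of_lt_of_le hi hT)

open Classical in
/-- a fixed configuration triggers at most `K_T / θ²` insertions -/
theorem IsChain.count_cfg (hc0 : 0 < c0) (hE : Y.Eng c0 C0 k C3 A) (hc : Y.CatOk (s 0) A.D A.Hc) (hS : I ∈ Y.X.S)
    (hlab : ∀ x ∈ bases I, LabFree N0 x.2) (h : Y.IsChain ρ A N0 bases I s γ T) (γ0 : LocCfg) :
    (((Finset.range T).filter fun i => γ i = γ0).card : ℝ) * ((tol A.D A.τ3 A.n (ρ γ0.f)) ^ 2 / (2 * A.H0 ^ 2)) ≤
      ((1 + (s3_LT T : ℝ)) ^ A.m0) ^ 2 := by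
  obtain ⟨S, hSdef⟩ : ∃ S, S = (Finset.range T).filter fun i => γ i = γ0 := ⟨_, rfl⟩
  rw [← hSdef]
  have hL1 : (1 : ℝ) ≤ 1 + (s3_LT T : ℝ) := by linarith [s3_LT_pos T]
  rcases S.eq_empty_or_nonempty with hemp | ⟨i0, hi0⟩
  · rw [hemp, Finset.card_empty, Nat.cast_zero, zero_mul]
    positivity
  rw [hSdef] at hi0
  obtain ⟨hi0T, hγi0⟩ := Finset.mem_filter.1 hi0
  obtain ⟨hcfg, hstep⟩ := h i0 (Finset.mem_range.1 hi0T)
  rw [hγi0] at hcfg hstep
  obtain ⟨q, η, LU, hq, hXV⟩ := hE.xv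
  have hw : Admissible c0 C0 I (Y.X.w I) := hXV.adm I hS
  obtain ⟨Φ, ψ, v, hF, -⟩ := hstep
  have hb := hF.base_pos hc0 hw
  have hnorm : 0 < ‖restr I.set γ0.b‖ ^ 2 := by
    rw [xv_normsq_restr_eq]
    exact mul_pos (pow_pos hb 2) (cell_len_pos I)
  obtain ⟨s', hs'def⟩ : ∃ s' : ℕ → LocCat, s' = fun n => s (min n T) := ⟨_, rfl⟩
  have hs'eq : ∀ n, n ≤ T → s' n = s n := by
    intro n hn
    rw [hs'def]
    show s (min n T) = s n
    rw [min_eq_left hn]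
  have hs' : ∀ n, (s' n).Le (s' (n + 1)) := by
    intro n
    by_cases hn : n < T
    · rw [hs'eq n hn.le, hs'eq (n + 1) hn]
      exact (h n hn).2.le
    · rw [hs'def]
      show (s (min n T)).Le (s (min (n + 1) T))
      rw [min_eq_right (not_lt.1 hn), min_eq_right ((not_lt.1 hn).trans (Nat.le_succ n))]
      exact LocCat.Le.refl _
  have hrows := Y.chain_rows ρ s' hE.P_pos hs' γ0.l γ0.f γ0.pd I γ0.h T γ0.b
  obtain ⟨θ, hθ⟩ : ∃ θ : ℝ, θ = (tol A.D A.τ3 A.n (ρ γ0.f)) ^ 2 / (2 * A.H0 ^ 2) := ⟨_, rfl⟩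
  rw [← hθ]
  have hlow : (S.card : ℝ) * (θ * ‖restr I.set γ0.b‖ ^ 2) ≤
      ∑ i ∈ Finset.range T, ‖(Y.gQ (s' (i + 1)) ρ γ0.l γ0.f γ0.pd I - Y.gQ (s' i) ρ γ0.l γ0.f γ0.pd I)
        (Y.gEval (s' i) ρ γ0.l I γ0.h γ0.b)‖ ^ 2 := by
    have h1 : S ⊆ Finset.range T := by
      rw [hSdef]
      exact Finset.filter_subset _ _
    refine le_trans ?_ (Finset.sum_le_sum_of_subset_of_nonneg h1 (fun i _ _ => sq_nonneg _))
    rw [← nsmul_eq_mul]
    refine Finset.card_nsmul_le_sum _ _ _ ?_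
    intro i hi
    rw [hSdef] at hi
    obtain ⟨hiT, hγi⟩ := Finset.mem_filter.1 hi
    have hiT' := Finset.mem_range.1 hiT
    obtain ⟨hcfgi, hstepi⟩ := h i hiT'
    rw [hγi] at hcfgi hstepi
    rw [hs'eq i hiT'.le, hs'eq (i + 1) hiT', hθ]
    exact hstepi.gain hE ((h.mono hiT'.le).facts hE hc).2.1 (hlab _ hcfgi.1)
  have hlen : ((1 + (s3_LT T : ℝ)) ^ γ0.h.length) ^ 2 ≤ ((1 + (s3_LT T : ℝ)) ^ A.m0) ^ 2 :=
    pow_le_pow_left₀ (by positivity) (pow_le_pow_right₀ hL1 hcfg.2.2.2.2.1) 2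
  have hfin : ((S.card : ℝ) * θ) * ‖restr I.set γ0.b‖ ^ 2 ≤ ((1 + (s3_LT T : ℝ)) ^ A.m0) ^ 2 * ‖restr I.set γ0.b‖ ^ 2 := by
    calc ((S.card : ℝ) * θ) * ‖restr I.set γ0.b‖ ^ 2 = (S.card : ℝ) * (θ * ‖restr I.set γ0.b‖ ^ 2) := by ring
      _ ≤ _ := hlow
      _ ≤ _ := hrows
      _ ≤ _ := mul_le_mul_of_nonneg_right hlen hnorm.le
  exact le_of_mul_le_mul_right hfin hnorm

open Classical in
/-- rank-`r` insertions on one cell -/
theorem IsChain.count_rank (hc0 : 0 < c0) (hE : Y.Eng c0 C0 k C3 A) (hc : Y.CatOk (s 0) A.D A.Hc) (hS : I ∈ Y.X.S)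
    (hb : ((bases I).card : ℝ) ≤ A.Nb) (hlab : ∀ x ∈ bases I, LabFree N0 x.2) (h : Y.IsChain ρ A N0 bases I s γ T)
    (hT : T ≤ A.T0 Y.p) (r : ℕ) (hr : 1 ≤ r) :
    (((Finset.range T).filter fun i => ρ (γ i).f = r).card : ℝ) ≤ A.n (r - 1) * A.E Y.p := by
  obtain ⟨F, hF, hFc⟩ := Y.cfg_finite A bases I hb
  have hD : 0 < A.D := lt_of_lt_of_le (Real.exp_pos k) hE.num.D_ge
  have hn : 0 < A.n (r - 1) :=
    lt_of_lt_of_le hD ((hE.num.pD_ge.trans hE.num.n_zero).trans (hE.num.n_mono (Nat.zero_le _)))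
  have hH0 : 0 < A.H0 := lt_of_lt_of_le one_pos hE.num.H0_ge
  have hτ := hE.num.τ3_pos
  obtain ⟨θ, hθ⟩ : ∃ θ : ℝ, θ = (tol A.D A.τ3 A.n r) ^ 2 / (2 * A.H0 ^ 2) := ⟨_, rfl⟩
  have hθ' : θ = A.τ3 ^ 2 / (A.D ^ 2 * A.n (r - 1) * (2 * A.H0 ^ 2)) := by
    rw [hθ]
    unfold tol
    rw [div_pow, mul_pow, Real.sq_sqrt hn.le, div_div]
  have hθpos : 0 < θ := by
    rw [hθ']
    positivity
  have hK : ((1 + (s3_LT T : ℝ)) ^ A.m0) ^ 2 ≤ A.K Y.p := by
    unfold Acc.K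
    rw [← pow_mul, mul_comm A.m0 2]
    refine pow_le_pow_left₀ (by positivity) ?_ _
    have h1 : s3_LT T ≤ s3_LT (A.T0 Y.p) := by
      unfold s3_LT
      exact Nat.add_le_add_left (Nat.clog_mono_right 2 (Nat.succ_le_succ hT)) 1
    have h2 : (s3_LT T : ℝ) ≤ (s3_LT (A.T0 Y.p) : ℝ) := by exact_mod_cast h1
    linarith [s3_LT_pos (A.T0 Y.p)]
  have hK0 : 0 ≤ A.K Y.p := le_trans (by positivity) hK
  obtain ⟨R, hR⟩ : ∃ R, R = (Finset.range T).filter fun i => ρ (γ i).f = r := ⟨_, rfl⟩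
  rw [← hR]
  have hmaps : Set.MapsTo γ (R : Set ℕ) ((F.filter fun γ0 => ρ γ0.f = r : Finset LocCfg) : Set LocCfg) := by
    intro i hi
    rw [hR] at hi
    obtain ⟨hiT, hri⟩ := Finset.mem_filter.1 (Finset.mem_coe.1 hi)
    exact Finset.mem_coe.2 (Finset.mem_filter.2 ⟨hF _ (h i (Finset.mem_range.1 hiT)).1, hri⟩)
  have hcard := Finset.card_eq_sum_card_fiberwise hmaps
  have hterm : ∀ γ0 ∈ F.filter (fun γ0 => ρ γ0.f = r), ((R.filter fun i => γ i = γ0).card : ℝ) ≤ A.K Y.p / θ := by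
    intro γ0 hγ0
    have hr0 : ρ γ0.f = r := (Finset.mem_filter.1 hγ0).2
    have h1 := h.count_cfg hc0 hE hc hS hlab γ0
    rw [hr0, ← hθ] at h1
    rw [le_div_iff₀ hθpos]
    refine le_trans (mul_le_mul_of_nonneg_right ?_ hθpos.le) (h1.trans hK)
    have h2 : (R.filter fun i => γ i = γ0) ⊆ (Finset.range T).filter fun i => γ i = γ0 := by
      rw [hR]
      exact Finset.filter_subset_filter _ (Finset.filter_subset _ _)
    exact_mod_cast Finset.card_le_card h2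
  have hsum : (R.card : ℝ) ≤ ((F.filter fun γ0 => ρ γ0.f = r).card : ℝ) * (A.K Y.p / θ) := by
    rw [hcard, Nat.cast_sum, ← nsmul_eq_mul]
    exact Finset.sum_le_card_nsmul _ _ _ hterm
  have hF' : ((F.filter fun γ0 => ρ γ0.f = r).card : ℝ) ≤ A.Ncfg Y.p :=
    le_trans (by exact_mod_cast Finset.card_le_card (Finset.filter_subset _ _)) hFc
  refine hsum.trans (le_trans (mul_le_mul_of_nonneg_right hF' (div_nonneg hK0 hθpos.le)) (le_of_eq ?_))
  rw [hθ']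
  unfold Acc.E
  field_simp

/-- no trial cap is attained -/
theorem IsChain.length_lt (hc0 : 0 < c0) (hE : Y.Eng c0 C0 k C3 A) (hc : Y.CatOk (s 0) A.D A.Hc) (hS : I ∈ Y.X.S)
    (hb : ((bases I).card : ℝ) ≤ A.Nb) (hlab : ∀ x ∈ bases I, LabFree N0 x.2)
    (hρ : ∀ f, Y.Named I f → 1 ≤ ρ f ∧ ρ f ≤ Y.p.L + 5) (h : Y.IsChain ρ A N0 bases I s γ T) (hT : T ≤ A.T0 Y.p) :
    T < A.T0 Y.p := by
  classical
  have hD : 0 < A.D := lt_of_lt_of_le (Real.exp_pos k) hE.num.D_ge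
  have hn : ∀ r, 0 < A.n r := fun r =>
    lt_of_lt_of_le hD ((hE.num.pD_ge.trans hE.num.n_zero).trans (hE.num.n_mono (Nat.zero_le _)))
  have hH0 : 0 < A.H0 := lt_of_lt_of_le one_pos hE.num.H0_ge
  have hτ := hE.num.τ3_pos
  have hNb : 0 ≤ A.Nb := le_trans (by norm_num) hE.num.Nb_ge
  have hE0 : 0 ≤ A.E Y.p := by
    unfold Acc.E Acc.Ncfg Acc.K Acc.Nf
    positivity
  have hmaps : Set.MapsTo (fun i => ρ (γ i).f - 1) (Finset.range T : Set ℕ) (Finset.range (Y.p.L + 5) : Set ℕ) := by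
    intro i hi
    have h1 := hρ _ (h i (Finset.mem_range.1 (Finset.mem_coe.1 hi))).1.2.1
    refine Finset.mem_coe.2 (Finset.mem_range.2 ?_)
    show ρ (γ i).f - 1 < Y.p.L + 5
    omega
  have hcard := Finset.card_eq_sum_card_fiberwise hmaps
  rw [Finset.card_range] at hcard
  have hterm : ∀ j ∈ Finset.range (Y.p.L + 5),
      ((((Finset.range T).filter fun i => ρ (γ i).f - 1 = j).card : ℕ) : ℝ) ≤ A.n (j + 1) - A.n j := by
    intro j hj
    have hj' := Finset.mem_range.1 hj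
    have h1 := h.count_rank hc0 hE hc hS hb hlab hT (j + 1) (Nat.succ_le_succ (Nat.zero_le j))
    have h2 := hE.num.ratio (j + 1) (Nat.succ_le_succ (Nat.zero_le j)) hj'
    rw [Nat.add_sub_cancel] at h1 h2
    have h3 : ((Finset.range T).filter fun i => ρ (γ i).f - 1 = j) ⊆ (Finset.range T).filter fun i => ρ (γ i).f = j + 1 := by
      intro i hi
      obtain ⟨hiT, hij⟩ := Finset.mem_filter.1 hi
      have h4 := hρ _ (h i (Finset.mem_range.1 hiT)).1.2.1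
      exact Finset.mem_filter.2 ⟨hiT, by omega⟩
    have h5 : ((((Finset.range T).filter fun i => ρ (γ i).f - 1 = j).card : ℕ) : ℝ) ≤
        ((((Finset.range T).filter fun i => ρ (γ i).f = j + 1).card : ℕ) : ℝ) := by
      exact_mod_cast Finset.card_le_card h3
    have h6 : A.n j * A.E Y.p ≤ A.n j * (A.M * A.E Y.p) :=
      mul_le_mul_of_nonneg_left (le_mul_of_one_le_left hE0 hE.num.M_ge) (hn j).le
    nlinarith [h5, h1, h2, h6]
  have hsum : (T : ℝ) ≤ A.n (Y.p.L + 5) - A.n 0 := by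
    rw [← Finset.sum_range_sub (fun j => A.n j)]
    calc (T : ℝ) = ∑ j ∈ Finset.range (Y.p.L + 5), ((((Finset.range T).filter fun i => ρ (γ i).f - 1 = j).card : ℕ) : ℝ) := by
          rw [← Nat.cast_sum, ← hcard]
      _ ≤ _ := Finset.sum_le_sum hterm
  have h7 : (T : ℝ) ≤ (⌈A.n (Y.p.L + 5)⌉₊ : ℝ) := by
    linarith [Nat.le_ceil (A.n (Y.p.L + 5)), hn 0]
  have h8 : T ≤ ⌈A.n (Y.p.L + 5)⌉₊ := by exact_mod_cast h7
  unfold Acc.T0
  omega

/-- the greedy process stops at a closed catalog -/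
theorem exists_closed_chain (hc0 : 0 < c0) (hE : Y.Eng c0 C0 k C3 A) {c : LocCat} (hc : Y.CatOk c A.D A.Hc) (hS : I ∈ Y.X.S)
    (hb : ((bases I).card : ℝ) ≤ A.Nb) (hlab : ∀ x ∈ bases I, LabFree N0 x.2)
    (hρ : ∀ f, Y.Named I f → 1 ≤ ρ f ∧ ρ f ≤ Y.p.L + 5) :
    ∃ (T : ℕ) (s : ℕ → LocCat) (γ : ℕ → LocCfg), s 0 = c ∧ Y.IsChain ρ A N0 bases I s γ T ∧ T < A.T0 Y.p ∧
      Y.GClosedAt (s T) ρ bases A I := by
  classical
  by_contra hcon
  have key : ∀ T, T ≤ A.T0 Y.p → ∃ (s : ℕ → LocCat) (γ : ℕ → LocCfg), s 0 = c ∧ Y.IsChain ρ A N0 bases I s γ T := by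
    intro T
    induction T with
    | zero =>
      intro _
      exact ⟨fun _ => c, fun _ => ⟨0, 0, .cum 0, 0, []⟩, rfl, fun i hi => absurd hi (Nat.not_lt_zero i)⟩
    | succ T ih =>
      intro hT
      obtain ⟨s, γ, hs0, hch⟩ := ih (Nat.le_of_succ_le hT)
      have hncl : ¬ Y.GClosedAt (s T) ρ bases A I := fun hcl => hcon ⟨T, s, γ, hs0, hch, hT, hcl⟩
      unfold GClosedAt at hncl
      push Not at hncl
      obtain ⟨γn, hγn, Φ, hF⟩ := hncl
      have hok : Y.CatOk (s T) A.D A.Hc := (hch.facts hE (by rw [hs0]; exact hc)).2.1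
      obtain ⟨c'', hstep⟩ := exists_step hc0 hE hok hS N0 hF
      refine ⟨Function.update s (T + 1) c'', Function.update γ T γn, ?_, ?_⟩
      · rw [Function.update_of_ne (Nat.succ_ne_zero T).symm]
        exact hs0
      · intro i hi
        rcases Nat.lt_succ_iff_lt_or_eq.1 hi with hi' | rfl
        · rw [Function.update_of_ne (by omega : i ≠ T + 1), Function.update_of_ne (by omega : i + 1 ≠ T + 1),
            Function.update_of_ne (by omega : i ≠ T)]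
          exact hch i hi'
        · rw [Function.update_of_ne (by omega : i ≠ i + 1), Function.update_self, Function.update_self]
          exact ⟨hγn, hstep⟩
  obtain ⟨s, γ, hs0, hch⟩ := key (A.T0 Y.p) le_rfl
  exact lt_irrefl _ (hch.length_lt hc0 hE (by rw [hs0]; exact hc) hS hb hlab hρ le_rfl)

/-- **closure on one cell** -/
theorem cell_closure (hc0 : 0 < c0) (hE : Y.Eng c0 C0 k C3 A) {c : LocCat} (hc : Y.CatOk c A.D A.Hc) (hS : I ∈ Y.X.S)
    (hb : ((bases I).card : ℝ) ≤ A.Nb) (hlab : ∀ x ∈ bases I, LabFree N0 x.2)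
    (hρ : ∀ f, Y.Named I f → 1 ≤ ρ f ∧ ρ f ≤ Y.p.L + 5) : ∃ c', Y.CellExt ρ A N0 bases I c c' := by
  classical
  obtain ⟨T, s, γ, rfl, hch, hT, hcl⟩ := exists_closed_chain hc0 hE hc hS hb hlab hρ
  obtain ⟨h1, h2, h3, h4⟩ := hch.facts hE hc
  refine ⟨s T, h1, h2, h3, fun r hr => ?_, hcl⟩
  refine le_trans ?_ (hch.count_rank hc0 hE hc hS hb hlab hT.le r hr)
  exact_mod_cast h4 r

end LocSys

end Claimed.Agent.R258
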