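/-
Row 258 (S0498), Sec. 6.4 (architect helper68).  FILE Tree: the closure on all active cells (top-down), path counts.  **Lemma 6.7** in generic form.
`tree_closure` is proved (induction over the cells in the order of increasing depth: insertions on a deepest cell do not affect the other cells).
LEAF P-LOC-TREE-CNT : `mult_all`, `TreeExt.path_new`, `TreeExt.cnt_le`, `Eng.n_tele`, `TreeExt.catCnt_main`, `TreeExt.cnt_help`.   No paper reading; finite counting.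

PLANS.
* `mult_all`: for `J ≤ root` let `J'` be a cell of `T` above `J` of maximal depth (`root ∈ T`; `Finset.exists_max_image`).  Every `I ∈ S ⊆ T` with `J ≤ I` satisfies `J' ≤ I` (both are ancestors of `J`, hence comparable,
  `loc_le_total`; `I < J'` would contradict the choice).  Apply `mult` of `X.Valid` at `J'`.
* `path_new`: the set is the disjoint union over `I ∈ cells.filter (J ≤ ·)` of the sets of `TreeExt.cnt` (`Φ ∈ avail J` means `J ≤ Φ.birth`, and `Φ.birth ∈ cells`): `Finset.card_biUnion_le`/`card_le_card` + `Finset.sum_le_card_nsmul`.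
* `cnt_le`: split `{Φ ∈ c'.avail J | rank' ≤ r}` into old columns (same rank, `Le.rank`) and new columns (rank `ρ f ∈ [1, r]`), the latter by their rank `r' ∈ Icc 1 r`.
* `n_tele`: induction on `r ≤ 𝓛+5` with `hE.num.ratio`: `n(r) ≥ n(r-1) + M n(r-1) E`.
* `catCnt_main`: `cnt_le`, `n_tele`; for `r > 𝓛+5` all ranks are `≤ 𝓛+5`, reduce to `r = 𝓛+5` and `n_mono`.
* `cnt_help`: `cnt_le` at `r = 𝓛+5` where only `r' = 𝓛+5` occurs (`ρ = rkH`): `≤ n(𝓛+4) + M n(𝓛+4) E ≤ n(𝓛+5)`.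
-/
import Claimed.Agent.R258.Loc.Greedy

set_option autoImplicit false
open MeasureTheory

namespace Claimed.Agent.R258

namespace LocSys

variable (Y : LocSys LocTag)

open Classical in
/-- the output of the closure on a set of cells -/
structure TreeExt (ρ : LocFilt → ℕ) (A : Acc) (N0 : ℕ) (bases : Cell → Finset (Fin 4 × XV)) (cells : Finset Cell) (c c' : LocCat) :
    Prop where
  le : c.Le c'
  ok : Y.CatOk c' A.D A.Hc
  new : ∀ Φ ∈ c'.cols, Φ ∉ c.cols → Φ.birth ∈ cells ∧ Φ.eps = 1 ∧ N0 ≤ Φ.lab ∧ ∃ f, Y.Named Φ.birth f ∧ c'.rank Φ.lab = ρ f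
  cnt : ∀ I ∈ cells, ∀ r, 1 ≤ r →
    ((c'.cols.filter fun Φ => Φ ∉ c.cols ∧ Φ.birth = I ∧ c'.rank Φ.lab = r).card : ℝ) ≤ A.n (r - 1) * A.E Y.p
  closed : ∀ I ∈ cells, Y.GClosedAt c' ρ bases A I

variable {Y} {c0 C0 k C3 : ℝ} {A : Acc} {ρ : LocFilt → ℕ} {N0 : ℕ} {bases : Cell → Finset (Fin 4 × XV)}

/-- **closure on all cells** -/
theorem tree_closure (hc0 : 0 < c0) (hE : Y.Eng c0 C0 k C3 A) {c : LocCat} (hc : Y.CatOk c A.D A.Hc)
    (hρ : ∀ I f, Y.Named I f → 1 ≤ ρ f ∧ ρ f ≤ Y.p.L + 5) (cells : Finset Cell) (hcells : cells ⊆ Y.X.S)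
    (hb : ∀ I ∈ cells, ((bases I).card : ℝ) ≤ A.Nb) (hlab : ∀ I ∈ cells, ∀ x ∈ bases I, LabFree N0 x.2) :
    ∃ c', Y.TreeExt ρ A N0 bases cells c c' := by
  classical
  induction cells using Finset.induction_on_max_value (fun I : Cell => I.depth) with
  | empty =>
    exact ⟨c, LocCat.Le.refl c, hc, fun Φ h1 h2 => absurd h1 h2, fun I hI => absurd hI (Finset.notMem_empty I),
      fun I hI => absurd hI (Finset.notMem_empty I)⟩
  | insert I s hIs hmax ih =>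
    obtain ⟨c1, h1⟩ := ih (fun J hJ => hcells (Finset.mem_insert_of_mem hJ)) (fun J hJ => hb J (Finset.mem_insert_of_mem hJ))
      (fun J hJ => hlab J (Finset.mem_insert_of_mem hJ))
    obtain ⟨c2, h2⟩ := cell_closure (N0 := N0) hc0 hE h1.ok (hcells (Finset.mem_insert_self I s))
      (hb I (Finset.mem_insert_self I s)) (hlab I (Finset.mem_insert_self I s)) (hρ I)
    -- no other cell lies below `I`
    have hnot : ∀ J ∈ s, ¬ J ≤ I := by
      intro J hJ hle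
      have hd : I.depth ≤ J.depth := loc_depth_le hle
      have hd' : J.depth ≤ I.depth := hmax J hJ
      have : J = I := loc_eq_of_depth_eq (le_refl J) hle (le_antisymm hd' hd)
      exact hIs (this ▸ hJ)
    refine ⟨c2, h1.le.trans h2.le, h2.ok, ?_, ?_, ?_⟩
    · intro Φ hΦ hΦc
      by_cases hΦ1 : Φ ∈ c1.cols
      · obtain ⟨a1, a2, a3, f, a4, a5⟩ := h1.new Φ hΦ1 hΦc
        exact ⟨Finset.mem_insert_of_mem a1, a2, a3, f, a4, by rw [h2.le.rank Φ hΦ1, a5]⟩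
      · obtain ⟨a1, a2, a3, f, a4, a5⟩ := h2.new Φ hΦ hΦ1
        exact ⟨a1 ▸ Finset.mem_insert_self I s, a2, a3, f, a1 ▸ a4, a5⟩
    · intro J hJ r hr
      rcases Finset.mem_insert.1 hJ with rfl | hJs
      · refine le_trans ?_ (h2.cnt r hr)
        have : (c2.cols.filter fun Φ => Φ ∉ c.cols ∧ Φ.birth = J ∧ c2.rank Φ.lab = r) ⊆
            c2.cols.filter fun Φ => Φ ∉ c1.cols ∧ c2.rank Φ.lab = r := by
          intro Φ hΦ
          simp only [Finset.mem_filter] at hΦ ⊢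
          refine ⟨hΦ.1, fun hΦ1 => ?_, hΦ.2.2.2⟩
          have := (h1.new Φ hΦ1 hΦ.2.1).1
          rw [hΦ.2.2.1] at this
          exact hIs this
        exact_mod_cast Finset.card_le_card this
      · refine le_trans ?_ (h1.cnt J hJs r hr)
        have : (c2.cols.filter fun Φ => Φ ∉ c.cols ∧ Φ.birth = J ∧ c2.rank Φ.lab = r) ⊆
            c1.cols.filter fun Φ => Φ ∉ c.cols ∧ Φ.birth = J ∧ c1.rank Φ.lab = r := by
          intro Φ hΦ
          simp only [Finset.mem_filter] at hΦ ⊢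
          have hΦ1 : Φ ∈ c1.cols := by
            by_contra hc1
            have := (h2.new Φ hΦ.1 hc1).1
            rw [hΦ.2.2.1] at this
            exact hIs (this ▸ hJs)
          exact ⟨hΦ1, hΦ.2.1, hΦ.2.2.1, by rw [← h2.le.rank Φ hΦ1]; exact hΦ.2.2.2⟩
        exact_mod_cast Finset.card_le_card this
    · intro J hJ
      rcases Finset.mem_insert.1 hJ with rfl | hJs
      · exact h2.closed
      · refine (h1.closed J hJs).of_local h2.le ?_
        intro Φ hΦ hΦ1 hle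
        rw [(h2.new Φ hΦ hΦ1).1] at hle
        exact hnot J hJs hle

section count

open Classical in
/-- the path multiplicity (10) holds on all cells below the root -/
theorem Eng.mult_all (hE : Y.Eng c0 C0 k C3 A) {J : Cell} (hJ : J ≤ Y.X.root) :
    (((Y.X.S.filter fun I => J ≤ I).card : ℕ) : ℝ) ≤ A.M := by
  obtain ⟨q, η, LU, _, hX⟩ := hE.xv
  have hne : (Y.X.T.filter fun I => J ≤ I).Nonempty := ⟨Y.X.root, Finset.mem_filter.2 ⟨hX.tree.root_mem, hJ⟩⟩
  obtain ⟨J', hJ', hmax⟩ := Finset.exists_max_image (Y.X.T.filter fun I => J ≤ I) (fun I : Cell => I.depth) hne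
  obtain ⟨hJ'T, hJJ'⟩ := Finset.mem_filter.1 hJ'
  refine hX.mult J' hJ'T _ (Finset.filter_subset _ _) ?_
  intro I hI
  obtain ⟨hIS, hJI⟩ := Finset.mem_filter.1 hI
  exact loc_le_of_depth_le hJJ' hJI (hmax I (Finset.mem_filter.2 ⟨hX.S_sub hIS, hJI⟩))

theorem Eng.loc_tc_n_ge_one (hE : Y.Eng c0 C0 k C3 A) (r : ℕ) : 1 ≤ A.n r := by
  have h0 := hE.num.n_mono (Nat.zero_le r)
  have h1 : (1 : ℝ) ≤ Real.exp k := Real.one_le_exp (by linarith [hE.num.k_ge])
  linarith [hE.num.n_zero, hE.num.pD_ge, hE.num.D_ge]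

theorem Eng.loc_tc_E_nonneg (hE : Y.Eng c0 C0 k C3 A) : 0 ≤ A.E Y.p := by
  unfold Acc.E Acc.Ncfg Acc.K Acc.Nf
  have h1 := hE.num.Nb_ge
  have h2 := hE.num.τ3_pos
  have h3 : 0 ≤ A.Nb := by linarith
  positivity

theorem Eng.loc_tc_term_nonneg (hE : Y.Eng c0 C0 k C3 A) (r : ℕ) : 0 ≤ A.n r * A.E Y.p :=
  mul_nonneg (by linarith [hE.loc_tc_n_ge_one r]) hE.loc_tc_E_nonneg

variable {cells : Finset Cell} {c c' : LocCat}

open Classical in
/-- new columns of rank `r` on a path -/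
theorem TreeExt.path_new (hE : Y.Eng c0 C0 k C3 A) (h : Y.TreeExt ρ A N0 bases cells c c') (hcells : cells ⊆ Y.X.S) {J : Cell}
    (hJ : J ≤ Y.X.root) (r : ℕ) (hr : 1 ≤ r) :
    (((c'.avail J).filter fun Φ => Φ ∉ c.cols ∧ c'.rank Φ.lab = r).card : ℝ) ≤ A.M * (A.n (r - 1) * A.E Y.p) := by
  have hsub : ((c'.avail J).filter fun Φ => Φ ∉ c.cols ∧ c'.rank Φ.lab = r) ⊆
      (cells.filter fun I => J ≤ I).biUnion fun I =>
        c'.cols.filter fun Φ => Φ ∉ c.cols ∧ Φ.birth = I ∧ c'.rank Φ.lab = r := by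
    intro Φ hΦ
    simp only [Finset.mem_filter, LocCat.avail] at hΦ
    obtain ⟨⟨h1, h2⟩, h3, h4⟩ := hΦ
    simp only [Finset.mem_biUnion, Finset.mem_filter]
    exact ⟨Φ.birth, ⟨(h.new Φ h1 h3).1, h2⟩, h1, h3, rfl, h4⟩
  have hnn := hE.loc_tc_term_nonneg (r - 1)
  have hcard : (((cells.filter fun I => J ≤ I).card : ℕ) : ℝ) ≤ A.M := by
    refine le_trans ?_ (hE.mult_all hJ)
    exact_mod_cast Finset.card_le_card (Finset.filter_subset_filter _ hcells)
  calc (((c'.avail J).filter fun Φ => Φ ∉ c.cols ∧ c'.rank Φ.lab = r).card : ℝ)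
      ≤ (((cells.filter fun I => J ≤ I).biUnion fun I =>
        c'.cols.filter fun Φ => Φ ∉ c.cols ∧ Φ.birth = I ∧ c'.rank Φ.lab = r).card : ℝ) := by
        exact_mod_cast Finset.card_le_card hsub
    _ ≤ ∑ I ∈ cells.filter fun I => J ≤ I,
        ((c'.cols.filter fun Φ => Φ ∉ c.cols ∧ Φ.birth = I ∧ c'.rank Φ.lab = r).card : ℝ) := by
        exact_mod_cast Finset.card_biUnion_le
    _ ≤ ∑ _I ∈ cells.filter fun I => J ≤ I, A.n (r - 1) * A.E Y.p :=
        Finset.sum_le_sum fun I hI => h.cnt I (Finset.mem_filter.1 hI).1 r hr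
    _ = (((cells.filter fun I => J ≤ I).card : ℕ) : ℝ) * (A.n (r - 1) * A.E Y.p) := by
        rw [Finset.sum_const, nsmul_eq_mul]
    _ ≤ A.M * (A.n (r - 1) * A.E Y.p) := mul_le_mul_of_nonneg_right hcard hnn

open Classical in
/-- splitting a set of available columns into old columns and new columns by rank -/
theorem TreeExt.loc_tc_split (hE : Y.Eng c0 C0 k C3 A) (h : Y.TreeExt ρ A N0 bases cells c c') (hcells : cells ⊆ Y.X.S) {J : Cell}
    (hJ : J ≤ Y.X.root) (Rs : Finset ℕ) (h1 : ∀ r ∈ Rs, 1 ≤ r) (F : Finset Col) (hF : F ⊆ c'.avail J)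
    (hnew : ∀ Φ ∈ F, Φ ∉ c.cols → c'.rank Φ.lab ∈ Rs) :
    (F.card : ℝ) ≤ ((F.filter fun Φ => Φ ∈ c.cols).card : ℝ) + ∑ r' ∈ Rs, A.M * (A.n (r' - 1) * A.E Y.p) := by
  have e := Finset.card_filter_add_card_filter_not (s := F) (fun Φ => Φ ∈ c.cols)
  have hsub : (F.filter fun Φ => ¬ Φ ∈ c.cols) ⊆
      Rs.biUnion fun r' => (c'.avail J).filter fun Φ => Φ ∉ c.cols ∧ c'.rank Φ.lab = r' := by
    intro Φ hΦ
    obtain ⟨a1, a2⟩ := Finset.mem_filter.1 hΦ
    simp only [Finset.mem_biUnion, Finset.mem_filter]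
    exact ⟨_, hnew Φ a1 a2, hF a1, a2, rfl⟩
  have h2 : ((F.filter fun Φ => ¬ Φ ∈ c.cols).card : ℝ) ≤ ∑ r' ∈ Rs, A.M * (A.n (r' - 1) * A.E Y.p) := by
    calc ((F.filter fun Φ => ¬ Φ ∈ c.cols).card : ℝ)
        ≤ ((Rs.biUnion fun r' => (c'.avail J).filter fun Φ => Φ ∉ c.cols ∧ c'.rank Φ.lab = r').card : ℝ) := by
          exact_mod_cast Finset.card_le_card hsub
      _ ≤ ∑ r' ∈ Rs, (((c'.avail J).filter fun Φ => Φ ∉ c.cols ∧ c'.rank Φ.lab = r').card : ℝ) := by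
          exact_mod_cast Finset.card_biUnion_le
      _ ≤ _ := Finset.sum_le_sum fun r' hr' => h.path_new hE hcells hJ r' (h1 r' hr')
  have e' : (F.card : ℝ) = ((F.filter fun Φ => Φ ∈ c.cols).card : ℝ) + ((F.filter fun Φ => ¬ Φ ∈ c.cols).card : ℝ) := by
    exact_mod_cast e.symm
  rw [e']
  linarith

open Classical in
theorem TreeExt.cnt_le (hE : Y.Eng c0 C0 k C3 A) (h : Y.TreeExt ρ A N0 bases cells c c') (hcells : cells ⊆ Y.X.S)
    (hρ : ∀ I f, Y.Named I f → 1 ≤ ρ f ∧ ρ f ≤ Y.p.L + 5) {J : Cell} (hJ : J ≤ Y.X.root) (r : ℕ) :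
    (((c'.avail J).filter fun Φ => c'.rank Φ.lab ≤ r).card : ℝ) ≤
      (((c.avail J).filter fun Φ => c.rank Φ.lab ≤ r).card : ℝ) + ∑ r' ∈ Finset.Icc 1 r, A.M * (A.n (r' - 1) * A.E Y.p) := by
  have h1 := h.loc_tc_split hE hcells hJ (Finset.Icc 1 r) (fun r' hr' => (Finset.mem_Icc.1 hr').1)
    ((c'.avail J).filter fun Φ => c'.rank Φ.lab ≤ r) (Finset.filter_subset _ _) (by
      intro Φ hΦ hn
      simp only [Finset.mem_filter, LocCat.avail] at hΦ
      obtain ⟨-, -, -, f, hf, hr⟩ := h.new Φ hΦ.1.1 hn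
      rw [Finset.mem_Icc]
      exact ⟨by rw [hr]; exact (hρ _ f hf).1, hΦ.2⟩)
  refine h1.trans (add_le_add ?_ le_rfl)
  have hsub : (((c'.avail J).filter fun Φ => c'.rank Φ.lab ≤ r).filter fun Φ => Φ ∈ c.cols) ⊆
      (c.avail J).filter fun Φ => c.rank Φ.lab ≤ r := by
    intro Φ hΦ
    simp only [Finset.mem_filter, LocCat.avail] at hΦ ⊢
    exact ⟨⟨hΦ.2, hΦ.1.1.2⟩, by rw [← h.le.rank Φ hΦ.2]; exact hΦ.1.2⟩
  exact_mod_cast Finset.card_le_card hsub

theorem Eng.n_tele (hE : Y.Eng c0 C0 k C3 A) (r : ℕ) (hr : r ≤ Y.p.L + 5) :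
    A.n 0 + ∑ r' ∈ Finset.Icc 1 r, A.M * (A.n (r' - 1) * A.E Y.p) ≤ A.n r := by
  induction r with
  | zero => simp
  | succ r ih =>
    rw [Finset.sum_Icc_succ_top (by omega), Nat.add_sub_cancel]
    have h1 := ih (by omega)
    have h2 := hE.num.ratio (r + 1) (by omega) hr
    rw [Nat.add_sub_cancel] at h2
    nlinarith

/-- path counts after the MAIN closure (the initial catalog has rank zero only) -/
theorem TreeExt.catCnt_main (hE : Y.Eng c0 C0 k C3 A) (h : Y.TreeExt ρ A N0 bases cells c c') (hcells : cells ⊆ Y.X.S)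
    (hρ : ∀ I f, Y.Named I f → 1 ≤ ρ f ∧ ρ f ≤ Y.p.L + 5) (h0 : ∀ J, J ≤ Y.X.root → ((c.avail J).card : ℝ) ≤ A.n 0) :
    Y.CatCnt c' A.n := by
  classical
  intro J hJ r
  have h1 := h.loc_tc_split hE hcells hJ (Finset.Icc 1 (min r (Y.p.L + 5))) (fun r' hr' => (Finset.mem_Icc.1 hr').1)
    ((c'.avail J).filter fun Φ => c'.rank Φ.lab ≤ r) (Finset.filter_subset _ _) (by
      intro Φ hΦ hn
      simp only [Finset.mem_filter, LocCat.avail] at hΦ
      obtain ⟨-, -, -, f, hf, hr⟩ := h.new Φ hΦ.1.1 hn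
      rw [Finset.mem_Icc]
      exact ⟨by rw [hr]; exact (hρ _ f hf).1, le_min hΦ.2 (by rw [hr]; exact (hρ _ f hf).2)⟩)
  have hsub : (((c'.avail J).filter fun Φ => c'.rank Φ.lab ≤ r).filter fun Φ => Φ ∈ c.cols) ⊆ c.avail J := by
    intro Φ hΦ
    simp only [Finset.mem_filter, LocCat.avail] at hΦ ⊢
    exact ⟨hΦ.2, hΦ.1.1.2⟩
  have h2 : ((((c'.avail J).filter fun Φ => c'.rank Φ.lab ≤ r).filter fun Φ => Φ ∈ c.cols).card : ℝ) ≤ A.n 0 :=
    le_trans (by exact_mod_cast Finset.card_le_card hsub) (h0 J hJ)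
  have h3 := hE.n_tele (min r (Y.p.L + 5)) (min_le_right _ _)
  have h4 := hE.num.n_mono (min_le_left r (Y.p.L + 5))
  convert (h1.trans (add_le_add h2 le_rfl)).trans (h3.trans h4) using 1

/-- path count after the HELPER closure -/
theorem TreeExt.cnt_help (hE : Y.Eng c0 C0 k C3 A) (h : Y.TreeExt Y.rkH A N0 bases cells c c') (hcells : cells ⊆ Y.X.S)
    (h0 : ∀ J, J ≤ Y.X.root → ((c.avail J).card : ℝ) ≤ A.n (Y.p.L + 4)) {J : Cell} (hJ : J ≤ Y.X.root) :
    ((c'.avail J).card : ℝ) ≤ A.n (Y.p.L + 5) := by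
  classical
  have h1 := h.loc_tc_split hE hcells hJ {Y.p.L + 5} (fun r' hr' => by rw [Finset.mem_singleton.1 hr']; omega)
    (c'.avail J) (Finset.Subset.refl _) (by
      intro Φ hΦ hn
      simp only [Finset.mem_filter, LocCat.avail] at hΦ
      obtain ⟨-, -, -, f, hf, hr⟩ := h.new Φ hΦ.1 hn
      rw [Finset.mem_singleton, hr]
      rfl)
  have hsub : ((c'.avail J).filter fun Φ => Φ ∈ c.cols) ⊆ c.avail J := by
    intro Φ hΦ
    simp only [Finset.mem_filter, LocCat.avail] at hΦ ⊢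
    exact ⟨hΦ.2, hΦ.1.2⟩
  have h2 : (((c'.avail J).filter fun Φ => Φ ∈ c.cols).card : ℝ) ≤ A.n (Y.p.L + 4) :=
    le_trans (by exact_mod_cast Finset.card_le_card hsub) (h0 J hJ)
  have h3 := hE.num.ratio (Y.p.L + 5) (by omega) le_rfl
  rw [Finset.sum_singleton] at h1
  have e : Y.p.L + 5 - 1 = Y.p.L + 4 := by omega
  rw [e] at h1 h3
  nlinarith

end count

end LocSys

end Claimed.Agent.R258
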