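/-
Row 258 (S0498), Sec. 6.1-6.2 (architect helper68).  FILE BaseSys: the vertex system (`LocBase`) and the basic catalog of a base segment.
vertices = labels of the basic columns occurring on the tree `X.T`; birth = birth cell of the column, capped at the root; present list on `I` = labels of the basic columns available on `I` (empty unless `I ≤ root`);
admission order = (depth of birth, label).
LEAF P-LOC-BASESYS-A : `mem_bcols`, `bcol_eq`, `bslot_eq`, `mem_bpres'`, `mem_bpres`, `bpres_card`   (unfolding, `lab_inj`, `cat_birth`, `count` of `BaseSeg.Valid`).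
LEAF P-LOC-BASESYS-B : `loc_rank_bijOn`, `badm_bij`                                                (the rank function of a finite linearly ordered set is a bijection onto `[1,n]`).
No paper reading.

PLANS.
* `bcol_eq`: `Classical.choose_spec` + `lab_inj` (a label determines its column).  `bslot_eq`: the same (`lab_inj` gives `l = l'`).
* `mem_bpres`: (→) `v = Φ.lab`, `bcol v = Φ`; `bbirth v` is `Φ.birth` or `root`, and `I` is below both.  (←) if `Φ.birth ≤ root` clear; otherwise `bbirth v = root`, and `root ≤ Φ.birth` because `Φ.birth` and `root` are both above the cell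
  `I' ∈ T` with `Φ ∈ cat l c I'` (`cat_birth`, `tree.le_root`, `loc_le_total`).
* `bpres_card`: `Finset.card_image_le` and `count` applied to the filtered set (if `¬ I ≤ root` the set is empty); `Nat.cast_le`.
* `loc_rank_bijOn`: for a finite set `s` and `key : α → β` injective on `s`, `β` a linear order, `v ↦ #{v' ∈ s | key v' ≤ key v}` is a bijection `s → Icc 1 #s`.  Induction on `#s` removing the element with the largest key, or: it is strictly
  monotone in `key`, hence injective, maps into `Icc 1 #s`, and an injective map between finite sets of equal cardinality is surjective (`Finset.surj_on_of_inj_on_of_card_le` / `Set.BijOn` from `Finset.card_image_of_injOn` + `Finset.eq_of_subset_of_card_le`).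
* `badm_bij`: on `bpres I` all births are ancestors of `I`, hence a chain: for `v, v' ∈ bpres I`:  `bbirth v ≤ bbirth v' ↔ (bbirth v').depth ≤ (bbirth v).depth`;  a vertex `v'` with `bbirth v ≤ bbirth v'` is present on `I`.
  So `badm v = #{v' ∈ bpres I | key v' ≤ key v}` with `key v = toLex ((bbirth v).depth, v) : ℤ ×ₗ ℕ`.
-/
import Claimed.Agent.R258.Loc.Tree

set_option autoImplicit false
open MeasureTheory

namespace Claimed.Agent.R258

namespace BaseSeg

variable (X : BaseSeg)

open Classical in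
/-- all basic columns occurring on the tree -/
noncomputable def bcols : Finset Col :=
  (Finset.univ : Finset (Fin 4)).biUnion fun l => (Finset.univ : Finset (Fin 2)).biUnion fun c => X.T.biUnion fun I => X.cat l c I

open Classical in
/-- the basic column with the label `v` -/
noncomputable def bcol (v : ℕ) : Col := if h : ∃ Φ ∈ X.bcols, Φ.lab = v then h.choose else ⟨v, X.root, fun _ => 0, 1⟩

open Classical in
/-- the slot of the label `v` -/
noncomputable def bslot (v : ℕ) : Fin 4 := if h : ∃ l c, ∃ I ∈ X.T, ∃ Φ ∈ X.cat l c I, Φ.lab = v then h.choose else 0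

open Classical in
/-- birth cell, capped at the root -/
noncomputable def bbirth (v : ℕ) : Cell := if (X.bcol v).birth ≤ X.root then (X.bcol v).birth else X.root

open Classical in
/-- the present vertices -/
noncomputable def bpres (I : Cell) : Finset ℕ := (X.bcols.filter fun Φ => I ≤ X.root ∧ I ≤ Φ.birth).image Col.lab

open Classical in
/-- admission index: position in the order (depth of birth, label) -/
noncomputable def badm (v : ℕ) : ℕ :=
  ((X.bcols.image Col.lab).filter fun v' => X.bbirth v ≤ X.bbirth v' ∧ (X.bbirth v' ≠ X.bbirth v ∨ v' ≤ v)).card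

/-- the basic catalog: rank zero, every column attached to its own label -/
noncomputable def bcat : LocCat := ⟨X.bcols, X.bslot, id, fun _ => 0, X.chart⟩

theorem mem_bcols {Φ : Col} : Φ ∈ X.bcols ↔ ∃ l c, ∃ I ∈ X.T, Φ ∈ X.cat l c I := by
  classical
  simp [bcols]

variable {X} {c0 C0 q η D M LU : ℝ}

theorem bcol_eq (hX : X.Valid c0 C0 q η D M LU) {Φ : Col} (hΦ : Φ ∈ X.bcols) : X.bcol Φ.lab = Φ := by
  have h : ∃ Φ' ∈ X.bcols, Φ'.lab = Φ.lab := ⟨Φ, hΦ, rfl⟩
  unfold bcol
  rw [dif_pos h]
  obtain ⟨h1, h2⟩ := h.choose_spec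
  obtain ⟨l, c, I, _, hm⟩ := (X.mem_bcols).1 hΦ
  obtain ⟨l', c', I', _, hm'⟩ := (X.mem_bcols).1 h1
  exact (hX.lab_inj l' c' I' l c I _ hm' _ hm h2).1

theorem bslot_eq (hX : X.Valid c0 C0 q η D M LU) {l : Fin 4} {c : Fin 2} {I : Cell} (hI : I ∈ X.T) {Φ : Col} (hΦ : Φ ∈ X.cat l c I) :
    X.bslot Φ.lab = l := by
  have h : ∃ l c, ∃ I ∈ X.T, ∃ Φ' ∈ X.cat l c I, Φ'.lab = Φ.lab := ⟨l, c, I, hI, Φ, hΦ, rfl⟩
  unfold bslot
  rw [dif_pos h]
  obtain ⟨c', I', _, Φ', hm', hl⟩ := h.choose_spec
  exact (hX.lab_inj _ c' I' l c I _ hm' _ hΦ hl).2.1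

theorem mem_bpres' (I : Cell) (v : ℕ) :
    v ∈ X.bpres I ↔ I ≤ X.root ∧ ∃ l c, ∃ I' ∈ X.T, ∃ Φ ∈ X.cat l c I', Φ.lab = v ∧ I ≤ Φ.birth := by
  classical
  unfold bpres
  rw [Finset.mem_image]
  constructor
  · rintro ⟨Φ, hΦ, rfl⟩
    obtain ⟨h1, h2, h3⟩ := Finset.mem_filter.mp hΦ
    obtain ⟨l, c, I', hI', hm⟩ := (X.mem_bcols).1 h1
    exact ⟨h2, l, c, I', hI', Φ, hm, rfl, h3⟩
  · rintro ⟨h2, l, c, I', hI', Φ, hm, rfl, h3⟩
    exact ⟨Φ, Finset.mem_filter.mpr ⟨(X.mem_bcols).2 ⟨l, c, I', hI', hm⟩, h2, h3⟩, rfl⟩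

theorem mem_bpres (hX : X.Valid c0 C0 q η D M LU) (I : Cell) (v : ℕ) :
    v ∈ X.bpres I ↔ v ∈ {v | ∃ Φ ∈ X.bcols, Φ.lab = v} ∧ I ≤ X.bbirth v := by
  rw [mem_bpres', Set.mem_setOf_eq]
  constructor
  · rintro ⟨h2, l, c, I', hI', Φ, hm, rfl, h3⟩
    have hΦ : Φ ∈ X.bcols := (X.mem_bcols).2 ⟨l, c, I', hI', hm⟩
    refine ⟨⟨Φ, hΦ, rfl⟩, ?_⟩
    unfold bbirth
    rw [bcol_eq hX hΦ]
    split_ifs
    · exact h3
    · exact h2
  · rintro ⟨⟨Φ, hΦ, rfl⟩, hle⟩
    obtain ⟨l, c, I', hI', hm⟩ := (X.mem_bcols).1 hΦ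
    unfold bbirth at hle
    rw [bcol_eq hX hΦ] at hle
    split_ifs at hle with hb
    · exact ⟨hle.trans hb, l, c, I', hI', Φ, hm, rfl, hle⟩
    · refine ⟨hle, l, c, I', hI', Φ, hm, rfl, hle.trans ?_⟩
      rcases loc_le_total (hX.cat_birth l c I' Φ hm) (hX.tree.le_root I' hI') with h | h
      · exact absurd h hb
      · exact h

theorem bpres_card (hX : X.Valid c0 C0 q η D M LU) {n : ℕ} (hn : D ≤ (n : ℝ)) (I : Cell) : (X.bpres I).card ≤ n := by
  classical
  unfold bpres
  refine Finset.card_image_le.trans ?_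
  by_cases hI : I ≤ X.root
  · have h := hX.count I hI (X.bcols.filter fun Φ => I ≤ X.root ∧ I ≤ Φ.birth) (by
      intro Φ hΦ
      obtain ⟨h1, _, h3⟩ := Finset.mem_filter.mp hΦ
      obtain ⟨l, c, I', hI', hm⟩ := (X.mem_bcols).1 h1
      exact ⟨⟨l, c, I', hX.tree.le_root I' hI', hm⟩, h3⟩)
    exact_mod_cast h.trans hn
  · rw [Finset.filter_false_of_mem (fun Φ _ h => hI h.1)]
    simp

open Classical in
/-- the rank function of a finite set with an injective key into a linear order -/
theorem loc_rank_bijOn {α β : Type*} [LinearOrder β] (s : Finset α) (key : α → β) (hk : Set.InjOn key (s : Set α)) :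
    Set.BijOn (fun v => (s.filter fun v' => key v' ≤ key v).card) (s : Set α) (Set.Icc 1 s.card) := by
  have hmaps : ∀ v ∈ s, (s.filter fun v' => key v' ≤ key v).card ∈ Finset.Icc 1 s.card := by
    intro v hv
    rw [Finset.mem_Icc]
    exact ⟨Finset.card_pos.mpr ⟨v, Finset.mem_filter.mpr ⟨hv, le_rfl⟩⟩, Finset.card_filter_le _ _⟩
  have haux : ∀ v ∈ s, ∀ w ∈ s, key v ≤ key w →
      (s.filter fun v' => key v' ≤ key v).card = (s.filter fun v' => key v' ≤ key w).card → v = w := by
    intro v hv w hw hle hcard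
    have hsub : (s.filter fun v' => key v' ≤ key v) ⊆ (s.filter fun v' => key v' ≤ key w) := by
      intro x hx
      obtain ⟨h1, h2⟩ := Finset.mem_filter.mp hx
      exact Finset.mem_filter.mpr ⟨h1, h2.trans hle⟩
    have heq := Finset.eq_of_subset_of_card_le hsub hcard.ge
    have hwm : w ∈ (s.filter fun v' => key v' ≤ key v) := by
      rw [heq]
      exact Finset.mem_filter.mpr ⟨hw, le_rfl⟩
    exact hk hv hw (le_antisymm hle (Finset.mem_filter.mp hwm).2)
  have hinj : Set.InjOn (fun v => (s.filter fun v' => key v' ≤ key v).card) (s : Set α) := by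
    intro v hv w hw h
    rcases le_total (key v) (key w) with hle | hle
    · exact haux v hv w hw hle h
    · exact (haux w hw v hv hle h.symm).symm
  have himg : s.image (fun v => (s.filter fun v' => key v' ≤ key v).card) = Finset.Icc 1 s.card := by
    apply Finset.eq_of_subset_of_card_le
    · intro n hn
      obtain ⟨v, hv, rfl⟩ := Finset.mem_image.mp hn
      exact hmaps v hv
    · rw [Finset.card_image_of_injOn hinj]
      simp
  refine ⟨fun v hv => ?_, hinj, fun n hn => ?_⟩
  · have := hmaps v hv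
    rw [Finset.mem_Icc] at this
    exact this
  · have hn' : n ∈ Finset.Icc 1 s.card := Finset.mem_Icc.mpr hn
    rw [← himg] at hn'
    obtain ⟨v, hv, rfl⟩ := Finset.mem_image.mp hn'
    exact ⟨v, hv, rfl⟩

theorem badm_bij (hX : X.Valid c0 C0 q η D M LU) (I : Cell) :
    Set.BijOn X.badm (X.bpres I : Set ℕ) (Set.Icc 1 (X.bpres I).card) := by
  classical
  have hb := loc_rank_bijOn (X.bpres I) (fun v => (toLex ((X.bbirth v).depth, v) : ℤ ×ₗ ℕ)) (by
    intro v _ w _ h
    have := congrArg (fun z : ℤ ×ₗ ℕ => (ofLex z).2) h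
    simpa using this)
  refine hb.congr ?_
  intro v hv
  have hvI : I ≤ X.bbirth v := ((mem_bpres hX I v).1 hv).2
  show ((X.bpres I).filter fun v' => (toLex ((X.bbirth v').depth, v') : ℤ ×ₗ ℕ) ≤ toLex ((X.bbirth v).depth, v)).card
    = X.badm v
  unfold badm
  congr 1
  ext v'
  simp only [Finset.mem_filter, Prod.Lex.toLex_le_toLex]
  constructor
  · rintro ⟨hv', hkey⟩
    obtain ⟨⟨Φ, hΦ, hl⟩, hv'I⟩ := (mem_bpres hX I v').1 hv'
    refine ⟨Finset.mem_image.mpr ⟨Φ, hΦ, hl⟩, ?_, ?_⟩
    · apply loc_le_of_depth_le hvI hv'I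
      rw [loc_depth_cell, loc_depth_cell]
      rcases hkey with h | h
      · exact h.le
      · exact h.1.le
    · rcases hkey with h | h
      · left
        intro he
        rw [he] at h
        exact lt_irrefl _ h
      · right
        exact h.2
  · rintro ⟨hv', hle, hor⟩
    obtain ⟨Φ, hΦ, hl⟩ := Finset.mem_image.mp hv'
    refine ⟨(mem_bpres hX I v').2 ⟨⟨Φ, hΦ, hl⟩, hvI.trans hle⟩, ?_⟩
    have hd : (X.bbirth v').depth ≤ (X.bbirth v).depth := loc_depth_le hle
    rcases hd.lt_or_eq with h | h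
    · left; exact h
    · right
      refine ⟨h, ?_⟩
      rcases hor with hne | h'
      · exact absurd (loc_eq_of_depth_eq (hvI.trans hle) hvI h) hne
      · exact h'

/-- **the vertex system of a base segment** for a distance system `T` and parameters `p` with `D ≤ p.D` -/
noncomputable def locBase (hX : X.Valid c0 C0 q η D M LU) (T : LocTagSys LocTag) (p : LocParams) (hp : D ≤ (p.D : ℝ)) :
    LocBase Cell ℕ LocTag where
  T := T
  tag := fun v => (X.chart v).tag (X.bslot v)
  verts := {v | ∃ Φ ∈ X.bcols, Φ.lab = v}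
  birth := X.bbirth
  adm := X.badm
  pres := X.bpres
  mem_pres := mem_bpres hX
  adm_bij := badm_bij hX
  p := p
  card_le := bpres_card hX hp

end BaseSeg

end Claimed.Agent.R258
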