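/-
Row 258 (S0498), Sec. 6.3, block [LOC-BES] = Lemma 6.5 (architect+prover helper275; home architect helper68).
FILE BesAbs: the ABSTRACT part (cells + Hilbert space `XV`, no colouring).

Setting: root `R`, generation `N`, `𝒬 = cellsAt R N`, a finite family `𝒥 ⊆ cellsUpTo R N` of cells, a finite set `cols` of regular columns with private
labels, coefficients `a G Φ J`.  `X G = ∑_Φ ∑_J a G Φ J • Φ.vec J`.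
* `locBesComb 𝒥 a Q = ∑_{J ∈ 𝒥, Q ≤ J} a J`    : combined coefficients;
* `loc_bes_inner_sum`   : pieces supported on the cells of an antichain are orthogonal;
* `loc_bes_refine`      : `∑_J a J • Φ.vec J = ∑_{Q ∈ 𝒬} comb Q • Φ.vec Q`;
* `loc_bes_cross`       : cross terms: the product of two combined coefficient functions is constant on the cells of the last separating generation;
* `loc_bes_abs`         : Schur test, `‖∑ X G‖² ≤ (1 + τ N₁ D²) ∑ ‖X G‖²`.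
-/
import Claimed.Agent.R258.Loc.Filt

set_option autoImplicit false
open MeasureTheory
open scoped InnerProductSpace ComplexConjugate

namespace Claimed.Agent.R258

open Classical in
/-- combined coefficient of the cell `Q`: the sum of the coefficients of the cells of `𝒥` above `Q` -/
noncomputable def locBesComb (𝒥 : Finset Cell) (a : Cell → ℂ) (Q : Cell) : ℂ := ∑ J ∈ 𝒥.filter (fun J => Q ≤ J), a J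

/-! ### orthogonality -/

/-- pieces supported on the cells of an antichain are orthogonal -/
theorem loc_bes_inner_sum {π : Finset Cell} (hπ : IsAntichain (· ≤ ·) (π : Set Cell)) (u v : Cell → XV)
    (hu : ∀ Q ∈ π, u Q ∈ xvSub Q.set) (hv : ∀ Q ∈ π, v Q ∈ xvSub Q.set) :
    ⟪∑ Q ∈ π, u Q, ∑ Q ∈ π, v Q⟫_ℂ = ∑ Q ∈ π, ⟪u Q, v Q⟫_ℂ := by
  rw [sum_inner]
  refine Finset.sum_congr rfl fun Q hQ => ?_
  rw [inner_sum]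
  refine Finset.sum_eq_single Q (fun Q' hQ' hne => ?_) (fun h => absurd hQ h)
  have h1 : ¬ Q ≤ Q' := fun h => hπ hQ hQ' (Ne.symm hne) h
  have h2 : ¬ Q' ≤ Q := fun h => hπ hQ' hQ hne h
  exact Submodule.isOrtho_iff_inner_eq.1 (xv_sub_cell_ortho h1 h2) _ (hu Q hQ) _ (hv Q' hQ')

/-- the inner product of two columns is an additive cell function -/
theorem loc_bes_inner_vec_part {Φ Ψ : Col} {R : Cell} {π : Finset Cell} (hΦ : Φ.Reg R) (hΨ : Ψ.Reg R)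
    (hπ : CellPart R π) : ⟪Φ.vec R, Ψ.vec R⟫_ℂ = ∑ Q ∈ π, ⟪Φ.vec Q, Ψ.vec Q⟫_ℂ := by
  rw [← xv_vec_part hΦ hπ, ← xv_vec_part hΨ hπ]
  exact loc_bes_inner_sum hπ.anti _ _ (fun Q _ => xv_vec_mem_sub Φ Q) (fun Q _ => xv_vec_mem_sub Ψ Q)

/-! ### common refinement -/

open Classical in
theorem loc_bes_vec_refine {R J : Cell} {N : ℕ} (hJ : J ∈ cellsUpTo R N) {Φ : Col} (hreg : Φ.Reg J) :
    Φ.vec J = ∑ Q ∈ (cellsAt R N).filter (fun Q => Q ≤ J), Φ.vec Q := by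
  rw [cell_mem_cellsUpTo] at hJ
  have hp : CellPart J ((cellsAt R N).filter fun Q => Q ≤ J) :=
    (cell_part_cellsAt R N).restrict hJ.1 (fun K hK hlt => by
      have h1 := (cell_mem_cellsAt'.1 hK).2
      have h2 := cell_depth_lt_of_lt hlt
      omega)
  exact (xv_vec_part hreg hp).symm

open Classical in
theorem loc_bes_refine {R : Cell} {N : ℕ} {𝒥 : Finset Cell} (h𝒥 : 𝒥 ⊆ cellsUpTo R N) (Φ : Col)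
    (hreg : ∀ I, Φ.Reg I) (a : Cell → ℂ) :
    ∑ J ∈ 𝒥, a J • Φ.vec J = ∑ Q ∈ cellsAt R N, locBesComb 𝒥 a Q • Φ.vec Q := by
  calc ∑ J ∈ 𝒥, a J • Φ.vec J
      = ∑ J ∈ 𝒥, ∑ Q ∈ cellsAt R N, if Q ≤ J then a J • Φ.vec Q else 0 := by
        refine Finset.sum_congr rfl fun J hJ => ?_
        rw [loc_bes_vec_refine (h𝒥 hJ) (hreg J), Finset.smul_sum, Finset.sum_filter]
    _ = ∑ Q ∈ cellsAt R N, ∑ J ∈ 𝒥, if Q ≤ J then a J • Φ.vec Q else 0 := Finset.sum_comm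
    _ = _ := by
        refine Finset.sum_congr rfl fun Q _ => ?_
        unfold locBesComb
        rw [Finset.sum_smul, Finset.sum_filter]

open Classical in
theorem loc_bes_comb_eq (𝒥 : Finset Cell) (a : Cell → ℂ) (Q : Cell) :
    locBesComb 𝒥 a Q = ∑ J ∈ 𝒥, if Q ≤ J then a J else 0 := by
  unfold locBesComb
  rw [Finset.sum_filter]

theorem loc_bes_comb_ne {𝒥 : Finset Cell} {a : Cell → ℂ} {Q : Cell} (h : locBesComb 𝒥 a Q ≠ 0) :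
    ∃ J ∈ 𝒥, Q ≤ J ∧ a J ≠ 0 := by
  classical
  unfold locBesComb at h
  obtain ⟨J, hJ, hne⟩ := Finset.exists_ne_zero_of_sum_ne_zero h
  rw [Finset.mem_filter] at hJ
  exact ⟨J, hJ.1, hJ.2, hne⟩

/-! ### cross terms -/

/-- relative depth of a cell of the family -/
theorem loc_bes_reldepth {R J : Cell} {N : ℕ} (hJ : J ∈ cellsUpTo R N) :
    ∃ m : ℕ, m ≤ N ∧ J.depth = R.depth + m := by
  rw [cell_mem_cellsUpTo] at hJ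
  have h1 := cell_depth_le_of_le hJ.1
  exact ⟨(J.depth - R.depth).toNat, by omega, by omega⟩

open Classical in
/-- the product of two combined coefficient functions is constant below the last separating generation -/
theorem loc_bes_prod_const {R : Cell} {N : ℕ} {𝒥 : Finset Cell} (h𝒥 : 𝒥 ⊆ cellsUpTo R N) (u v : Cell → ℂ)
    (P : ℕ → Prop)
    (hP : ∀ J ∈ 𝒥, ∀ J' ∈ 𝒥, u J ≠ 0 → v J' ≠ 0 → (J ≤ J' ∨ J' ≤ J) →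
        ∀ n : ℕ, (J.depth = R.depth + n ∨ J'.depth = R.depth + n) → P n)
    {Qs Q : Cell} (hQs : Qs.depth = R.depth + Nat.findGreatest P N) (hQ : Q ≤ Qs) :
    conj (locBesComb 𝒥 u Q) * locBesComb 𝒥 v Q = conj (locBesComb 𝒥 u Qs) * locBesComb 𝒥 v Qs := by
  simp only [loc_bes_comb_eq, map_sum, Finset.sum_mul_sum]
  refine Finset.sum_congr rfl fun J hJ => Finset.sum_congr rfl fun J' hJ' => ?_
  by_cases hu : u J = 0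
  · simp [hu]
  by_cases hv : v J' = 0
  · simp [hv]
  by_cases h1 : Q ≤ J
  · by_cases h2 : Q ≤ J'
    · obtain ⟨m, hm, hmd⟩ := loc_bes_reldepth (h𝒥 hJ)
      obtain ⟨m', hm', hmd'⟩ := loc_bes_reldepth (h𝒥 hJ')
      have hc := cell_chain h1 h2
      have p1 : m ≤ Nat.findGreatest P N := Nat.le_findGreatest hm (hP J hJ J' hJ' hu hv hc m (Or.inl hmd))
      have p2 : m' ≤ Nat.findGreatest P N := Nat.le_findGreatest hm' (hP J hJ J' hJ' hu hv hc m' (Or.inr hmd'))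
      have q1 : Qs ≤ J := cell_chain_of_depth hQ h1 (by omega)
      have q2 : Qs ≤ J' := cell_chain_of_depth hQ h2 (by omega)
      simp [h1, h2, q1, q2]
    · have q2 : ¬ Qs ≤ J' := fun h => h2 (hQ.trans h)
      simp [h2, q2]
  · have q1 : ¬ Qs ≤ J := fun h => h1 (hQ.trans h)
    simp [h1, q1]

open Classical in
/-- **cross terms.**  `K` is an additive cell function which is `≤ τ |Q|` on the generations `n` with `P n`; all comparable pairs of cells with nonzero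
coefficients live in such generations. -/
theorem loc_bes_cross {R : Cell} {N : ℕ} {𝒥 : Finset Cell} (h𝒥 : 𝒥 ⊆ cellsUpTo R N) (u v : Cell → ℂ) (K : Cell → ℂ)
    (τ : ℝ) (P : ℕ → Prop)
    (hK : ∀ Q, Q ≤ R → ∀ t, K Q = ∑ Q' ∈ cellsAt Q t, K Q')
    (hτ : ∀ n, P n → ∀ Q ∈ cellsAt R n, ‖K Q‖ ≤ τ * Q.len)
    (hP : ∀ J ∈ 𝒥, ∀ J' ∈ 𝒥, u J ≠ 0 → v J' ≠ 0 → (J ≤ J' ∨ J' ≤ J) →
        ∀ n : ℕ, (J.depth = R.depth + n ∨ J'.depth = R.depth + n) → P n) :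
    ‖∑ Q ∈ cellsAt R N, conj (locBesComb 𝒥 u Q) * locBesComb 𝒥 v Q * K Q‖
      ≤ τ * ∑ Q ∈ cellsAt R N, Q.len * (‖locBesComb 𝒥 u Q‖ * ‖locBesComb 𝒥 v Q‖) := by
  obtain ⟨t, ht⟩ : ∃ t, N = Nat.findGreatest P N + t := ⟨N - Nat.findGreatest P N, by
    have := Nat.findGreatest_le (P := P) N
    omega⟩
  obtain ⟨n₀, hn₀⟩ : ∃ n₀, n₀ = Nat.findGreatest P N := ⟨_, rfl⟩
  rw [← hn₀] at ht
  have hsplit : ∀ f : Cell → ℂ, ∑ Q ∈ cellsAt R N, f Q = ∑ Qs ∈ cellsAt R n₀, ∑ Q ∈ cellsAt Qs t, f Q := fun f => by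
    rw [← cell_sum_cellsAt_add, ← ht]
  have hsplit' : ∀ f : Cell → ℝ, ∑ Q ∈ cellsAt R N, f Q = ∑ Qs ∈ cellsAt R n₀, ∑ Q ∈ cellsAt Qs t, f Q := fun f => by
    rw [← cell_sum_cellsAt_add, ← ht]
  rw [hsplit, hsplit', Finset.mul_sum]
  refine (norm_sum_le _ _).trans (Finset.sum_le_sum fun Qs hQs => ?_)
  have hQs' := cell_mem_cellsAt'.1 hQs
  have hconst : ∀ Q ∈ cellsAt Qs t, conj (locBesComb 𝒥 u Q) * locBesComb 𝒥 v Q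
      = conj (locBesComb 𝒥 u Qs) * locBesComb 𝒥 v Qs := fun Q hQ =>
    loc_bes_prod_const h𝒥 u v P hP (by rw [← hn₀]; exact hQs'.2) (cell_mem_cellsAt'.1 hQ).1
  have hnorm : ∀ Q ∈ cellsAt Qs t, ‖locBesComb 𝒥 u Q‖ * ‖locBesComb 𝒥 v Q‖
      = ‖locBesComb 𝒥 u Qs‖ * ‖locBesComb 𝒥 v Qs‖ := fun Q hQ => by
    have := congrArg norm (hconst Q hQ)
    simpa only [norm_mul, RCLike.norm_conj] using this
  have e1 : ∑ Q ∈ cellsAt Qs t, conj (locBesComb 𝒥 u Q) * locBesComb 𝒥 v Q * K Q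
      = conj (locBesComb 𝒥 u Qs) * locBesComb 𝒥 v Qs * K Qs := by
    rw [hK Qs hQs'.1 t, Finset.mul_sum]
    exact Finset.sum_congr rfl fun Q hQ => by rw [hconst Q hQ]
  have e2 : ∑ Q ∈ cellsAt Qs t, Q.len * (‖locBesComb 𝒥 u Q‖ * ‖locBesComb 𝒥 v Q‖)
      = Qs.len * (‖locBesComb 𝒥 u Qs‖ * ‖locBesComb 𝒥 v Qs‖) := by
    rw [← cell_sum_len_cellsAt Qs t, Finset.sum_mul]
    exact Finset.sum_congr rfl fun Q hQ => by rw [hnorm Q hQ]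
  rw [e1, e2, norm_mul, norm_mul, RCLike.norm_conj]
  by_cases hu : locBesComb 𝒥 u Qs = 0
  · simp [hu]
  by_cases hv : locBesComb 𝒥 v Qs = 0
  · simp [hv]
  obtain ⟨J, hJ, hQJ, huJ⟩ := loc_bes_comb_ne hu
  obtain ⟨J', hJ', hQJ', hvJ'⟩ := loc_bes_comb_ne hv
  obtain ⟨m, hm, hmd⟩ := loc_bes_reldepth (h𝒥 hJ)
  have hPm : P m := hP J hJ J' hJ' huJ hvJ' (cell_chain hQJ hQJ') m (Or.inl hmd)
  have hPn : P n₀ := by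
    rw [hn₀]
    exact Nat.findGreatest_spec hm hPm
  have hb := hτ n₀ hPn Qs hQs
  calc ‖locBesComb 𝒥 u Qs‖ * ‖locBesComb 𝒥 v Qs‖ * ‖K Qs‖
      ≤ ‖locBesComb 𝒥 u Qs‖ * ‖locBesComb 𝒥 v Qs‖ * (τ * Qs.len) :=
        mul_le_mul_of_nonneg_left hb (by positivity)
    _ = _ := by ring

/-! ### one group -/

theorem loc_bes_X_eq {R : Cell} {N : ℕ} {𝒥 : Finset Cell} (h𝒥 : 𝒥 ⊆ cellsUpTo R N) (cols : Finset Col)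
    (hreg : ∀ Φ ∈ cols, ∀ I, Φ.Reg I) (a : Col → Cell → ℂ) :
    ∑ Φ ∈ cols, ∑ J ∈ 𝒥, a Φ J • Φ.vec J
      = ∑ Q ∈ cellsAt R N, ∑ Φ ∈ cols, locBesComb 𝒥 (a Φ) Q • Φ.vec Q := by
  rw [Finset.sum_comm (s := cellsAt R N)]
  exact Finset.sum_congr rfl fun Φ hΦ => loc_bes_refine h𝒥 Φ (hreg Φ hΦ) (a Φ)

theorem loc_bes_piece_mem (cols : Finset Col) (c : Col → ℂ) (Q : Cell) :
    ∑ Φ ∈ cols, c Φ • Φ.vec Q ∈ xvSub Q.set :=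
  Submodule.sum_mem _ fun Φ _ => Submodule.smul_mem _ _ (xv_vec_mem_sub Φ Q)

/-- the inner product of two groups in terms of the combined coefficients -/
theorem loc_bes_inner_X {R : Cell} {N : ℕ} {𝒥 : Finset Cell} (h𝒥 : 𝒥 ⊆ cellsUpTo R N) (cols : Finset Col)
    (hreg : ∀ Φ ∈ cols, ∀ I, Φ.Reg I) (a a' : Col → Cell → ℂ) :
    ⟪∑ Φ ∈ cols, ∑ J ∈ 𝒥, a Φ J • Φ.vec J, ∑ Φ ∈ cols, ∑ J ∈ 𝒥, a' Φ J • Φ.vec J⟫_ℂ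
      = ∑ Φ ∈ cols, ∑ Ψ ∈ cols, ∑ Q ∈ cellsAt R N,
          conj (locBesComb 𝒥 (a Φ) Q) * locBesComb 𝒥 (a' Ψ) Q * ⟪Φ.vec Q, Ψ.vec Q⟫_ℂ := by
  rw [loc_bes_X_eq h𝒥 cols hreg a, loc_bes_X_eq h𝒥 cols hreg a',
    loc_bes_inner_sum (cell_part_cellsAt R N).anti _ _ (fun Q _ => loc_bes_piece_mem cols _ Q)
      (fun Q _ => loc_bes_piece_mem cols _ Q)]
  have e : ∀ Q : Cell, ⟪∑ Φ ∈ cols, locBesComb 𝒥 (a Φ) Q • Φ.vec Q, ∑ Φ ∈ cols, locBesComb 𝒥 (a' Φ) Q • Φ.vec Q⟫_ℂ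
      = ∑ Φ ∈ cols, ∑ Ψ ∈ cols, conj (locBesComb 𝒥 (a Φ) Q) * locBesComb 𝒥 (a' Ψ) Q * ⟪Φ.vec Q, Ψ.vec Q⟫_ℂ := by
    intro Q
    rw [sum_inner]
    refine Finset.sum_congr rfl fun Φ _ => ?_
    rw [inner_sum]
    refine Finset.sum_congr rfl fun Ψ _ => ?_
    rw [inner_smul_left, inner_smul_right]
    ring
  simp only [e]
  rw [Finset.sum_comm]
  refine Finset.sum_congr rfl fun Φ _ => ?_
  rw [Finset.sum_comm]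

/-- `‖X‖² = ∑_Q ‖piece on Q‖²` -/
theorem loc_bes_normsq_X {R : Cell} {N : ℕ} {𝒥 : Finset Cell} (h𝒥 : 𝒥 ⊆ cellsUpTo R N) (cols : Finset Col)
    (hreg : ∀ Φ ∈ cols, ∀ I, Φ.Reg I) (a : Col → Cell → ℂ) :
    ‖∑ Φ ∈ cols, ∑ J ∈ 𝒥, a Φ J • Φ.vec J‖ ^ 2
      = ∑ Q ∈ cellsAt R N, ‖∑ Φ ∈ cols, locBesComb 𝒥 (a Φ) Q • Φ.vec Q‖ ^ 2 := by
  rw [loc_bes_X_eq h𝒥 cols hreg a]
  have h := loc_bes_inner_sum (cell_part_cellsAt R N).anti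
    (fun Q => ∑ Φ ∈ cols, locBesComb 𝒥 (a Φ) Q • Φ.vec Q) (fun Q => ∑ Φ ∈ cols, locBesComb 𝒥 (a Φ) Q • Φ.vec Q)
    (fun Q _ => loc_bes_piece_mem cols _ Q) (fun Q _ => loc_bes_piece_mem cols _ Q)
  simp only [inner_self_eq_norm_sq_to_K] at h
  exact_mod_cast h

/-- private coordinate lower bound for the combined coefficients -/
theorem loc_bes_lower {R : Cell} {N : ℕ} {𝒥 : Finset Cell} (h𝒥 : 𝒥 ⊆ cellsUpTo R N) (cols : Finset Col)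
    (D : ℝ) (hD : 0 < D) (hlab : ∀ Φ ∈ cols, ∀ Φ' ∈ cols, Φ.lab = Φ'.lab → Φ = Φ')
    (hreg : ∀ Φ ∈ cols, ∀ I, Φ.Reg I) (heps : ∀ Φ ∈ cols, D⁻¹ ≤ Real.sqrt Φ.eps) (a : Col → Cell → ℂ) :
    ∑ Q ∈ cellsAt R N, Q.len * ∑ Φ ∈ cols, ‖locBesComb 𝒥 (a Φ) Q‖ ^ 2
      ≤ D ^ 2 * ‖∑ Φ ∈ cols, ∑ J ∈ 𝒥, a Φ J • Φ.vec J‖ ^ 2 := by
  have he : ∀ Φ ∈ cols, (D⁻¹) ^ 2 ≤ Φ.eps := fun Φ hΦ => (Real.le_sqrt' (inv_pos.2 hD)).1 (heps Φ hΦ)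
  rw [loc_bes_normsq_X h𝒥 cols hreg a, Finset.mul_sum]
  refine Finset.sum_le_sum fun Q _ => ?_
  have h1 := loc_coef_lower cols Q hlab (fun Φ hΦ => hreg Φ hΦ Q)
    (fun Φ hΦ => (sq_nonneg _).trans (he Φ hΦ)) (fun Φ => locBesComb 𝒥 (a Φ) Q)
  have h2 : ∑ Φ ∈ cols, ‖locBesComb 𝒥 (a Φ) Q‖ ^ 2
      ≤ D ^ 2 * ∑ Φ ∈ cols, ‖locBesComb 𝒥 (a Φ) Q‖ ^ 2 * Φ.eps := by
    rw [Finset.mul_sum]
    refine Finset.sum_le_sum fun Φ hΦ => ?_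
    have h3 : 1 ≤ D ^ 2 * Φ.eps := by
      calc (1 : ℝ) = D ^ 2 * (D⁻¹) ^ 2 := by field_simp
        _ ≤ D ^ 2 * Φ.eps := mul_le_mul_of_nonneg_left (he Φ hΦ) (sq_nonneg D)
    calc ‖locBesComb 𝒥 (a Φ) Q‖ ^ 2 = ‖locBesComb 𝒥 (a Φ) Q‖ ^ 2 * 1 := (mul_one _).symm
      _ ≤ ‖locBesComb 𝒥 (a Φ) Q‖ ^ 2 * (D ^ 2 * Φ.eps) := mul_le_mul_of_nonneg_left h3 (sq_nonneg _)
      _ = _ := by ring
  calc Q.len * ∑ Φ ∈ cols, ‖locBesComb 𝒥 (a Φ) Q‖ ^ 2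
      ≤ Q.len * (D ^ 2 * ∑ Φ ∈ cols, ‖locBesComb 𝒥 (a Φ) Q‖ ^ 2 * Φ.eps) :=
        mul_le_mul_of_nonneg_left h2 (cell_len_nonneg Q)
    _ = D ^ 2 * (Q.len * ∑ Φ ∈ cols, ‖locBesComb 𝒥 (a Φ) Q‖ ^ 2 * Φ.eps) := by ring
    _ ≤ _ := mul_le_mul_of_nonneg_left h1 (sq_nonneg D)

/-! ### two groups -/

/-- the cross term of two groups -/
theorem loc_bes_cross_X {R : Cell} {N : ℕ} {𝒥 : Finset Cell} (h𝒥 : 𝒥 ⊆ cellsUpTo R N) (cols : Finset Col) (τ : ℝ)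
    (hreg : ∀ Φ ∈ cols, ∀ I, Φ.Reg I) (a a' : Col → Cell → ℂ)
    (hcross : ∀ Φ ∈ cols, ∀ Ψ ∈ cols, ∃ P : ℕ → Prop,
      (∀ n, P n → ∀ Q ∈ cellsAt R n, ‖⟪Φ.vec Q, Ψ.vec Q⟫_ℂ‖ ≤ τ * Q.len) ∧
      ∀ J ∈ 𝒥, ∀ J' ∈ 𝒥, a Φ J ≠ 0 → a' Ψ J' ≠ 0 → (J ≤ J' ∨ J' ≤ J) →
        ∀ n : ℕ, (J.depth = R.depth + n ∨ J'.depth = R.depth + n) → P n) :
    ‖⟪∑ Φ ∈ cols, ∑ J ∈ 𝒥, a Φ J • Φ.vec J, ∑ Φ ∈ cols, ∑ J ∈ 𝒥, a' Φ J • Φ.vec J⟫_ℂ‖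
      ≤ τ * ∑ Q ∈ cellsAt R N, Q.len *
          ((∑ Φ ∈ cols, ‖locBesComb 𝒥 (a Φ) Q‖) * ∑ Ψ ∈ cols, ‖locBesComb 𝒥 (a' Ψ) Q‖) := by
  rw [loc_bes_inner_X h𝒥 cols hreg a a']
  have h1 : ∀ Φ ∈ cols, ∀ Ψ ∈ cols, ‖∑ Q ∈ cellsAt R N,
      conj (locBesComb 𝒥 (a Φ) Q) * locBesComb 𝒥 (a' Ψ) Q * ⟪Φ.vec Q, Ψ.vec Q⟫_ℂ‖
      ≤ τ * ∑ Q ∈ cellsAt R N, Q.len * (‖locBesComb 𝒥 (a Φ) Q‖ * ‖locBesComb 𝒥 (a' Ψ) Q‖) := by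
    intro Φ hΦ Ψ hΨ
    obtain ⟨P, hP1, hP2⟩ := hcross Φ hΦ Ψ hΨ
    exact loc_bes_cross h𝒥 (a Φ) (a' Ψ) (fun Q => ⟪Φ.vec Q, Ψ.vec Q⟫_ℂ) τ P
      (fun Q _ t => loc_bes_inner_vec_part (hreg Φ hΦ Q) (hreg Ψ hΨ Q) (cell_part_cellsAt Q t)) hP1 hP2
  calc ‖∑ Φ ∈ cols, ∑ Ψ ∈ cols, ∑ Q ∈ cellsAt R N,
        conj (locBesComb 𝒥 (a Φ) Q) * locBesComb 𝒥 (a' Ψ) Q * ⟪Φ.vec Q, Ψ.vec Q⟫_ℂ‖
      ≤ ∑ Φ ∈ cols, ∑ Ψ ∈ cols,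
          τ * ∑ Q ∈ cellsAt R N, Q.len * (‖locBesComb 𝒥 (a Φ) Q‖ * ‖locBesComb 𝒥 (a' Ψ) Q‖) := by
        refine (norm_sum_le _ _).trans (Finset.sum_le_sum fun Φ hΦ => ?_)
        exact (norm_sum_le _ _).trans (Finset.sum_le_sum fun Ψ hΨ => h1 Φ hΦ Ψ hΨ)
    _ = τ * ∑ Q ∈ cellsAt R N, Q.len *
          ((∑ Φ ∈ cols, ‖locBesComb 𝒥 (a Φ) Q‖) * ∑ Ψ ∈ cols, ‖locBesComb 𝒥 (a' Ψ) Q‖) := by
        have e : ∀ Q : Cell, Q.len *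
            ((∑ Φ ∈ cols, ‖locBesComb 𝒥 (a Φ) Q‖) * ∑ Ψ ∈ cols, ‖locBesComb 𝒥 (a' Ψ) Q‖)
            = ∑ Φ ∈ cols, ∑ Ψ ∈ cols, Q.len * (‖locBesComb 𝒥 (a Φ) Q‖ * ‖locBesComb 𝒥 (a' Ψ) Q‖) := by
          intro Q
          rw [Finset.sum_mul_sum, Finset.mul_sum]
          exact Finset.sum_congr rfl fun Φ _ => Finset.mul_sum _ _ _
        simp only [e]
        rw [Finset.sum_comm (s := cellsAt R N), Finset.mul_sum]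
        refine Finset.sum_congr rfl fun Φ _ => ?_
        rw [Finset.sum_comm (s := cellsAt R N), Finset.mul_sum]

/-! ### Schur test -/

/-- expansion of the square of a sum with bounds for the off-diagonal inner products -/
theorem loc_bes_norm_sum_sq (gs : Finset ℕ) (X : ℕ → XV) (c : ℕ → ℕ → ℝ) (hc0 : ∀ G G', 0 ≤ c G G')
    (hc : ∀ G ∈ gs, ∀ G' ∈ gs, G ≠ G' → ‖⟪X G, X G'⟫_ℂ‖ ≤ c G G') :
    ‖∑ G ∈ gs, X G‖ ^ 2 ≤ ∑ G ∈ gs, ‖X G‖ ^ 2 + ∑ G ∈ gs, ∑ G' ∈ gs, c G G' := by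
  have h1 : ‖∑ G ∈ gs, X G‖ ^ 2 = ∑ G ∈ gs, ∑ G' ∈ gs, RCLike.re ⟪X G, X G'⟫_ℂ := by
    rw [← inner_self_eq_norm_sq (𝕜 := ℂ), sum_inner, map_sum]
    refine Finset.sum_congr rfl fun G _ => ?_
    rw [inner_sum, map_sum]
  have h2 : ∑ G ∈ gs, ‖X G‖ ^ 2 = ∑ G ∈ gs, ∑ G' ∈ gs, if G = G' then ‖X G‖ ^ 2 else 0 := by
    refine Finset.sum_congr rfl fun G hG => ?_
    rw [Finset.sum_ite_eq, if_pos hG]
  rw [h1, h2, ← Finset.sum_add_distrib]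
  refine Finset.sum_le_sum fun G hG => ?_
  rw [← Finset.sum_add_distrib]
  refine Finset.sum_le_sum fun G' hG' => ?_
  by_cases h : G = G'
  · subst h
    rw [if_pos rfl, inner_self_eq_norm_sq (𝕜 := ℂ)]
    linarith [hc0 G G]
  · rw [if_neg h, zero_add]
    exact (RCLike.re_le_norm _).trans (hc G hG G' hG' h)

/-- Cauchy-Schwarz on the support -/
theorem loc_bes_count_cs (gs : Finset ℕ) (cols : Finset Col) (f : ℕ → Col → ℝ) (p : ℕ × Col → Prop) [DecidablePred p] (N₁ : ℝ)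
    (hp : ∀ G Φ, f G Φ ≠ 0 → p (G, Φ)) (hN : (((gs ×ˢ cols).filter p).card : ℝ) ≤ N₁) :
    (∑ G ∈ gs, ∑ Φ ∈ cols, f G Φ) ^ 2 ≤ N₁ * ∑ G ∈ gs, ∑ Φ ∈ cols, f G Φ ^ 2 := by
  rw [← Finset.sum_product' gs cols f, ← Finset.sum_product' gs cols fun G Φ => f G Φ ^ 2,
    ← Finset.sum_filter_of_ne (p := p) (fun e _ he => hp e.1 e.2 he)]
  refine (sq_sum_le_card_mul_sum_sq).trans ?_
  refine mul_le_mul hN ?_ (Finset.sum_nonneg fun _ _ => sq_nonneg _) ((Nat.cast_nonneg _).trans hN)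
  exact Finset.sum_le_sum_of_subset_of_nonneg (Finset.filter_subset _ _) fun _ _ _ => sq_nonneg _

theorem loc_bes_sum_swap {α β : Type*} (s : Finset α) (s' : Finset β) (𝒬 : Finset Cell) (τ : ℝ) (A : α → Cell → ℝ)
    (B : β → Cell → ℝ) :
    ∑ x ∈ s, ∑ y ∈ s', τ * ∑ Q ∈ 𝒬, Q.len * (A x Q * B y Q)
      = τ * ∑ Q ∈ 𝒬, Q.len * ((∑ x ∈ s, A x Q) * ∑ y ∈ s', B y Q) := by
  have e : ∀ Q : Cell, Q.len * ((∑ x ∈ s, A x Q) * ∑ y ∈ s', B y Q)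
      = ∑ x ∈ s, ∑ y ∈ s', Q.len * (A x Q * B y Q) := by
    intro Q
    rw [Finset.sum_mul_sum, Finset.mul_sum]
    exact Finset.sum_congr rfl fun x _ => Finset.mul_sum _ _ _
  simp only [e]
  rw [Finset.sum_comm (s := 𝒬), Finset.mul_sum]
  refine Finset.sum_congr rfl fun x _ => ?_
  rw [Finset.sum_comm (s := 𝒬), Finset.mul_sum]

open Classical in
/-- **the abstract Bessel separation** -/
theorem loc_bes_abs (R : Cell) (N : ℕ) (𝒥 : Finset Cell) (h𝒥 : 𝒥 ⊆ cellsUpTo R N) (cols : Finset Col) (gs : Finset ℕ)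
    (a : ℕ → Col → Cell → ℂ) (D τ N₁ : ℝ) (hD : 0 < D) (hτ : 0 ≤ τ)
    (hlab : ∀ Φ ∈ cols, ∀ Φ' ∈ cols, Φ.lab = Φ'.lab → Φ = Φ')
    (hreg : ∀ Φ ∈ cols, ∀ I, Φ.Reg I) (heps : ∀ Φ ∈ cols, D⁻¹ ≤ Real.sqrt Φ.eps)
    (hcross : ∀ G ∈ gs, ∀ G' ∈ gs, G ≠ G' → ∀ Φ ∈ cols, ∀ Ψ ∈ cols, ∃ P : ℕ → Prop,
      (∀ n, P n → ∀ Q ∈ cellsAt R n, ‖⟪Φ.vec Q, Ψ.vec Q⟫_ℂ‖ ≤ τ * Q.len) ∧
      ∀ J ∈ 𝒥, ∀ J' ∈ 𝒥, a G Φ J ≠ 0 → a G' Ψ J' ≠ 0 → (J ≤ J' ∨ J' ≤ J) →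
        ∀ n : ℕ, (J.depth = R.depth + n ∨ J'.depth = R.depth + n) → P n)
    (hcount : ∀ Q ∈ cellsAt R N,
      (((gs ×ˢ cols).filter fun e => ∃ J ∈ 𝒥, Q ≤ J ∧ a e.1 e.2 J ≠ 0).card : ℝ) ≤ N₁)
    (hnum : τ * N₁ * D ^ 2 ≤ 1) :
    ‖∑ G ∈ gs, ∑ Φ ∈ cols, ∑ J ∈ 𝒥, a G Φ J • Φ.vec J‖ ^ 2
      ≤ 2 * ∑ G ∈ gs, ‖∑ Φ ∈ cols, ∑ J ∈ 𝒥, a G Φ J • Φ.vec J‖ ^ 2 := by
  have hN₁ : 0 ≤ N₁ := by
    obtain ⟨Q, hQ⟩ : (cellsAt R N).Nonempty := Finset.card_pos.1 (by rw [cell_card_cellsAt]; positivity)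
    exact (Nat.cast_nonneg _).trans (hcount Q hQ)
  have hb0 : ∀ G Q, 0 ≤ ∑ Φ ∈ cols, ‖locBesComb 𝒥 (a G Φ) Q‖ := fun G Q =>
    Finset.sum_nonneg fun _ _ => norm_nonneg _
  have s1 := loc_bes_norm_sum_sq gs (fun G => ∑ Φ ∈ cols, ∑ J ∈ 𝒥, a G Φ J • Φ.vec J)
    (fun G G' => τ * ∑ Q ∈ cellsAt R N, Q.len *
      ((∑ Φ ∈ cols, ‖locBesComb 𝒥 (a G Φ) Q‖) * ∑ Ψ ∈ cols, ‖locBesComb 𝒥 (a G' Ψ) Q‖))
    (fun G G' => mul_nonneg hτ (Finset.sum_nonneg fun Q _ =>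
      mul_nonneg (cell_len_nonneg Q) (mul_nonneg (hb0 G Q) (hb0 G' Q))))
    (fun G hG G' hG' hne => loc_bes_cross_X h𝒥 cols τ hreg (a G) (a G') (hcross G hG G' hG' hne))
  rw [loc_bes_sum_swap gs gs (cellsAt R N) τ (fun G Q => ∑ Φ ∈ cols, ‖locBesComb 𝒥 (a G Φ) Q‖)
    (fun G Q => ∑ Φ ∈ cols, ‖locBesComb 𝒥 (a G Φ) Q‖)] at s1
  have s3 : ∀ Q ∈ cellsAt R N, (∑ G ∈ gs, ∑ Φ ∈ cols, ‖locBesComb 𝒥 (a G Φ) Q‖) ^ 2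
      ≤ N₁ * ∑ G ∈ gs, ∑ Φ ∈ cols, ‖locBesComb 𝒥 (a G Φ) Q‖ ^ 2 := fun Q hQ =>
    loc_bes_count_cs gs cols (fun G Φ => ‖locBesComb 𝒥 (a G Φ) Q‖)
      (fun e => ∃ J ∈ 𝒥, Q ≤ J ∧ a e.1 e.2 J ≠ 0) N₁
      (fun G Φ h => loc_bes_comb_ne (norm_ne_zero_iff.1 h)) (hcount Q hQ)
  have s4 : ∑ Q ∈ cellsAt R N, Q.len * ∑ G ∈ gs, ∑ Φ ∈ cols, ‖locBesComb 𝒥 (a G Φ) Q‖ ^ 2
      ≤ D ^ 2 * ∑ G ∈ gs, ‖∑ Φ ∈ cols, ∑ J ∈ 𝒥, a G Φ J • Φ.vec J‖ ^ 2 := by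
    simp only [Finset.mul_sum (s := gs)]
    rw [Finset.sum_comm]
    exact Finset.sum_le_sum fun G _ => loc_bes_lower h𝒥 cols D hD hlab hreg heps (a G)
  have s5 : τ * ∑ Q ∈ cellsAt R N, Q.len * ((∑ G ∈ gs, ∑ Φ ∈ cols, ‖locBesComb 𝒥 (a G Φ) Q‖)
        * ∑ G ∈ gs, ∑ Φ ∈ cols, ‖locBesComb 𝒥 (a G Φ) Q‖)
      ≤ ∑ G ∈ gs, ‖∑ Φ ∈ cols, ∑ J ∈ 𝒥, a G Φ J • Φ.vec J‖ ^ 2 := by
    have hS0 : 0 ≤ ∑ G ∈ gs, ‖∑ Φ ∈ cols, ∑ J ∈ 𝒥, a G Φ J • Φ.vec J‖ ^ 2 :=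
      Finset.sum_nonneg fun _ _ => sq_nonneg _
    calc τ * ∑ Q ∈ cellsAt R N, Q.len * ((∑ G ∈ gs, ∑ Φ ∈ cols, ‖locBesComb 𝒥 (a G Φ) Q‖)
          * ∑ G ∈ gs, ∑ Φ ∈ cols, ‖locBesComb 𝒥 (a G Φ) Q‖)
        ≤ τ * ∑ Q ∈ cellsAt R N, Q.len * (N₁ * ∑ G ∈ gs, ∑ Φ ∈ cols, ‖locBesComb 𝒥 (a G Φ) Q‖ ^ 2) := by
          refine mul_le_mul_of_nonneg_left (Finset.sum_le_sum fun Q hQ => ?_) hτ
          refine mul_le_mul_of_nonneg_left ?_ (cell_len_nonneg Q)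
          rw [← pow_two]
          exact s3 Q hQ
      _ = τ * N₁ * ∑ Q ∈ cellsAt R N, Q.len * ∑ G ∈ gs, ∑ Φ ∈ cols, ‖locBesComb 𝒥 (a G Φ) Q‖ ^ 2 := by
          rw [mul_assoc, Finset.mul_sum (a := N₁)]
          congr 1
          exact Finset.sum_congr rfl fun Q _ => by ring
      _ ≤ τ * N₁ * (D ^ 2 * ∑ G ∈ gs, ‖∑ Φ ∈ cols, ∑ J ∈ 𝒥, a G Φ J • Φ.vec J‖ ^ 2) :=
          mul_le_mul_of_nonneg_left s4 (mul_nonneg hτ hN₁)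
      _ = (τ * N₁ * D ^ 2) * ∑ G ∈ gs, ‖∑ Φ ∈ cols, ∑ J ∈ 𝒥, a G Φ J • Φ.vec J‖ ^ 2 := by ring
      _ ≤ 1 * ∑ G ∈ gs, ‖∑ Φ ∈ cols, ∑ J ∈ 𝒥, a G Φ J • Φ.vec J‖ ^ 2 :=
          mul_le_mul_of_nonneg_right hnum hS0
      _ = _ := one_mul _
  linarith

end Claimed.Agent.R258
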