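/-
Row 258 (S0498), Sec. 6.3, block [LOC-BES] = Lemma 6.5 (architect helper275; home architect helper68).
FILE BesCon: the CONCRETE inputs of the abstract Bessel separation `loc_bes_abs` (`Loc/BesAbs.lean`).  No paper reading.  FOUR INDEPENDENT LEAVES.
Fill the sorries IN PLACE (auxiliary lemmas directly above your theorem, prefix `bes_`, inside `namespace LocSys`); touch only your own theorem.

`Y.BesAdm l G Φ J` : `(Φ, J)` is one of the generators `Φ.vec J` of `Y.uspace l G`.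

LEAF P-BES-REPR  = `BesAdm.le_root`, `bes_repr`.
  * `le_root`: `vtx ∈ mask G h J ⊆ pres J` (`Y.CS.mask_pres`), then `(hV.pres_iff J _).1 _ |>.1`.
  * `bes_repr`: the generating set of `uspace l G` is `(fun e : Col × Cell => e.1.vec e.2) '' {e | Y.BesAdm l G e.1 e.2}` (`Set.ext`, unfold).  By `Finsupp.mem_span_image_iff_linearCombination`
    (or `Submodule.mem_span_image_iff_exists_fun` / `Submodule.span_induction`) choose for every `G ∈ gs` a finitely supported `c G : Col × Cell →₀ ℂ`, supported in that set, with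
    `x G = ∑_{e ∈ (c G).support} c G e • e.1.vec e.2` (`Finsupp.linearCombination_apply`, `Finsupp.sum`).  Put `a G Φ J = if G ∈ gs then c G (Φ, J) else 0`,
    `𝒥 = gs.biUnion fun G => (c G).support.image Prod.snd` (all its cells are `≤ root` by `le_root`), `N` from `cell_exists_cellsUpTo`.
    `∑_{Φ ∈ cols} ∑_{J ∈ 𝒥} = ∑ over cols ×ˢ 𝒥` (`Finset.sum_product`), and `support ⊆ cols ×ˢ 𝒥`, terms off the support vanish (`Finset.sum_subset`).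
LEAF P-BES-CROSS = `bes_cross`.
  Take `P n := (∃ J, Y.BesAdm l G Φ J) ∧ (∃ J', Y.BesAdm l G' Ψ J') ∧ 1 < Y.B.T.d (Y.X.root.depth + n) (Y.B.tag (Y.cat.vtx Φ.lab)) (Y.B.tag (Y.cat.vtx Ψ.lab))`.
  * first part: `hc := hI.catOk hV`; `loc_inner_of_sep hI.sep Φ Ψ (Y.cat.chart Φ.lab) (Y.cat.chart Ψ.lab) l Q`; `Q.depth = root.depth + n` (`cell_mem_cellsAt'`);
    `hc.tag_col` + `slot = l` rewrite the tags; `CatOk.tag_ok hI hc hΦ (le_root) (J ≤ Φ.birth)`; `Φ.lab ≠ Ψ.lab`: otherwise `Φ = Ψ` (`hc.lab_inj`) and the distance is `0` (`d_self`).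
  * second part: `Y.CS.mask_sep G G' _ _ h h' _ _ hne hcol` at the finer one of `J, J'` (`Or.inl` if `J' ≤ J`, `Or.inr` if `J ≤ J'`), then `Y.B.T.d_anti` (`depth` of the coarser cell is smaller: `loc_depth_le`;
    `depth I = I.depth` is `rfl`, `loc_depth_cell`).
LEAF P-BES-COUNT = `bes_count`.
  `obtain ⟨F, hF, hFm⟩ := Y.CS.grp_count Q`.  The filtered set is contained in `F ×ˢ ((Y.cat.avail Q).filter fun Φ => Y.cat.rank Φ.lab ≤ Y.p.L + 4)`:  `mask G h J` is nonempty, so `Y.CS.mask_hist` gives `I0 ≥ J ≥ Q` with a use;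
  `Q ≤ J ≤ Φ.birth`, `hV.rank_le`.  `Finset.card_le_card`, `Finset.card_product`, `hI.cnt Q hQ (Y.p.L + 4)`, `hI.n_ge_one`.
LEAF P-BES-NUM   = `bes_num`.
  `hI.num.τ2_small`, `min_le_left`, `Real.exp (-k) ≤ 1`; `pD ≤ D + 1`, `D² ≤ (D+1)²`, `(D+1)³ ≤ (D+1)⁶`, `d0⁸+1 ≤ (d0⁸+1)²`, `n (𝓛+4) ≤ n (𝓛+5) ≤ n (𝓛+5)²` (`n_mono`, `n_ge_one`), all other factors of `Acc.big` are `≥ 1`.
-/
import Claimed.Agent.R258.Loc.BaseFacts

set_option autoImplicit false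
open MeasureTheory
open scoped InnerProductSpace

namespace Claimed.Agent.R258

namespace LocSys

variable {Y : LocSys LocTag} {c0 C0 k C3 : ℝ} {A : Acc}

/-- `(Φ, J)` is a generator of the usable-range space of the group `G` in the slot `l` -/
def BesAdm (Y : LocSys LocTag) (l : Fin 4) (G : ℕ) (Φ : Col) (J : Cell) : Prop :=
  Φ ∈ Y.cat.cols ∧ J ≤ Φ.birth ∧ Y.cat.slot Φ.lab = l ∧ Y.CS.usable G J ∧
    ∃ h ≤ Y.p.Hmax, Y.cat.vtx Φ.lab ∈ Y.CS.mask G h J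

theorem BesAdm.le_root (hV : Y.Valid A.Dm A.m0) {l : Fin 4} {G : ℕ} {Φ : Col} {J : Cell} (h : Y.BesAdm l G Φ J) :
    J ≤ Y.X.root := by
  obtain ⟨_, _, _, _, h', _, hm⟩ := h
  exact ((hV.pres_iff J _).1 (Finset.mem_coe.mp (Y.CS.mask_pres G h' J hm))).1

/-- one vector of the usable-range space as a finitely supported combination of generators -/
theorem bes_repr_one (l : Fin 4) (G : ℕ) {x : XV} (hx : x ∈ Y.uspace l G) :
    ∃ c : Col × Cell →₀ ℂ, (∀ e ∈ c.support, Y.BesAdm l G e.1 e.2) ∧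
      x = ∑ e ∈ c.support, c e • e.1.vec e.2 := by
  have hset : {x | ∃ Φ ∈ Y.cat.cols, ∃ I : Cell, I ≤ Φ.birth ∧ Y.cat.slot Φ.lab = l ∧ Y.CS.usable G I ∧
      (∃ h ≤ Y.p.Hmax, Y.cat.vtx Φ.lab ∈ Y.CS.mask G h I) ∧ x = Φ.vec I}
      = (fun e : Col × Cell => e.1.vec e.2) '' {e | Y.BesAdm l G e.1 e.2} := by
    ext y
    constructor
    · rintro ⟨Φ, hΦ, I, h1, h2, h3, h4, rfl⟩
      exact ⟨(Φ, I), ⟨hΦ, h1, h2, h3, h4⟩, rfl⟩
    · rintro ⟨⟨Φ, I⟩, ⟨hΦ, h1, h2, h3, h4⟩, rfl⟩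
      exact ⟨Φ, hΦ, I, h1, h2, h3, h4, rfl⟩
  unfold uspace at hx
  rw [hset, Finsupp.mem_span_image_iff_linearCombination] at hx
  obtain ⟨c, hc, rfl⟩ := hx
  refine ⟨c, fun e he => hc he, ?_⟩
  rw [Finsupp.linearCombination_apply, Finsupp.sum]

/-- STEP 1: representation of the vectors by coefficient functions -/
theorem bes_repr (hV : Y.Valid A.Dm A.m0) (l : Fin 4) (gs : Finset ℕ) (x : ℕ → XV) (hx : ∀ G ∈ gs, x G ∈ Y.uspace l G) :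
    ∃ (N : ℕ) (𝒥 : Finset Cell) (a : ℕ → Col → Cell → ℂ), 𝒥 ⊆ cellsUpTo Y.X.root N ∧
      (∀ G Φ J, a G Φ J ≠ 0 → Y.BesAdm l G Φ J) ∧
      ∀ G ∈ gs, x G = ∑ Φ ∈ Y.cat.cols, ∑ J ∈ 𝒥, a G Φ J • Φ.vec J := by
  classical
  have hex : ∀ G, ∃ c : Col × Cell →₀ ℂ, G ∈ gs → (∀ e ∈ c.support, Y.BesAdm l G e.1 e.2) ∧
      x G = ∑ e ∈ c.support, c e • e.1.vec e.2 := by
    intro G
    by_cases hG : G ∈ gs
    · obtain ⟨c, h1, h2⟩ := bes_repr_one l G (hx G hG)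
      exact ⟨c, fun _ => ⟨h1, h2⟩⟩
    · exact ⟨0, fun h => absurd h hG⟩
  choose c hc using hex
  obtain ⟨N, hN⟩ := cell_exists_cellsUpTo Y.X.root (gs.biUnion fun G => (c G).support.image Prod.snd) (by
    intro J hJ
    obtain ⟨G, hG, hJ⟩ := Finset.mem_biUnion.mp hJ
    obtain ⟨e, he, rfl⟩ := Finset.mem_image.mp hJ
    exact ((hc G hG).1 e he).le_root hV)
  refine ⟨N, gs.biUnion fun G => (c G).support.image Prod.snd, fun G Φ J => if G ∈ gs then c G (Φ, J) else 0,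
    hN, ?_, ?_⟩
  · intro G Φ J h
    by_cases hG : G ∈ gs
    · simp only [if_pos hG] at h
      exact (hc G hG).1 (Φ, J) (Finsupp.mem_support_iff.mpr h)
    · simp only [if_neg hG] at h
      exact absurd rfl h
  · intro G hG
    simp only [if_pos hG]
    rw [(hc G hG).2, ← Finset.sum_product (Y.cat.cols) (gs.biUnion fun G => (c G).support.image Prod.snd)
      (fun e : Col × Cell => c G (e.1, e.2) • e.1.vec e.2)]
    apply Finset.sum_subset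
    · intro e he
      rw [Finset.mem_product]
      exact ⟨((hc G hG).1 e he).1, Finset.mem_biUnion.mpr ⟨G, hG, Finset.mem_image_of_mem _ he⟩⟩
    · intro e _ he
      rw [Finsupp.notMem_support_iff.mp he, zero_smul]

/-- STEP 3, input: separation of two columns of distinct groups of one colour on all generations up to the last one where comparable endpoint cells occur -/
theorem bes_cross (hV : Y.Valid A.Dm A.m0) (hI : Y.Inner c0 C0 k C3 A) (l : Fin 4) {G G' : ℕ} (hne : G ≠ G')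
    (hcol : Y.CS.gcol G = Y.CS.gcol G') (Φ Ψ : Col) :
    ∃ P : ℕ → Prop,
      (∀ n, P n → ∀ Q ∈ cellsAt Y.X.root n, ‖⟪Φ.vec Q, Ψ.vec Q⟫_ℂ‖ ≤ A.τ2 * Q.len) ∧
      ∀ J J', Y.BesAdm l G Φ J → Y.BesAdm l G' Ψ J' → (J ≤ J' ∨ J' ≤ J) →
        ∀ n : ℕ, (J.depth = Y.X.root.depth + n ∨ J'.depth = Y.X.root.depth + n) → P n := by
  have hc := hI.catOk hV
  refine ⟨fun n => (∃ J, Y.BesAdm l G Φ J) ∧ (∃ J', Y.BesAdm l G' Ψ J') ∧
    1 < Y.B.T.d (Y.X.root.depth + n) (Y.B.tag (Y.cat.vtx Φ.lab)) (Y.B.tag (Y.cat.vtx Ψ.lab)), ?_, ?_⟩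
  · rintro n ⟨⟨J, hJ⟩, ⟨J', hJ'⟩, hd⟩ Q hQ
    have hQd : Q.depth = Y.X.root.depth + n := (cell_mem_cellsAt'.mp hQ).2
    have hΦ := hJ.1
    have hΨ := hJ'.1
    have hsΦ : Y.cat.slot Φ.lab = l := hJ.2.2.1
    have hsΨ : Y.cat.slot Ψ.lab = l := hJ'.2.2.1
    have htΦ : (Y.cat.chart Φ.lab).tag l = Y.B.tag (Y.cat.vtx Φ.lab) := by
      rw [← hsΦ]; exact hc.tag_col Φ hΦ
    have htΨ : (Y.cat.chart Ψ.lab).tag l = Y.B.tag (Y.cat.vtx Ψ.lab) := by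
      rw [← hsΨ]; exact hc.tag_col Ψ hΨ
    have hoΦ : ((Y.cat.chart Φ.lab).tag l).Ok A.dmax A.Hb := by
      have := CatOk.tag_ok hI hc hΦ (hJ.le_root hV) hJ.2.1
      rwa [hsΦ] at this
    have hoΨ : ((Y.cat.chart Ψ.lab).tag l).Ok A.dmax A.Hb := by
      have := CatOk.tag_ok hI hc hΨ (hJ'.le_root hV) hJ'.2.1
      rwa [hsΨ] at this
    have hlab : Φ.lab ≠ Ψ.lab := by
      intro h
      have hE : Φ = Ψ := hc.lab_inj Φ hΦ Ψ hΨ h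
      rw [hE, Y.B.T.d_self] at hd
      exact absurd hd (by simp)
    refine loc_inner_of_sep hI.sep Φ Ψ (Y.cat.chart Φ.lab) (Y.cat.chart Ψ.lab) l Q hlab (hc.chart Φ hΦ)
      (hc.chart Ψ hΨ) (hc.cplx Φ hΦ) (hc.cplx Ψ hΨ) (hc.bdd Φ hΦ) (hc.bdd Ψ hΨ) hoΦ hoΨ ?_
    rw [htΦ, htΨ, hQd]
    exact hd
  · intro J J' hJ hJ' hcmp n hn
    refine ⟨⟨J, hJ⟩, ⟨J', hJ'⟩, ?_⟩
    obtain ⟨_, _, _, hu, h, hh, hm⟩ := hJ
    obtain ⟨_, _, _, hu', h', hh', hm'⟩ := hJ'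
    rcases hcmp with hle | hle
    · -- `J` is the finer cell
      have hs := Y.CS.mask_sep G G' J' J h h' _ _ hne hcol hle (Or.inr ⟨hu, hu', hm, hm'⟩) hh hh'
      rw [loc_depth_cell] at hs
      rcases hn with hn | hn
      · rw [← hn]; exact hs
      · rw [← hn]
        exact lt_of_lt_of_le hs (Y.B.T.d_anti _ _ _ _ (loc_depth_le hle))
    · -- `J'` is the finer cell
      have hs := Y.CS.mask_sep G G' J J' h h' _ _ hne hcol hle (Or.inl ⟨hu, hu', hm, hm'⟩) hh hh'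
      rw [loc_depth_cell] at hs
      rcases hn with hn | hn
      · rw [← hn]
        exact lt_of_lt_of_le hs (Y.B.T.d_anti _ _ _ _ (loc_depth_le hle))
      · rw [← hn]; exact hs

open Classical in
/-- STEP 4, input: the number of pairs (group, column) with an endpoint cell above `Q` -/
theorem bes_count (hV : Y.Valid A.Dm A.m0) (hI : Y.Inner c0 C0 k C3 A) (l : Fin 4) (gs : Finset ℕ) {Q : Cell}
    (hQ : Q ≤ Y.X.root) :
    (((gs ×ˢ Y.cat.cols).filter fun e => ∃ J, Q ≤ J ∧ Y.BesAdm l e.1 e.2 J).card : ℝ)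
      ≤ ((Y.p.D * (Y.p.d0 ^ 8 + 1) : ℕ) : ℝ) * A.n (Y.p.L + 4) := by
  obtain ⟨F, hF, hFm⟩ := Y.CS.grp_count Q
  have hsub : ((gs ×ˢ Y.cat.cols).filter fun e => ∃ J, Q ≤ J ∧ Y.BesAdm l e.1 e.2 J)
      ⊆ F ×ˢ ((Y.cat.avail Q).filter fun Φ => Y.cat.rank Φ.lab ≤ Y.p.L + 4) := by
    intro e he
    obtain ⟨_, J, hQJ, hΦ, hJb, _, _, h, _, hm⟩ := Finset.mem_filter.mp he
    obtain ⟨I0, hI0, huse⟩ := Y.CS.mask_hist e.1 h J ⟨_, hm⟩
    rw [Finset.mem_product, Finset.mem_filter]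
    refine ⟨hFm e.1 I0 (hQJ.trans hI0) huse, ?_, hV.rank_le e.2 hΦ⟩
    unfold LocCat.avail
    rw [Finset.mem_filter]
    exact ⟨hΦ, hQJ.trans hJb⟩
  have h1 := Finset.card_le_card hsub
  rw [Finset.card_product] at h1
  have h2 := hI.cnt Q hQ (Y.p.L + 4)
  have h3 : (F.card : ℝ) ≤ ((Y.p.D * (Y.p.d0 ^ 8 + 1) : ℕ) : ℝ) := by exact_mod_cast hF
  calc (((gs ×ˢ Y.cat.cols).filter fun e => ∃ J, Q ≤ J ∧ Y.BesAdm l e.1 e.2 J).card : ℝ)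
      ≤ ((F.card * ((Y.cat.avail Q).filter fun Φ => Y.cat.rank Φ.lab ≤ Y.p.L + 4).card : ℕ) : ℝ) := by
        exact_mod_cast h1
    _ = (F.card : ℝ) * (((Y.cat.avail Q).filter fun Φ => Y.cat.rank Φ.lab ≤ Y.p.L + 4).card : ℝ) := by
        push_cast; ring
    _ ≤ ((Y.p.D * (Y.p.d0 ^ 8 + 1) : ℕ) : ℝ) * A.n (Y.p.L + 4) :=
        mul_le_mul h3 h2 (Nat.cast_nonneg _) (Nat.cast_nonneg _)

theorem bes_num_real {τ pD e N4 N5 D R : ℝ} (hτ : 0 < τ) (hD : 1 ≤ D) (hpD0 : 0 ≤ pD) (hpD : pD ≤ D + 1) (he : 1 ≤ e)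
    (hN4 : 1 ≤ N4) (hN45 : N4 ≤ N5) (hR : 1 ≤ R) (hsm : τ * (R * ((D + 1) ^ 6 * e ^ 2) * N5 ^ 2) ≤ 1) :
    τ * (pD * e * N4) * D ^ 2 ≤ 1 := by
  have ha : (1 : ℝ) ≤ D + 1 := by linarith
  have a3 : (D + 1) ^ 3 ≤ (D + 1) ^ 6 := pow_le_pow_right₀ ha (by norm_num)
  have e2 : e ≤ e ^ 2 := by nlinarith
  have n2' : N4 ≤ N5 ^ 2 := by nlinarith
  have d2 : D ^ 2 ≤ (D + 1) ^ 2 := by nlinarith
  have hkey : pD * e * N4 * D ^ 2 ≤ R * ((D + 1) ^ 6 * e ^ 2) * N5 ^ 2 := by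
    calc pD * e * N4 * D ^ 2 ≤ (D + 1) * (e ^ 2) * (N5 ^ 2) * (D + 1) ^ 2 := by gcongr
      _ = 1 * ((D + 1) ^ 3 * e ^ 2) * N5 ^ 2 := by ring
      _ ≤ R * ((D + 1) ^ 6 * e ^ 2) * N5 ^ 2 := by gcongr
  calc τ * (pD * e * N4) * D ^ 2 = τ * (pD * e * N4 * D ^ 2) := by ring
    _ ≤ τ * (R * ((D + 1) ^ 6 * e ^ 2) * N5 ^ 2) := mul_le_mul_of_nonneg_left hkey hτ.le
    _ ≤ 1 := hsm

/-- STEP 5: numerics -/
theorem bes_num (hI : Y.Inner c0 C0 k C3 A) :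
    A.τ2 * (((Y.p.D * (Y.p.d0 ^ 8 + 1) : ℕ) : ℝ) * A.n (Y.p.L + 4)) * A.D ^ 2 ≤ 1 := by
  have hsm : A.τ2 * (A.big Y.p * A.n (Y.p.L + 5) ^ 2) ≤ 1 := by
    refine (hI.num.τ2_small.trans (min_le_left _ _)).trans ?_
    rw [Real.exp_le_one_iff]
    linarith [hI.num.k_ge]
  have hD := hI.D_ge_one
  have hτ := hI.num.τ2_pos
  have hpD := hI.num.pD_le
  have hM := hI.num.M_ge
  have hN5 := hI.n_ge_one (Y.p.L + 5)
  have hN4 := hI.n_ge_one (Y.p.L + 4)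
  have hN45 : A.n (Y.p.L + 4) ≤ A.n (Y.p.L + 5) := hI.num.n_mono (by omega)
  have he : (1 : ℝ) ≤ (Y.p.d0 : ℝ) ^ 8 + 1 := by
    have : (0 : ℝ) ≤ (Y.p.d0 : ℝ) ^ 8 := by positivity
    linarith
  have ha : (1 : ℝ) ≤ A.D + 1 := by linarith
  -- the remaining factors of `big` are at least one
  have hrest : (1 : ℝ) ≤ 10 ^ 6 * A.M * ((Y.p.L : ℝ) + 1) * 4 ^ A.m0 * ((A.m0 : ℝ) + 1) * ((Y.p.P : ℝ) + 1) ^ 2 := by
    have h1 : (1 : ℝ) ≤ (Y.p.L : ℝ) + 1 := by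
      have : (0 : ℝ) ≤ (Y.p.L : ℝ) := Nat.cast_nonneg _
      linarith
    have h2 : (1 : ℝ) ≤ 4 ^ A.m0 := one_le_pow₀ (by norm_num)
    have h3 : (1 : ℝ) ≤ (A.m0 : ℝ) + 1 := by
      have : (0 : ℝ) ≤ (A.m0 : ℝ) := Nat.cast_nonneg _
      linarith
    have h4 : (1 : ℝ) ≤ ((Y.p.P : ℝ) + 1) ^ 2 := by
      apply one_le_pow₀
      have : (0 : ℝ) ≤ (Y.p.P : ℝ) := Nat.cast_nonneg _
      linarith
    have h5 : (1 : ℝ) ≤ 10 ^ 6 := by norm_num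
    exact one_le_mul_of_one_le_of_one_le (one_le_mul_of_one_le_of_one_le (one_le_mul_of_one_le_of_one_le
      (one_le_mul_of_one_le_of_one_le (one_le_mul_of_one_le_of_one_le h5 hM) h1) h2) h3) h4
  have hbig : A.big Y.p = (10 ^ 6 * A.M * ((Y.p.L : ℝ) + 1) * 4 ^ A.m0 * ((A.m0 : ℝ) + 1) * ((Y.p.P : ℝ) + 1) ^ 2)
      * ((A.D + 1) ^ 6 * ((Y.p.d0 : ℝ) ^ 8 + 1) ^ 2) := by
    unfold Acc.big
    ring
  have e1 : ((Y.p.D * (Y.p.d0 ^ 8 + 1) : ℕ) : ℝ) = (Y.p.D : ℝ) * ((Y.p.d0 : ℝ) ^ 8 + 1) := by push_cast; ring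
  rw [hbig] at hsm
  rw [e1]
  exact bes_num_real hτ hD (Nat.cast_nonneg _) hpD he hN4 hN45 hrest hsm

end LocSys

end Claimed.Agent.R258
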