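/-
Row 258 (S0498), Sec. 6.3 (home architect helper68).  BLOCK [LOC-BES] = **Lemma 6.5** (`lem:usable-bessel`, localization.tex l.530-600): Bessel separation of the usable endpoint spaces.
TOP STATEMENT: `LocSys.Inner.bessel` below.  ARCHITECT+PROVER block (about 1000 lines): cut it into files `Loc/Bes*.lean`, prefix `loc_bes_`, keep the top statement verbatim.
The paper need not be read: the complete proof (a DISCRETE version of the paper's proof, no step functions) is below.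
Tools: block [XV] (`xv_vec_part`, `xv_restr_vec`, `xv_colSpan_ortho`, `xv_inner_vec`, …), CellApi (`cellsAt`, `CellPart`), `Loc/Filt.lean` (`loc_coef_lower`, `loc_inner_of_sep`), `Loc/BaseFacts.lean` (`Inner.catOk`, `CatOk.tag_ok`).

DATA.  Slot `l`, colour `κ`, finite set `gs` of groups of colour `κ`, `x G ∈ Y.uspace l G`.  Goal `‖∑_G x G‖² ≤ 2 ∑_G ‖x G‖²`.
STEP 1 (representation).  `x G = ∑_{e ∈ E G} a_e • e.1.vec e.2`, `E G : Finset (Col × Cell)`, every `e = (Φ, J) ∈ E G` satisfies `Φ ∈ cat.cols`, `J ≤ Φ.birth`, `slot = l`, `usable G J`, `vtx Φ ∈ mask G h J` for some `h ≤ Hmax`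
  (`Submodule.span_induction` or `Submodule.mem_span_set'`/`Finsupp.mem_span_iff_linearCombination`).   `mask G h J ≠ ∅` forces `J ≤ Y.X.root` (`mask_pres`, `hV.pres_iff`).
STEP 2 (common refinement).  Let `N` be so large that all cells `J` occurring in `⋃_G E G` have `J.depth ≤ root.depth + N`; `𝒬 = cellsAt root N`.  For `J ≤ root` of relative depth `≤ N`:
  `Φ.vec J = ∑_{Q ∈ 𝒬, Q ≤ J} Φ.vec Q` (`xv_vec_part`).  With the COMBINED coefficients `α G Φ Q = ∑_{(Φ,J) ∈ E G, Q ≤ J} a_{(Φ,J)}`:   `x G = ∑_{Q ∈ 𝒬} ∑_{Φ ∈ cols} α G Φ Q • Φ.vec Q`.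
  The pieces on different `Q` are orthogonal, so `‖x G‖² = ∑_Q ‖∑_Φ α G Φ Q • Φ.vec Q‖² ≥ ∑_Q |Q| ∑_Φ |α G Φ Q|² ε_Φ ≥ D⁻² ∑_Q |Q| ∑_Φ |α G Φ Q|²`       (`loc_coef_lower`; only `Φ` with `Q ≤ Φ.birth` occur).
STEP 3 (cross terms).  Fix `G ≠ G'` in `gs` and columns `Φ, Ψ`.  CLAIM: `|∑_{Q ∈ 𝒬} α G Φ Q · conj (α G' Ψ Q) · ⟪…⟫| ≤ τ₂ ∑_Q |Q| |α G Φ Q| |α G' Ψ Q|`, where `⟪…⟫` is the inner product of `Φ.vec Q`, `Ψ.vec Q`.
  Let `s_*` = the largest `s ≤ root.depth + N` with `1 < d_s(tag, tag')` (`tag = B.tag (vtx Φ)`, …); by `d_anti` the set of such `s` is an initial segment.  If `(Φ,J) ∈ E G`, `(Ψ,J') ∈ E G'` and `Q ≤ J, Q ≤ J'`, then `J, J'` are comparable and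
  `mask_sep` (for the finer one) gives `1 < d` at `max (J.depth, J'.depth)`; so both depths are `≤ s_*`, in particular `Φ.lab ≠ Ψ.lab` (equal labels ⇒ equal columns ⇒ equal tags ⇒ distance `0`).
  Consequently for `Q ∈ 𝒬` with ancestor `Q*` at depth `s_*`:  `α G Φ Q · conj (α G' Ψ Q)` depends only on `Q*`  (if some `J ∋ Q` of `Φ` is deeper than `s_*`, then `Ψ` has no cell above `Q`, nor above any other `Q' ≤ Q*`… argue: either
  both families of cells above `Q` consist of cells above `Q*`, and then they are the same for all `Q' ≤ Q*` PROVIDED no deeper cell of either family lies inside `Q*` over a point where the other family is nonempty; the clean way: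
  expand the product `α·conj α' = ∑_{J,J'} a_J conj a'_{J'} 1[Q ≤ J] 1[Q ≤ J']`; every nonzero term has `J, J' ⊇ Q*`; so the product equals `∑_{J,J' ≥ Q*} a_J conj a'_{J'}`, a function of `Q*`).
  Group `𝒬` by `Q*`:  `∑_{Q ≤ Q*} ⟪Φ.vec Q, Ψ.vec Q⟫ = ⟪Φ.vec Q*, Ψ.vec Q*⟫` and `|⟪Φ.vec Q*, Ψ.vec Q*⟫| ≤ τ₂ |Q*| = τ₂ ∑_{Q ≤ Q*} |Q|` (`loc_inner_of_sep` at the depth `s_*` of `Q*`).  If no such `s_*` exists all products vanish.
STEP 4 (Schur).  `‖∑ x G‖² = ∑_G ‖x G‖² + ∑_{G ≠ G'} ⟪x G, x G'⟫ ≤ ∑ ‖x G‖² + τ₂ ∑_Q |Q| (∑_{G,Φ} |α G Φ Q|)² ≤ ∑ ‖x G‖² + τ₂ N₁ ∑_Q |Q| ∑_{G,Φ} |α G Φ Q|² ≤ (1 + τ₂ N₁ D²) ∑_G ‖x G‖²`,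
  `N₁ ≥ #{(G,Φ) : α G Φ Q ≠ 0}`:  `Φ` is available on `Q` (`≤ A.n (𝓛+4)` labels, `hI.cnt`, `hV.rank_le`), `G` has a nonempty mask above `Q`, hence a use above `Q` (`mask_hist`): `≤ pD (d0⁸+1)` groups (`grp_count`).
STEP 5 (numerics).  `τ₂ · pD (d0⁸+1) · n(𝓛+4) · D² ≤ 1` from `hI.num.τ2_small` (`min ≤ exp (-k) ≤ 1`), `Acc.big`.
-/
import Claimed.Agent.R258.Loc.BesAbs
import Claimed.Agent.R258.Loc.BesCon

set_option autoImplicit false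
open MeasureTheory

namespace Claimed.Agent.R258

namespace LocSys

variable {Y : LocSys LocTag} {c0 C0 k C3 : ℝ} {A : Acc}

/-- **Lemma 6.5** -/
theorem Inner.bessel (hV : Y.Valid A.Dm A.m0) (hI : Y.Inner c0 C0 k C3 A) : Y.BesselGoal := by
  classical
  intro l κ gs hgs x hx
  obtain ⟨N, 𝒥, a, h𝒥, ha, hxa⟩ := bes_repr hV l gs x hx
  have hc := hI.catOk hV
  have key := loc_bes_abs Y.X.root N 𝒥 h𝒥 Y.cat.cols gs a A.D A.τ2
    (((Y.p.D * (Y.p.d0 ^ 8 + 1) : ℕ) : ℝ) * A.n (Y.p.L + 4)) hI.D_pos hI.num.τ2_pos.le hc.lab_inj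
    (fun Φ hΦ I => hc.reg hΦ I) (fun Φ hΦ => (hc.eps Φ hΦ).1) ?_ ?_ (bes_num hI)
  · have e1 : ∑ G ∈ gs, x G = ∑ G ∈ gs, ∑ Φ ∈ Y.cat.cols, ∑ J ∈ 𝒥, a G Φ J • Φ.vec J := Finset.sum_congr rfl hxa
    have e2 : ∑ G ∈ gs, ‖x G‖ ^ 2 = ∑ G ∈ gs, ‖∑ Φ ∈ Y.cat.cols, ∑ J ∈ 𝒥, a G Φ J • Φ.vec J‖ ^ 2 :=
      Finset.sum_congr rfl fun G hG => by rw [hxa G hG]
    rw [e1, e2]
    exact key
  · intro G hG G' hG' hne Φ _ Ψ _
    obtain ⟨P, hP1, hP2⟩ := bes_cross hV hI l hne ((hgs G hG).trans (hgs G' hG').symm) Φ Ψ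
    exact ⟨P, hP1, fun J _ J' _ h1 h2 => hP2 J J' (ha _ _ _ h1) (ha _ _ _ h2)⟩
  · intro Q hQ
    refine le_trans ?_ (bes_count hV hI l gs (cell_mem_cellsAt'.1 hQ).1)
    refine Nat.cast_le.2 (Finset.card_le_card fun e he => ?_)
    rw [Finset.mem_filter] at he ⊢
    obtain ⟨h1, J, _, hQJ, hne⟩ := he
    exact ⟨h1, J, hQJ, ha _ _ _ hne⟩

end LocSys

end Claimed.Agent.R258
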