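/-
Row 258 (S0498), Sec. 6 (architect helper68).  FILE S6aGoals: the exports of block [S6a] (helper70: Lemmas 6.1, 6.2, 6.6) in the exact shape consumed by the numerics and the main assembly of Sec. 6.
All bounds are quasipolynomial: `qpoly C x = exp (C (1+x)^C)`.
-/
import Claimed.Agent.R258.Pack004

set_option autoImplicit false
open MeasureTheory

namespace Claimed.Agent.R258

/-- **L6.1** -/
def LocSepGoal (c0 C0 : ℝ) : Prop :=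
  ∃ Cq : ℝ, 1 ≤ Cq ∧ ∀ (Hc τ2 Hed Hb : ℝ) (dmax : ℕ), 1 ≤ Hc → 0 < τ2 → τ2 ≤ 1 →
    qpoly Cq (Real.log Hc + Real.log (1 / τ2)) ≤ Hed → LocSepOk (loc_tagSys Hed Hb dmax) c0 C0 Hc τ2 dmax Hb

/-- **L6.6** -/
def LocSameGoal (c0 C0 : ℝ) : Prop :=
  ∃ Cs : ℝ, 1 ≤ Cs ∧ ∀ (Hc H0 Hb : ℝ) (dmax : ℕ), 3 * Hb ≤ Hc → Real.exp ((dmax : ℝ) + 2) ≤ Hc → Cs ≤ Hc →
    qpoly Cs (Real.log Hc) ≤ H0 → LocSameTagOk c0 C0 Hc H0 dmax Hb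

/-- **L6.2** -/
def LocPathGoal : Prop :=
  ∃ Cp : ℝ, 1 ≤ Cp ∧ ∀ (Hed Hb : ℝ) (dmax Lp : ℕ), 2 ≤ Hed → 1 ≤ Hb →
    ∃ Hpath : ℝ, 1 ≤ Hpath ∧ LocPathOk (loc_tagSys Hed Hb dmax) Lp Hpath ∧
      Real.log Hpath ≤ Cp * (((Lp : ℝ) + 1) * ((dmax : ℝ) + 1)) ^ 6 * (1 + Real.log Hed + Real.log Hb)

/-- the tags of charts of complexity `≤ D` satisfy the fixed basic bounds -/
def LocTagOkGoal : Prop :=
  ∀ (a : Chart) (D : ℝ) (i : Fin 4), a.Cplx D → (a.tag i).Ok ⌊Real.log D⌋₊ (3 * D)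

end Claimed.Agent.R258
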