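/-
Row 258 (S0498), Sec. 6 (architect helper68).  FILE Build: from a vertex system built on the base segment, a colouring and the generic closure (`tree_closure`) to `LocSys.Valid` and `LocSys.Inner`.
LEAF P-LOC-BUILD-A : `loc_leaf_len`, `rkM_range`, `BaseOk.bcat_ok`, `BaseOk.bcat_cnt`, `BaseOk.tag_ok`, `bases_card`, `BaseOk.bases_lab`.
LEAF P-LOC-BUILD-B : `BaseOk.valid`.
`BaseOk.inner`, `endpoint_of` are proved.   No paper reading.

PLANS.
* `loc_leaf_len`: as the invariant `LocSt.Inv.len` of `Loc/Search.lean`, but for EVERY `κ` (the invariant `lo ≤ hi ∧ ∑ lengths + clog₂ (hi-lo+1) ≤ clog₂ L` is preserved by `loc_step κ` whatever `κ` is).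
* `rkM_range`: `rank (cum m) = 𝓛 - m + 1 ∈ [1, 𝓛]` for `1 ≤ m ≤ 𝓛`; `rank (ball j G) = 𝓛 + j`, `1 ≤ j ≤ 4`.
* `bcat_ok`: fields of `X.Valid` (`lab_inj, col_chart, col_cplx` + `loc_cplx_mono`-type monotonicity [copy the 6 lines from `Loc/HelpMain.lean`], `col_bdd, col_eps`), `mem_bcols`; `tag_col` = `hB.tag_eq` (`vtx = id`); `vtx` = `hB.pres_iff`.
* `bcat_cnt`: `count` of `X.Valid` applied to `bcat.avail J` (cells of `T` are below the root), then `D ≤ pD ≤ n 0`.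
* `tag_ok`: `hB.verts`, `hB.tag_eq`, `col_cplx`, `htag`.
* `bases_card`: `Finset.card_image_le`, `Fintype.card (Fin 4) = 4`, `Nb_ge`.
* `bases_lab`: `N1 = max N0 (1 + sup of the labels of X.bcols)`.  `z l I` is `U l I` (`LabFree N0`, monotone in `N0`) or `B l I = cproj (cat l 0 I) I F - cproj (cat l 1 I) I F`: for `v ≥ N1` no column of `cat l c I` (`I ∈ T`) has the label `v`:
  `xv_cproj_mem_privZero`, `Submodule.sub_mem`; `LabFree N x ↔ ∀ v ≥ N, x ∈ xvPrivZero v` by definition (`xv_mem_privZero`).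
* `valid`: see the comments at the fields of `LocSys.Valid` (`Loc/Iface.lean`).  Old columns = `X.bcols` with the data of `X.bcat` (`h.le`); new columns: `h.new` (rank `= rkM f ∈ [1, 𝓛+4]`, `ε = 1`, born in `cells ⊆ S`), `vtx` by `h.ok.vtx`;
  `bud`: `CatOk.bud` of `Loc/HelpMain.lean` (move it if you need it earlier) with the count `hcnt J hJ (𝓛+5)` (all ranks are `≤ 𝓛+5`).
-/
import Claimed.Agent.R258.Loc.BaseSys
import Claimed.Agent.R258.Loc.HelpMain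
import Claimed.Agent.R258.Loc.S6aGoals

set_option autoImplicit false
open MeasureTheory

namespace Claimed.Agent.R258

/-- the length invariant of the search is preserved by a step, whatever the colour is -/
theorem loc_bld_step_len (L κ : ℕ) (st : LocSt)
    (h : ∑ l, (st.hist l).length + Nat.clog 2 (st.hi - st.lo + 1) ≤ Nat.clog 2 L) :
    ∑ l, ((loc_step κ st).hist l).length + Nat.clog 2 ((loc_step κ st).hi - (loc_step κ st).lo + 1) ≤ Nat.clog 2 L := by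
  unfold loc_step
  split_ifs with h1 h2
  · show ∑ l, (Function.update st.hist _ _ l).length + Nat.clog 2 ((st.lo + st.hi) / 2 - st.lo + 1) ≤ Nat.clog 2 L
    rw [loc_inv_sum_len]
    have hc := Nat.clog_of_two_le (b := 2) (n := st.hi - st.lo + 1) (by norm_num) (by omega)
    have he : (st.lo + st.hi) / 2 - st.lo + 1 = (st.hi - st.lo + 1 + 2 - 1) / 2 := by omega
    rw [he]
    omega
  · show ∑ l, (Function.update st.hist _ _ l).length + Nat.clog 2 (st.hi - ((st.lo + st.hi) / 2 + 1) + 1) ≤ Nat.clog 2 L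
    rw [loc_inv_sum_len]
    have hc := Nat.clog_of_two_le (b := 2) (n := st.hi - st.lo + 1) (by norm_num) (by omega)
    have he : st.hi - ((st.lo + st.hi) / 2 + 1) + 1 ≤ (st.hi - st.lo + 1 + 2 - 1) / 2 := by omega
    have hm := Nat.clog_mono_right 2 he
    omega
  · exact h

/-- total length of the histories of a search leaf, for every `κ` -/
theorem loc_leaf_len (L : ℕ) (hL : 1 ≤ L) (u0 : Fin 4) (κ : ℕ) :
    ∑ l, ((loc_leaf L u0 κ).hist l).length ≤ Nat.clog 2 L := by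
  have key : ∀ n : ℕ, ∑ l, (((loc_step κ)^[n] ⟨1, L, u0, none, fun _ => []⟩).hist l).length +
      Nat.clog 2 (((loc_step κ)^[n] ⟨1, L, u0, none, fun _ => []⟩).hi - ((loc_step κ)^[n] ⟨1, L, u0, none, fun _ => []⟩).lo + 1)
        ≤ Nat.clog 2 L := by
    intro n
    induction n with
    | zero =>
      have : L - 1 + 1 = L := by omega
      simp [this]
    | succ n ih =>
      rw [Function.iterate_succ_apply']
      exact loc_bld_step_len L κ _ ih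
  exact le_trans (Nat.le_add_right _ _) (key L)

namespace LocSys

/-- replace the catalog -/
def setCat {Tag : Type} (Y : LocSys Tag) (c : LocCat) : LocSys Tag := { Y with cat := c }

theorem setCat_catOk {Y : LocSys LocTag} {c c' : LocCat} {D Hc : ℝ} (h : Y.CatOk c' D Hc) : (Y.setCat c).CatOk c' D Hc :=
  ⟨h.1, h.2, h.3, h.4, h.5, h.6, h.7⟩

section setCat
variable {Y : LocSys LocTag}
theorem setCat_msk (c : LocCat) (f h I) : (Y.setCat c).msk f h I = Y.msk f h I := by cases f <;> rfl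
theorem setCat_glm (c c' : LocCat) (ρ l f pd I) : (Y.setCat c).glm c' ρ l f pd I = Y.glm c' ρ l f pd I := by
  unfold glm; rw [setCat_msk]; rfl
theorem setCat_gQ (c c' : LocCat) (ρ l f pd I) : (Y.setCat c).gQ c' ρ l f pd I = Y.gQ c' ρ l f pd I := by
  unfold gQ; rw [setCat_glm]
theorem setCat_gQbar (c c' : LocCat) (ρ l f I) : (Y.setCat c).gQbar c' ρ l f I = Y.gQbar c' ρ l f I := by
  unfold gQbar; simp only [setCat_gQ]; rfl
theorem setCat_gEval (c c' : LocCat) (ρ l I h) : (Y.setCat c).gEval c' ρ l I h = Y.gEval c' ρ l I h := by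
  induction h with
  | nil => rfl
  | cons e t ih =>
    obtain ⟨f, b⟩ := e
    cases b <;> simp only [gEval, ih, setCat_gQbar]
theorem setCat_named (c : LocCat) (I f) : (Y.setCat c).Named I f ↔ Y.Named I f := by cases f <;> exact Iff.rfl
theorem setCat_g (c c' : LocCat) (ρ bases A I) : (Y.setCat c).GClosedAt c' ρ bases A I ↔ Y.GClosedAt c' ρ bases A I := by
  unfold GClosedAt IsCfg Fails gResid gState
  simp only [setCat_named, setCat_gEval, setCat_gQ, setCat_msk]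
  exact Iff.rfl
end setCat

/-- `Y` is built on its base segment: vertices = labels of the basic columns on the tree -/
structure BaseOk (Y : LocSys LocTag) (c0 C0 q η LU : ℝ) (A : Acc) : Prop where
  q_ge : 2 ≤ q
  xv : Y.X.Valid c0 C0 q η A.D A.M LU
  pres_iff : ∀ I v, v ∈ Y.B.pres I ↔ I ≤ Y.X.root ∧
    ∃ l c, ∃ I' ∈ Y.X.T, ∃ Φ ∈ Y.X.cat l c I', Φ.lab = v ∧ I ≤ Φ.birth
  tag_eq : ∀ v, Y.B.tag v = (Y.X.chart v).tag (Y.X.bslot v)
  verts : ∀ v, v ∈ Y.B.verts → ∃ Φ ∈ Y.X.bcols, Φ.lab = v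
  adm : Y.p.Adm
  P_pos : 1 ≤ Y.p.P

variable {Y : LocSys LocTag} {c0 C0 q η LU k C3 : ℝ} {A : Acc}

theorem rkM_range (I : Cell) (f : LocFilt) (h : Y.Named I f) : 1 ≤ Y.rkM f ∧ Y.rkM f ≤ Y.p.L + 4 := by
  cases f with
  | cum m =>
    obtain ⟨h1, h2⟩ := h
    show 1 ≤ Y.p.L - m + 1 ∧ Y.p.L - m + 1 ≤ Y.p.L + 4
    omega
  | ball j G =>
    obtain ⟨h1, h2, -⟩ := h
    show 1 ≤ Y.p.L + j ∧ Y.p.L + j ≤ Y.p.L + 4
    omega

theorem BaseOk.bcat_ok (hB : Y.BaseOk c0 C0 q η LU A) (hnum : A.Num Y.p k C3) : Y.CatOk Y.X.bcat A.D A.Hc := by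
  have hX := hB.xv
  refine ⟨?_, ?_, ?_, ?_, ?_, ?_, ?_⟩
  · intro Φ hΦ Φ' hΦ' hl
    obtain ⟨l, c, I, -, h1⟩ := Y.X.mem_bcols.1 hΦ
    obtain ⟨l', c', I', -, h1'⟩ := Y.X.mem_bcols.1 hΦ'
    exact (hX.lab_inj l c I l' c' I' Φ h1 Φ' h1' hl).1
  · intro Φ hΦ
    obtain ⟨l, c, I, -, h1⟩ := Y.X.mem_bcols.1 hΦ
    exact hX.col_chart l c I Φ h1
  · intro Φ hΦ
    obtain ⟨l, c, I, -, h1⟩ := Y.X.mem_bcols.1 hΦ
    exact loc_cplx_mono (hX.col_cplx l c I Φ h1) hnum.Hc_ge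
  · intro Φ hΦ
    obtain ⟨l, c, I, -, h1⟩ := Y.X.mem_bcols.1 hΦ
    exact hX.col_bdd l c I Φ h1
  · intro Φ hΦ
    obtain ⟨l, c, I, -, h1⟩ := Y.X.mem_bcols.1 hΦ
    exact hX.col_eps l c I Φ h1
  · intro Φ _
    exact (hB.tag_eq Φ.lab).symm
  · intro Φ hΦ I hI hIb
    obtain ⟨l, c, I', hI', h1⟩ := Y.X.mem_bcols.1 hΦ
    exact (hB.pres_iff I Φ.lab).2 ⟨hI, l, c, I', hI', Φ, h1, rfl, hIb⟩

theorem BaseOk.bcat_cnt (hB : Y.BaseOk c0 C0 q η LU A) (hnum : A.Num Y.p k C3) (J : Cell) (hJ : J ≤ Y.X.root) :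
    ((Y.X.bcat.avail J).card : ℝ) ≤ A.n 0 := by
  classical
  have hX := hB.xv
  refine le_trans (hX.count J hJ (Y.X.bcat.avail J) ?_) (hnum.pD_ge.trans hnum.n_zero)
  intro Φ hΦ
  obtain ⟨h1, h2⟩ := Finset.mem_filter.1 hΦ
  obtain ⟨l, c, I', hI', h3⟩ := Y.X.mem_bcols.1 h1
  exact ⟨⟨l, c, I', hX.tree.le_root I' hI', h3⟩, h2⟩

theorem BaseOk.tag_ok (hB : Y.BaseOk c0 C0 q η LU A) (htag : LocTagOkGoal) (hd : A.dmax = ⌊Real.log A.D⌋₊) (hHb : A.Hb = 3 * A.D) :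
    ∀ v ∈ Y.B.verts, (Y.B.tag v).Ok A.dmax A.Hb := by
  intro v hv
  obtain ⟨Φ, hΦ, rfl⟩ := hB.verts v hv
  obtain ⟨l, c, I, -, h1⟩ := Y.X.mem_bcols.1 hΦ
  rw [hB.tag_eq, hd, hHb]
  exact htag _ _ _ (hB.xv.col_cplx l c I Φ h1)

theorem bases_card (hnum : A.Num Y.p k C3) (I : Cell) : ((Y.mainBases I).card : ℝ) ≤ A.Nb := by
  classical
  have h1 : (Y.mainBases I).card ≤ 4 := by
    unfold mainBases
    refine le_trans Finset.card_image_le ?_
    simp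
  have h2 : ((Y.mainBases I).card : ℝ) ≤ 4 := by exact_mod_cast h1
  exact h2.trans hnum.Nb_ge

theorem BaseOk.bases_lab (hB : Y.BaseOk c0 C0 q η LU A) (N0 : ℕ) (hU : ∀ l I, LabFree N0 (Y.X.U l I)) :
    ∃ N1, N0 ≤ N1 ∧ ∀ I ∈ Y.X.T, ∀ x ∈ Y.mainBases I, LabFree N1 x.2 := by
  classical
  refine ⟨max N0 (Y.X.bcols.sup (fun Φ => Φ.lab) + 1), le_max_left _ _, ?_⟩
  intro I hI x hx
  obtain ⟨l, -, rfl⟩ := Finset.mem_image.1 hx
  show LabFree _ (Y.X.arg Y.pat I l)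
  unfold BaseSeg.arg
  split_ifs with hp
  · intro v hv
    exact hU l I v (le_trans (le_max_left _ _) hv)
  · intro v hv
    have hne : ∀ c : Fin 2, ∀ Φ ∈ Y.X.cat l c I, Φ.lab ≠ v := by
      intro c Φ hΦ heq
      have h1 : Φ ∈ Y.X.bcols := Y.X.mem_bcols.2 ⟨l, c, I, hI, hΦ⟩
      have h2 : Φ.lab ≤ Y.X.bcols.sup (fun Φ => Φ.lab) := Finset.le_sup (f := fun Φ : Col => Φ.lab) h1
      have h3 : Y.X.bcols.sup (fun Φ => Φ.lab) + 1 ≤ v := le_trans (le_max_right _ _) hv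
      omega
    have hmem : Y.X.B l I ∈ xvPrivZero v :=
      Submodule.sub_mem _ (xv_cproj_mem_privZero I (hne 0) _) (xv_cproj_mem_privZero I (hne 1) _)
    exact hmem

theorem BaseOk.eng (hB : Y.BaseOk c0 C0 q η LU A) (hnum : A.Num Y.p k C3) (htag : LocTagOkGoal)
    (hd : A.dmax = ⌊Real.log A.D⌋₊) (hHb : A.Hb = 3 * A.D) (hsame : LocSameTagOk c0 C0 A.Hc A.H0 A.dmax A.Hb) :
    Y.Eng c0 C0 k C3 A :=
  ⟨hnum, ⟨q, η, LU, hB.q_ge, hB.xv⟩, hB.tag_ok htag hd hHb, hsame, hB.P_pos⟩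

/-- validity of the main construction -/
theorem BaseOk.valid (hB : Y.BaseOk c0 C0 q η LU A) (hnum : A.Num Y.p k C3) (hL : (Y.p.L : ℝ) ≤ A.Dm) {N1 : ℕ} {cells : Finset Cell}
    {c' : LocCat} (hcells : cells ⊆ Y.X.S) (h : Y.TreeExt Y.rkM A N1 Y.mainBases cells Y.X.bcat c') (hcnt : Y.CatCnt c' A.n) :
    (Y.setCat c').Valid A.Dm A.m0 := by
  classical
  have hX := hB.xv
  have hD : 0 < A.D := lt_of_lt_of_le (Real.exp_pos k) hnum.D_ge
  have hL1 : 1 ≤ Y.p.L := by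
    have := hB.adm.d0_ge
    exact Nat.one_le_pow _ _ (by omega)
  -- old columns have rank zero, new columns a rank in `[1, 𝓛+4]`
  have hold : ∀ Φ ∈ Y.X.bcols, c'.rank Φ.lab = 0 := fun Φ hΦ => h.le.rank Φ hΦ
  have hnew : ∀ Φ ∈ c'.cols, Φ ∉ Y.X.bcols → 1 ≤ c'.rank Φ.lab ∧ c'.rank Φ.lab ≤ Y.p.L + 4 := by
    intro Φ hΦ hn
    obtain ⟨-, -, -, f, hf, hr⟩ := h.new Φ hΦ hn
    rw [hr]
    exact rkM_range _ f hf
  have hrank : ∀ Φ ∈ c'.cols, c'.rank Φ.lab ≤ Y.p.L + 4 := by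
    intro Φ hΦ
    by_cases hb : Φ ∈ Y.X.bcols
    · rw [hold Φ hb]
      exact Nat.zero_le _
    · exact (hnew Φ hΦ hb).2
  refine ⟨hB.adm, hB.P_pos, hL, ?_, hB.pres_iff, ?_, ?_, hrank, ?_, h.ok.lab_inj, ?_⟩
  · intro κ l
    have h1 := loc_leaf_len Y.p.L hL1 (loc_u0 Y.pat) κ
    have h2 : ((loc_leaf Y.p.L (loc_u0 Y.pat) κ).hist l).length ≤ ∑ l, ((loc_leaf Y.p.L (loc_u0 Y.pat) κ).hist l).length :=
      Finset.single_le_sum (f := fun l => ((loc_leaf Y.p.L (loc_u0 Y.pat) κ).hist l).length) (fun _ _ => Nat.zero_le _)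
        (Finset.mem_univ l)
    have h3 := hnum.m0_ge
    show ((loc_leaf Y.p.L (loc_u0 Y.pat) κ).hist l).length ≤ A.m0
    omega
  · intro l c I hI Φ hΦ
    have hb : Φ ∈ Y.X.bcat.cols := Y.X.mem_bcols.2 ⟨l, c, I, hI, hΦ⟩
    exact ⟨h.le.sub hb, (h.le.slot Φ hb).trans (BaseSeg.bslot_eq hX hI hΦ), h.le.vtx Φ hb, h.le.rank Φ hb, h.le.chart Φ hb⟩
  · intro Φ hΦ hr
    by_contra hcon
    have hn : Φ ∉ Y.X.bcols := fun hb => hcon (Y.X.mem_bcols.1 hb)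
    have h1 := (hnew Φ hΦ hn).1
    have hr' : c'.rank Φ.lab = 0 := hr
    omega
  · intro Φ hΦ hr
    have hr' : 0 < c'.rank Φ.lab := hr
    have hn : Φ ∉ Y.X.bcols := by
      intro hb
      rw [hold Φ hb] at hr'
      exact lt_irrefl _ hr'
    obtain ⟨h1, h2, -, -⟩ := h.new Φ hΦ hn
    have h1' := hcells h1
    exact ⟨h2, h1', h.ok.vtx Φ hΦ _ (hX.tree.le_root _ (hX.S_sub h1')) le_rfl⟩
  · refine (setCat_catOk (c := c') h.ok).bud hD hnum.D_le hnum.Hc_le (N := A.n (Y.p.L + 5)) ?_ (hnum.n_le _ le_rfl)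
    intro J hJ
    refine le_trans (le_of_eq ?_) (hcnt J hJ (Y.p.L + 5))
    congr 2
    refine (Finset.filter_true_of_mem ?_).symm
    intro Φ hΦ
    exact (hrank Φ (Finset.mem_filter.1 hΦ).1).trans (by omega)

open Classical in
/-- the internal conclusions of the main construction -/
theorem BaseOk.inner (hB : Y.BaseOk c0 C0 q η LU A) (hnum : A.Num Y.p k C3) (htag : LocTagOkGoal)
    (hd : A.dmax = ⌊Real.log A.D⌋₊) (hHb : A.Hb = 3 * A.D) (hsame : LocSameTagOk c0 C0 A.Hc A.H0 A.dmax A.Hb)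
    (hsep : LocSepOk Y.B.T c0 C0 A.Hc A.τ2 A.dmax A.Hb) {N1 : ℕ} {c' : LocCat}
    (h : Y.TreeExt Y.rkM A N1 Y.mainBases (Y.X.S.filter Y.CS.good) Y.X.bcat c') (hcnt : Y.CatCnt c' A.n) :
    (Y.setCat c').Inner c0 C0 k C3 A := by
  refine ⟨hnum, ⟨q, η, LU, hB.q_ge, hB.xv⟩, hB.tag_ok htag hd hHb, h.ok.tag_col, h.ok.cplx, hsep, hsame, hcnt, ?_⟩
  apply closed_of_g
  intro I hI hg
  exact (setCat_g _ _ _ _ _ _).2 (h.closed I (Finset.mem_filter.2 ⟨hI, hg⟩))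

/-- **P6**: endpoint splittings from Lemma 6.4 (2) and Lemma 6.2 -/
theorem endpoint_of {Hpath : ℝ} (hpath : LocPathOk Y.B.T ((Y.p.d0 + 1) * Y.p.b1 + Y.p.Hmax) Hpath) : Y.EndpointGoal Hpath := by
  intro G h I b hh hb
  exact hpath I.depth _ _ (Y.CS.mask_path G h I b hh hb)

end LocSys

end Claimed.Agent.R258
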