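/-
Row 258 (S0498), Sec. 6.6, block [LOC-TR] = Lemma 6.9 (owner: helper28).  FILE TrRec: ITERATION ALONG THE SCHEDULE (Step 3 of `Loc/Transfer.lean`).
* `TrCtx`        : the standing hypotheses on one active good cell;
* `trT`          : the form of a state `(ha, hcl, hdl)` of the schedule;
* `tr_stepC/D`   : one step = exact identity (15) + far bands (`tr_far`);
* `tr_rec`       : the whole schedule, error `≤ (#steps) (P+1)² trK ‖S_a‖ ‖S_b‖`.
-/
import Claimed.Agent.R258.Loc.TrFar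

set_option autoImplicit false
open MeasureTheory

namespace Claimed.Agent.R258

/-- removing the near part of a double sum -/
theorem loc_tr_far_sum (N : ℕ) (F : ℕ → ℕ → ℂ) (K : ℝ) (hK : 0 ≤ K) (near : ℕ → ℕ → Prop) [∀ p, DecidablePred (near p)]
    (h : ∀ p ∈ Finset.Icc 1 N, ∀ q ∈ Finset.Icc 1 N, ¬ near p q → ‖F p q‖ ≤ K) :
    ‖∑ p ∈ Finset.Icc 1 N, ∑ q ∈ Finset.Icc 1 N, F p q -
      ∑ p ∈ Finset.Icc 1 N, ∑ q ∈ (Finset.Icc 1 N).filter (near p), F p q‖ ≤ (N : ℝ) ^ 2 * K := by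
  rw [← Finset.sum_sub_distrib]
  have e : ∀ p ∈ Finset.Icc 1 N, ∑ q ∈ Finset.Icc 1 N, F p q - ∑ q ∈ (Finset.Icc 1 N).filter (near p), F p q =
      ∑ q ∈ (Finset.Icc 1 N).filter (fun q => ¬ near p q), F p q := by
    intro p _
    rw [← Finset.sum_filter_add_sum_filter_not (Finset.Icc 1 N) (near p)]
    ring
  rw [Finset.sum_congr rfl e]
  calc ‖∑ p ∈ Finset.Icc 1 N, ∑ q ∈ (Finset.Icc 1 N).filter (fun q => ¬ near p q), F p q‖
      ≤ ∑ p ∈ Finset.Icc 1 N, ∑ _q ∈ Finset.Icc 1 N, K := by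
        refine (norm_sum_le _ _).trans (Finset.sum_le_sum fun p hp => ?_)
        refine (norm_sum_le _ _).trans ?_
        calc ∑ q ∈ (Finset.Icc 1 N).filter (fun q => ¬ near p q), ‖F p q‖
            ≤ ∑ _q ∈ (Finset.Icc 1 N).filter (fun q => ¬ near p q), K :=
              Finset.sum_le_sum fun q hq => h p hp q (Finset.mem_filter.1 hq).1 (Finset.mem_filter.1 hq).2
          _ ≤ ∑ _q ∈ Finset.Icc 1 N, K :=
              Finset.sum_le_sum_of_subset_of_nonneg (Finset.filter_subset _ _) fun _ _ _ => hK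
    _ = (N : ℝ) ^ 2 * K := by
        simp only [Finset.sum_const, Nat.card_Icc, Nat.add_sub_cancel, nsmul_eq_mul]
        ring

/-- the coefficients of (15) are bounded by one -/
theorem loc_tr_coef_le {P pa pc : ℕ} (hP : 1 ≤ P) (ha : pa ∈ Finset.Icc 1 (P + 1)) (hc : pc ∈ Finset.Icc 1 (P + 1)) :
    ‖((((pa : ℤ) - (pc : ℤ) : ℤ) : ℂ) / (P : ℂ))‖ ≤ 1 := by
  rw [Finset.mem_Icc] at ha hc
  rw [norm_div, Complex.norm_intCast, Complex.norm_natCast, div_le_one (by positivity)]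
  have : |(pa : ℤ) - (pc : ℤ)| ≤ (P : ℤ) := by
    rw [abs_le]; constructor <;> omega
  exact_mod_cast this

namespace LocSys

/-- the standing hypotheses of the transfer lemma on one active good cell -/
structure TrCtx (Y : LocSys LocTag) (c0 C0 k C3 : ℝ) (A : Acc) (hc : LocCat) (bases : Cell → Finset (Fin 4 × XV)) (I : Cell)
    (a b c d : Fin 4) (Sa : XV) : Prop where
  hc0 : 0 < c0
  hV : Y.Valid A.Dm A.m0
  hI : Y.Inner c0 C0 k C3 A
  hH : Y.HelpValid hc A.Dm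
  hHI : Y.HInner hc bases A
  hIS : I ∈ Y.X.S
  hg : Y.CS.good I
  h4 : slot4 a b c d
  hpc : Y.pat c = false
  hpd : Y.pat d = false
  hb : (a, Sa) ∈ bases I

/-- the form of a state of the schedule -/
noncomputable def trT (Y : LocSys LocTag) (hc : LocCat) (a b c d : Fin 4) (Sa Sb : XV) (I : Cell) (ha hcl hdl : List LocFilt) : ℂ :=
  formV I (Y.X.w I) (put4 a b c (Y.evalD hc a I ha Sa) Sb (Y.evalP c I hcl (Y.X.B c I)) (Y.evalP d I hdl (Y.X.B d I)))

/-- the error of one step -/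
noncomputable def trE (Y : LocSys LocTag) (A : Acc) (I : Cell) (Sa Sb : XV) : ℝ :=
  ((Y.p.P + 1 : ℕ) : ℝ) ^ 2 * (Y.trK A * n2 I Sa * n2 I Sb)

variable {Y : LocSys LocTag} {c0 C0 k C3 : ℝ} {A : Acc} {hc : LocCat} {bases : Cell → Finset (Fin 4 × XV)} {I : Cell}
  {a b c d : Fin 4} {Sa : XV}

theorem trE_nonneg (hI : Y.Inner c0 C0 k C3 A) (I : Cell) (Sa Sb : XV) : 0 ≤ Y.trE A I Sa Sb := by
  unfold trE
  have := trK_nonneg hI
  have := xv_n2_nonneg I Sa
  have := xv_n2_nonneg I Sb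
  positivity

/-- exact step, outgoing filter on `c` -/
theorem tr_stepC_exact (X : Y.TrCtx c0 C0 k C3 A hc bases I a b c d Sa) (Sb : XV) (f : LocFilt) (ha hcl hdl : List LocFilt) :
    Y.trT hc a b c d Sa Sb I ha (f :: hcl) hdl = Y.trT hc a b c d Sa Sb I (f :: ha) hcl hdl +
      ∑ pa ∈ Finset.Icc 1 (Y.p.P + 1), ∑ pc ∈ Finset.Icc 1 (Y.p.P + 1),
        ((((pa : ℤ) - (pc : ℤ) : ℤ) : ℂ) / (Y.p.P : ℂ)) *
          formV I (Y.X.w I) (Y.stepArgs hc a b c d Sa Sb I ⟨true, f, ha, hcl, hdl⟩ pa pc) := by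
  have h := Y.tr_step X.hc0 (X.hI.adm X.hIS) X.hV.P_pos hc X.h4.2.1 f
    (put4 a b c 0 Sb 0 (Y.evalP d I hdl (Y.X.B d I))) (Y.evalD hc a I ha Sa) (Y.evalP c I hcl (Y.X.B c I))
  simp only [loc_tr_upd_a X.h4, loc_tr_upd_c X.h4] at h
  exact h

/-- exact step, outgoing filter on `d` -/
theorem tr_stepD_exact (X : Y.TrCtx c0 C0 k C3 A hc bases I a b c d Sa) (Sb : XV) (g : LocFilt) (ha hcl hdl : List LocFilt) :
    Y.trT hc a b c d Sa Sb I ha hcl (g :: hdl) = Y.trT hc a b c d Sa Sb I (g :: ha) hcl hdl +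
      ∑ pa ∈ Finset.Icc 1 (Y.p.P + 1), ∑ pc ∈ Finset.Icc 1 (Y.p.P + 1),
        ((((pa : ℤ) - (pc : ℤ) : ℤ) : ℂ) / (Y.p.P : ℂ)) *
          formV I (Y.X.w I) (Y.stepArgs hc a b c d Sa Sb I ⟨false, g, ha, hcl, hdl⟩ pa pc) := by
  have h := Y.tr_step X.hc0 (X.hI.adm X.hIS) X.hV.P_pos hc X.h4.2.2.1 g
    (put4 a b c 0 Sb (Y.evalP c I hcl (Y.X.B c I)) 0) (Y.evalD hc a I ha Sa) (Y.evalP d I hdl (Y.X.B d I))
  simp only [loc_tr_upd_a X.h4, loc_tr_upd_d X.h4] at h
  exact h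

/-- one step, outgoing filter on `c` -/
theorem tr_stepC (X : Y.TrCtx c0 C0 k C3 A hc bases I a b c d Sa) (Sb : XV) {f : LocFilt} {ha hcl hdl : List LocFilt}
    (hf : Y.Named I f) (lha : ha.length ≤ A.m0) (hha : ∀ e ∈ ha, Y.Named I e) (lhc : hcl.length ≤ A.m0)
    (hhc : ∀ e ∈ hcl, Y.Named I e) (hhead : ∀ g ∈ hdl.head?, g.rank Y.p < f.rank Y.p) :
    ‖Y.trT hc a b c d Sa Sb I ha (f :: hcl) hdl - Y.trT hc a b c d Sa Sb I (f :: ha) hcl hdl -
      Y.nearBand hc a b c d Sa Sb I ⟨true, f, ha, hcl, hdl⟩‖ ≤ Y.trE A I Sa Sb := by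
  rw [tr_stepC_exact X, add_sub_cancel_left]
  unfold nearBand trE
  have hK : 0 ≤ Y.trK A * n2 I Sa * n2 I Sb :=
    mul_nonneg (mul_nonneg (trK_nonneg X.hI) (xv_n2_nonneg _ _)) (xv_n2_nonneg _ _)
  refine loc_tr_far_sum (Y.p.P + 1) (fun pa pc => ((((pa : ℤ) - (pc : ℤ) : ℤ) : ℂ) / (Y.p.P : ℂ)) *
      formV I (Y.X.w I) (Y.stepArgs hc a b c d Sa Sb I ⟨true, f, ha, hcl, hdl⟩ pa pc)) _ hK
      (fun pa pc => pa ≤ pc + 2 ∧ pc ≤ pa + 2) ?_
  intro pa hpa pc hpc hfar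
  rw [norm_mul]
  have h1 := loc_tr_coef_le X.hV.P_pos hpa hpc
  have h2 := tr_far X.hc0 X.hV X.hI X.hH X.hHI X.hIS X.hg X.h4 X.hpc X.hpd (Sb := Sb) X.hb hf lha hha lhc hhc hhead
    (Finset.mem_Icc.1 hpa).2 (Finset.mem_Icc.1 hpc).2 hfar
    (Y.stepArgs hc a b c d Sa Sb I ⟨true, f, ha, hcl, hdl⟩ pa pc)
    (loc_tr_put4_a _ _ _ _) (loc_tr_put4_b X.h4 _ _ _ _) (loc_tr_put4_c X.h4 _ _ _ _) (loc_tr_put4_d X.h4 _ _ _ _)
  calc _ ≤ 1 * (Y.trK A * n2 I Sa * n2 I Sb) := mul_le_mul h1 h2 (norm_nonneg _) zero_le_one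
    _ = _ := one_mul _

/-- one step, outgoing filter on `d` -/
theorem tr_stepD (X : Y.TrCtx c0 C0 k C3 A hc bases I a b c d Sa) (Sb : XV) {g : LocFilt} {ha hcl hdl : List LocFilt}
    (hf : Y.Named I g) (lha : ha.length ≤ A.m0) (hha : ∀ e ∈ ha, Y.Named I e) (lhd : hdl.length ≤ A.m0)
    (hhd : ∀ e ∈ hdl, Y.Named I e) (hhead : ∀ f ∈ hcl.head?, f.rank Y.p < g.rank Y.p) :
    ‖Y.trT hc a b c d Sa Sb I ha hcl (g :: hdl) - Y.trT hc a b c d Sa Sb I (g :: ha) hcl hdl -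
      Y.nearBand hc a b c d Sa Sb I ⟨false, g, ha, hcl, hdl⟩‖ ≤ Y.trE A I Sa Sb := by
  rw [tr_stepD_exact X, add_sub_cancel_left]
  unfold nearBand trE
  have hK : 0 ≤ Y.trK A * n2 I Sa * n2 I Sb :=
    mul_nonneg (mul_nonneg (trK_nonneg X.hI) (xv_n2_nonneg _ _)) (xv_n2_nonneg _ _)
  refine loc_tr_far_sum (Y.p.P + 1) (fun pa pc => ((((pa : ℤ) - (pc : ℤ) : ℤ) : ℂ) / (Y.p.P : ℂ)) *
      formV I (Y.X.w I) (Y.stepArgs hc a b c d Sa Sb I ⟨false, g, ha, hcl, hdl⟩ pa pc)) _ hK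
      (fun pa pc => pa ≤ pc + 2 ∧ pc ≤ pa + 2) ?_
  intro pa hpa pc hpc hfar
  rw [norm_mul]
  have h1 := loc_tr_coef_le X.hV.P_pos hpa hpc
  have h2 := tr_far X.hc0 X.hV X.hI X.hH X.hHI X.hIS X.hg (loc_tr_slot4_swap X.h4) X.hpd X.hpc (Sb := Sb) X.hb hf lha hha
    lhd hhd hhead (Finset.mem_Icc.1 hpa).2 (Finset.mem_Icc.1 hpc).2 hfar
    (Y.stepArgs hc a b c d Sa Sb I ⟨false, g, ha, hcl, hdl⟩ pa pc)
    (loc_tr_put4_a _ _ _ _) (loc_tr_put4_b X.h4 _ _ _ _) (loc_tr_put4_d X.h4 _ _ _ _) (loc_tr_put4_c X.h4 _ _ _ _)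
  calc _ ≤ 1 * (Y.trK A * n2 I Sa * n2 I Sb) := mul_le_mul h1 h2 (norm_nonneg _) zero_le_one
    _ = _ := one_mul _

/-- the end of the schedule -/
theorem tr_end (X : Y.TrCtx c0 C0 k C3 A hc bases I a b c d Sa) (Sb : XV) (ha : List LocFilt) :
    Y.trT hc a b c d Sa Sb I ha [] [] =
      formV I (Y.X.w I) (put4 a b c (Y.evalD hc a I ha Sa) Sb (Y.X.B c I) (Y.X.B d I)) := by
  have hw := X.hI.adm X.hIS
  unfold trT
  simp only [evalP]
  rw [← loc_tr_upd_d X.h4 _ _ _ (0 : XV) (restr I.set (Y.X.B d I)), loc_form_restr X.hc0 hw, loc_tr_upd_d X.h4,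
    ← loc_tr_upd_c X.h4 _ _ (0 : XV) _ (restr I.set (Y.X.B c I)), loc_form_restr X.hc0 hw, loc_tr_upd_c X.h4]

/-- **the whole schedule** -/
theorem tr_rec (X : Y.TrCtx c0 C0 k C3 A hc bases I a b c d Sa) (Sb : XV) (n : ℕ) :
    ∀ ha hcl hdl : List LocFilt, hcl.length + hdl.length = n → ha.length + hcl.length + hdl.length ≤ A.m0 →
    (∀ e ∈ ha, Y.Named I e) → (∀ e ∈ hcl, Y.Named I e) → (∀ e ∈ hdl, Y.Named I e) →
    (∀ f ∈ hcl, ∀ g ∈ hdl, f.rank Y.p ≠ g.rank Y.p) →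
    ‖Y.trT hc a b c d Sa Sb I ha hcl hdl -
      (formV I (Y.X.w I) (put4 a b c (Y.evalD hc a I (loc_tfinal Y.p ha hcl hdl) Sa) Sb (Y.X.B c I) (Y.X.B d I)) +
        ((loc_tsteps Y.p ha hcl hdl).map fun t => Y.nearBand hc a b c d Sa Sb I t).sum)‖ ≤ n * Y.trE A I Sa Sb := by
  induction n with
  | zero =>
    intro ha hcl hdl hn _ _ _ _ _
    have h1 : hcl = [] := List.length_eq_zero_iff.1 (by omega)
    have h2 : hdl = [] := List.length_eq_zero_iff.1 (by omega)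
    subst h1 h2
    rw [loc_tsteps, loc_tfinal, tr_end X]
    simp
  | succ n ih =>
    intro ha hcl hdl hn hlen nha nhc nhd hcross
    -- the two kinds of steps
    have stepC : ∀ (f : LocFilt) (t : List LocFilt), hcl = f :: t → (∀ g ∈ hdl.head?, g.rank Y.p < f.rank Y.p) →
        ‖Y.trT hc a b c d Sa Sb I ha hcl hdl -
          (formV I (Y.X.w I) (put4 a b c (Y.evalD hc a I (loc_tfinal Y.p (f :: ha) t hdl) Sa) Sb (Y.X.B c I) (Y.X.B d I)) +
            (Y.nearBand hc a b c d Sa Sb I ⟨true, f, ha, t, hdl⟩ +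
            ((loc_tsteps Y.p (f :: ha) t hdl).map fun t => Y.nearBand hc a b c d Sa Sb I t).sum))‖
          ≤ ((n + 1 : ℕ) : ℝ) * Y.trE A I Sa Sb := by
      intro f t e hhead
      subst e
      simp only [List.length_cons] at hn hlen
      have i1 := ih (f :: ha) t hdl (by omega) (by simp only [List.length_cons]; omega)
        (by
          intro e he
          rcases List.mem_cons.1 he with rfl | he
          · exact nhc _ List.mem_cons_self
          · exact nha e he)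
        (fun e he => nhc e (List.mem_cons_of_mem _ he)) nhd
        (fun f' hf' g hg => hcross f' (List.mem_cons_of_mem _ hf') g hg)
      have i2 := tr_stepC X Sb (nhc f List.mem_cons_self) (by omega) nha (hcl := t) (by omega)
        (fun e he => nhc e (List.mem_cons_of_mem _ he)) hhead
      have := norm_add_le_of_le i1 i2
      push_cast
      refine le_trans (le_of_eq ?_) (this.trans (le_of_eq ?_))
      · congr 1; ring
      · ring
    have stepD : ∀ (g : LocFilt) (t : List LocFilt), hdl = g :: t → (∀ f ∈ hcl.head?, f.rank Y.p < g.rank Y.p) →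
        ‖Y.trT hc a b c d Sa Sb I ha hcl hdl -
          (formV I (Y.X.w I) (put4 a b c (Y.evalD hc a I (loc_tfinal Y.p (g :: ha) hcl t) Sa) Sb (Y.X.B c I) (Y.X.B d I)) +
            (Y.nearBand hc a b c d Sa Sb I ⟨false, g, ha, hcl, t⟩ +
            ((loc_tsteps Y.p (g :: ha) hcl t).map fun t => Y.nearBand hc a b c d Sa Sb I t).sum))‖
          ≤ ((n + 1 : ℕ) : ℝ) * Y.trE A I Sa Sb := by
      intro g t e hhead
      subst e
      simp only [List.length_cons] at hn hlen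
      have i1 := ih (g :: ha) hcl t (by omega) (by simp only [List.length_cons]; omega)
        (by
          intro e he
          rcases List.mem_cons.1 he with rfl | he
          · exact nhd _ List.mem_cons_self
          · exact nha e he)
        nhc (fun e he => nhd e (List.mem_cons_of_mem _ he))
        (fun f' hf' g' hg' => hcross f' hf' g' (List.mem_cons_of_mem _ hg'))
      have i2 := tr_stepD X Sb (nhd g List.mem_cons_self) (by omega) nha (hdl := t) (by omega)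
        (fun e he => nhd e (List.mem_cons_of_mem _ he)) hhead
      have := norm_add_le_of_le i1 i2
      push_cast
      refine le_trans (le_of_eq ?_) (this.trans (le_of_eq ?_))
      · congr 1; ring
      · ring
    cases hcl with
    | nil =>
      cases hdl with
      | nil => simp at hn
      | cons g t =>
        rw [loc_tsteps, loc_tfinal, List.map_cons, List.sum_cons]
        exact stepD g t rfl (by simp)
    | cons f t =>
      cases hdl with
      | nil =>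
        rw [loc_tsteps, loc_tfinal, List.map_cons, List.sum_cons]
        exact stepC f t rfl (by simp)
      | cons g t' =>
        rw [loc_tsteps, loc_tfinal]
        split_ifs with hr
        · rw [List.map_cons, List.sum_cons]
          exact stepC f t rfl (by simpa using hr)
        · rw [List.map_cons, List.sum_cons]
          refine stepD g t' rfl ?_
          have := hcross f List.mem_cons_self g List.mem_cons_self
          simp only [List.head?_cons, Option.mem_def, Option.some.injEq, forall_eq']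
          omega

end LocSys

end Claimed.Agent.R258
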