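/-
Row 258 (S0498), Sec. 6.6, block [LOC-TR] = Lemma 6.9 (owner: helper28).  FILE TrExp: EXPANSION OF THE COMPLEMENTS (Step 0 of `Loc/Transfer.lean`)
and the combinatorial facts on the positive histories of a search leaf (names, ranks, lengths).
-/
import Claimed.Agent.R258.Loc.TrRec

set_option autoImplicit false
open MeasureTheory

namespace Claimed.Agent.R258

/-! ### the signed list `loc_expand` -/

theorem loc_tr_expand_length (h : LocHist) : (loc_expand h).length ≤ 2 ^ h.length := by
  induction h with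
  | nil => simp [loc_expand]
  | cons e t ih =>
    obtain ⟨f, b⟩ := e
    cases b
    · simp only [loc_expand, List.length_map, List.length_cons, pow_succ]; omega
    · simp only [loc_expand, List.length_append, List.length_map, List.length_cons, pow_succ]; omega

theorem loc_tr_expand_mem (h : LocHist) : ∀ x ∈ loc_expand h,
    (x.1 = 1 ∨ x.1 = -1) ∧ x.2.length ≤ h.length ∧ ∀ f ∈ x.2, ∃ e ∈ h, e.1 = f := by
  induction h with
  | nil =>
    intro x hx
    simp only [loc_expand, List.mem_singleton] at hx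
    subst hx
    simp
  | cons e t ih =>
    obtain ⟨f, b⟩ := e
    have key : ∀ y ∈ loc_expand t, ∀ s : ℤ, (s = y.1 ∨ s = -y.1) →
        (s = 1 ∨ s = -1) ∧ (f :: y.2).length ≤ ((f, b) :: t).length ∧ ∀ g ∈ f :: y.2, ∃ e ∈ (f, b) :: t, e.1 = g := by
      intro y hy s hs
      obtain ⟨h1, h2, h3⟩ := ih y hy
      refine ⟨by omega, by simpa using h2, ?_⟩
      intro g hg
      rcases List.mem_cons.1 hg with rfl | hg
      · exact ⟨_, List.mem_cons_self, rfl⟩
      · obtain ⟨e, he, he'⟩ := h3 g hg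
        exact ⟨e, List.mem_cons_of_mem _ he, he'⟩
    intro x hx
    cases b
    · simp only [loc_expand, List.mem_map] at hx
      obtain ⟨y, hy, rfl⟩ := hx
      exact key y hy _ (Or.inl rfl)
    · simp only [loc_expand, List.mem_append, List.mem_map] at hx
      rcases hx with hx | ⟨y, hy, rfl⟩
      · obtain ⟨h1, h2, h3⟩ := ih x hx
        refine ⟨h1, by simp only [List.length_cons]; omega, ?_⟩
        intro g hg
        obtain ⟨e, he, he'⟩ := h3 g hg
        exact ⟨e, List.mem_cons_of_mem _ he, he'⟩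
      · exact key y hy _ (Or.inr rfl)

namespace LocSys

section expand
variable {Tag : Type} (Y : LocSys Tag)

theorem tr_evalH_expand (l : Fin 4) (I : Cell) (h : LocHist) (x : XV) :
    Y.evalH l I h x = ((loc_expand h).map fun y => ((y.1 : ℤ) : ℂ) • Y.evalP l I y.2 x).sum := by
  induction h with
  | nil => simp [loc_expand, evalH, evalP]
  | cons e t ih =>
    obtain ⟨f, b⟩ := e
    have e1 : Y.Qbar l f I (Y.evalH l I t x) =
        ((loc_expand t).map fun y => ((y.1 : ℤ) : ℂ) • Y.evalP l I (f :: y.2) x).sum := by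
      rw [ih, map_list_sum, List.map_map]
      congr 1
      refine List.map_congr_left fun y _ => ?_
      simp only [Function.comp_apply, map_smul, evalP, ContinuousLinearMap.comp_apply]
    cases b
    · simp only [loc_expand, evalH, ContinuousLinearMap.comp_apply, List.map_map]
      rw [e1]
      rfl
    · simp only [loc_expand, evalH, ContinuousLinearMap.comp_apply, List.map_append, List.sum_append, List.map_map, sub_apply]
      rw [e1]
      have e2 : restr I.set (Y.evalH l I t x) = Y.evalH l I t x := by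
        rw [evalH_eq]; exact Y.restr_gEval Y.cat Y.rkM l I t x
      rw [e2, ih, sub_eq_add_neg, List.sum_neg, List.map_map]
      congr 2
      refine List.map_congr_left fun y _ => ?_
      simp

theorem tr_Z_expand (κ : ℕ) (l : Fin 4) (G : ℕ) (I : Cell) :
    Y.Z κ l G I = ((Y.posHist κ l G).map fun x => ((x.1 : ℤ) : ℂ) • Y.evalP l I x.2 (Y.z l I)).sum := by
  unfold Z Zsh posHist
  rw [tr_evalH_expand, map_list_sum, List.map_map, List.map_map]
  congr 1
  refine List.map_congr_left fun y _ => ?_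
  simp only [Function.comp_apply, map_smul, evalP, ContinuousLinearMap.comp_apply]

end expand

section leaf
variable {Y : LocSys LocTag}

theorem tr_leaf_inv {κ : ℕ} (hκ : κ ∈ Finset.Icc 1 Y.p.L) : (Y.leaf κ).Inv Y.p.L (loc_u0 Y.pat) κ :=
  (loc_leaf_inv Y.p.L (loc_u0 Y.pat) κ (Finset.mem_Icc.1 hκ).1 (Finset.mem_Icc.1 hκ).2).1

/-- signs, lengths and members of the positive histories -/
theorem tr_pos_mem (κ : ℕ) (l : Fin 4) (G : ℕ) : ∀ x ∈ Y.posHist κ l G,
    (x.1 = 1 ∨ x.1 = -1) ∧ x.2.length ≤ (Y.hist κ l).length + 1 ∧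
      ∀ f ∈ x.2, f = Y.outer κ l G ∨ ∃ e ∈ Y.hist κ l, e.1 = f := by
  intro x hx
  simp only [posHist, List.mem_map] at hx
  obtain ⟨y, hy, rfl⟩ := hx
  obtain ⟨h1, h2, h3⟩ := loc_tr_expand_mem _ y hy
  refine ⟨h1, by simpa using h2, ?_⟩
  intro f hf
  rcases List.mem_cons.1 hf with rfl | hf
  · exact Or.inl rfl
  · exact Or.inr (h3 f hf)

theorem tr_pos_length (κ : ℕ) (l : Fin 4) (G : ℕ) : (Y.posHist κ l G).length ≤ 2 ^ (Y.hist κ l).length := by
  simp only [posHist, List.length_map]
  exact loc_tr_expand_length _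

/-- all members are named filters of the cell -/
theorem tr_pos_named {κ : ℕ} (hκ : κ ∈ Finset.Icc 1 Y.p.L) {I : Cell} {G : ℕ} (hG : G ∈ Y.cur κ I) (l : Fin 4) {f : LocFilt}
    (hf : f = Y.outer κ l G ∨ ∃ e ∈ Y.hist κ l, e.1 = f) : Y.Named I f := by
  rcases hf with rfl | ⟨e, he, rfl⟩
  · exact ⟨(loc_jb_range _ l).1, (loc_jb_range _ l).2, (mem_cur.1 hG).1⟩
  · obtain ⟨m, hm, h1, h2, -⟩ := (tr_leaf_inv hκ).named l e he
    rw [hm]
    exact ⟨h1, h2.le⟩

/-- distinct ranks in distinct slots -/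
theorem tr_pos_cross {κ : ℕ} (hκ : κ ∈ Finset.Icc 1 Y.p.L) {G : ℕ} {l l' : Fin 4} (hl : l ≠ l') {f g : LocFilt}
    (hf : f = Y.outer κ l G ∨ ∃ e ∈ Y.hist κ l, e.1 = f) (hg : g = Y.outer κ l' G ∨ ∃ e ∈ Y.hist κ l', e.1 = g) :
    f.rank Y.p ≠ g.rank Y.p := by
  have inv := tr_leaf_inv (Y := Y) hκ
  rcases hf with rfl | ⟨e, he, rfl⟩
  · rcases hg with rfl | ⟨e', he', rfl⟩
    · intro h
      simp only [outer, LocFilt.rank] at h
      exact hl (loc_jb_inj (Y.leaf κ) l l' (by omega))
    · obtain ⟨m, hm, h1, h2, -⟩ := inv.named l' e' he'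
      rw [hm]
      have := (loc_jb_range (Y.leaf κ) l).1
      simp only [outer, LocFilt.rank]
      omega
  · obtain ⟨m, hm, h1, h2, -⟩ := inv.named l e he
    rcases hg with rfl | ⟨e', he', rfl⟩
    · rw [hm]
      have := (loc_jb_range (Y.leaf κ) l').1
      simp only [outer, LocFilt.rank]
      omega
    · obtain ⟨m', hm', h1', h2', -⟩ := inv.named l' e' he'
      have hne := inv.cross l l' hl e he e' he'
      rw [hm, hm'] at hne ⊢
      have : m ≠ m' := fun h => hne (by rw [h])
      simp only [LocFilt.rank]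
      omega

/-- total length of two histories -/
theorem tr_hist_len {κ : ℕ} (hκ : κ ∈ Finset.Icc 1 Y.p.L) {l l' : Fin 4} (hl : l ≠ l') :
    (Y.hist κ l).length + (Y.hist κ l').length ≤ Nat.clog 2 Y.p.L := by
  have inv := (tr_leaf_inv (Y := Y) hκ).len
  have h1 : ∑ j ∈ ({l, l'} : Finset (Fin 4)), ((Y.leaf κ).hist j).length ≤ ∑ j, ((Y.leaf κ).hist j).length :=
    Finset.sum_le_sum_of_subset (Finset.subset_univ _)
  rw [Finset.sum_pair hl] at h1
  simp only [hist]
  omega

end leaf

end LocSys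

end Claimed.Agent.R258
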