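/-
Row 258 (S0498), Sec. 6.6, block [LOC-TR] = Lemma 6.9 (owner: helper28).  FILE TrMain: assembly on one cell and the numerics (Step 4).
-/
import Claimed.Agent.R258.Loc.TrExp

set_option autoImplicit false
open MeasureTheory

namespace Claimed.Agent.R258

theorem loc_tr_list_diff_le {ι : Type*} (L : List ι) (f g : ι → ℂ) (K : ℝ) (h : ∀ x ∈ L, ‖f x - g x‖ ≤ K) :
    ‖(L.map f).sum - (L.map g).sum‖ ≤ L.length * K := by
  induction L with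
  | nil => simp
  | cons x t ih =>
    rw [List.map_cons, List.sum_cons, List.map_cons, List.sum_cons, List.length_cons]
    have h1 := h x List.mem_cons_self
    have h2 := ih fun y hy => h y (List.mem_cons_of_mem _ hy)
    have := norm_add_le_of_le h1 h2
    push_cast
    refine le_trans (le_of_eq ?_) (this.trans (le_of_eq ?_))
    · congr 1; ring
    · ring

namespace LocSys

variable {Y : LocSys LocTag} {c0 C0 k C3 : ℝ} {A : Acc} {hc : LocCat} {bases : Cell → Finset (Fin 4 × XV)} {I : Cell}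
  {a b c d : Fin 4} {Sa : XV}

/-- Step 0: bilinear expansion of the two complementary slots -/
theorem tr_expand2 (X : Y.TrCtx c0 C0 k C3 A hc bases I a b c d Sa) (Sb : XV) (κ G : ℕ) :
    formV I (Y.X.w I) (put4 a b c Sa Sb (Y.Z κ c G I) (Y.Z κ d G I)) =
      ((Y.posHist κ c G).map fun x => ((Y.posHist κ d G).map fun x' =>
        ((x.1 * x'.1 : ℤ) : ℂ) * Y.trT hc a b c d Sa Sb I [] x.2 x'.2).sum).sum := by
  have hw := X.hI.adm X.hIS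
  rw [← loc_tr_upd_c X.h4 Sa Sb (0 : XV) (Y.Z κ d G I) (Y.Z κ c G I), tr_Z_expand Y κ c G I,
    loc_tr_form_list X.hc0 hw]
  congr 1
  refine List.map_congr_left fun x _ => ?_
  rw [loc_tr_upd_c X.h4, ← loc_tr_upd_d X.h4 Sa Sb _ (0 : XV) (Y.Z κ d G I), tr_Z_expand Y κ d G I,
    loc_tr_form_list X.hc0 hw, ← List.sum_map_mul_left]
  congr 1
  refine List.map_congr_left fun x' _ => ?_
  rw [loc_tr_upd_d X.h4, z_eq_B c I X.hpc, z_eq_B d I X.hpd]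
  unfold trT
  simp only [evalD]
  rw [← loc_tr_upd_a X.h4 (0 : XV) Sb _ _ (restr I.set Sa), loc_form_restr X.hc0 hw, loc_tr_upd_a X.h4]
  push_cast
  ring

/-- **Lemma 6.9 on one cell**, before the numerics -/
theorem tr_cell (X : Y.TrCtx c0 C0 k C3 A hc bases I a b c d Sa) (Sb : XV) {κ G : ℕ} (hκ : κ ∈ Finset.Icc 1 Y.p.L)
    (hG : G ∈ Y.cur κ I) :
    ‖formV I (Y.X.w I) (put4 a b c Sa Sb (Y.Z κ c G I) (Y.Z κ d G I)) - Y.transferSum hc κ a b c d G Sa Sb I‖ ≤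
      (2 : ℝ) ^ A.m0 * ((A.m0 : ℝ) * Y.trE A I Sa Sb) := by
  have hcd : c ≠ d := X.h4.2.2.2.2.2
  have hE := trE_nonneg X.hI I Sa Sb
  have hlen := tr_hist_len (Y := Y) hκ hcd
  have hm0 := X.hI.num.m0_ge
  rw [tr_expand2 X]
  unfold transferSum
  have inner : ∀ x ∈ Y.posHist κ c G, ∀ x' ∈ Y.posHist κ d G,
      ‖((x.1 * x'.1 : ℤ) : ℂ) * Y.trT hc a b c d Sa Sb I [] x.2 x'.2 -
        ((x.1 * x'.1 : ℤ) : ℂ) * (Y.mainTerm hc a b c d Sa Sb I x.2 x'.2 +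
          ((loc_tsteps Y.p [] x.2 x'.2).map fun t => Y.nearBand hc a b c d Sa Sb I t).sum)‖ ≤ (A.m0 : ℝ) * Y.trE A I Sa Sb := by
    intro x hx x' hx'
    obtain ⟨s1, l1, m1⟩ := tr_pos_mem κ c G x hx
    obtain ⟨s2, l2, m2⟩ := tr_pos_mem κ d G x' hx'
    have hs : ‖((x.1 * x'.1 : ℤ) : ℂ)‖ = 1 := by
      rcases s1 with s1 | s1 <;> rcases s2 with s2 | s2 <;> simp [s1, s2]
    rw [← mul_sub, norm_mul, hs, one_mul]
    have := tr_rec X Sb _ [] x.2 x'.2 rfl (by simp only [List.length_nil]; omega) (by simp)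
      (fun e he => tr_pos_named hκ hG c (m1 e he)) (fun e he => tr_pos_named hκ hG d (m2 e he))
      (fun f hf g hg => tr_pos_cross hκ hcd (m1 f hf) (m2 g hg))
    refine this.trans (mul_le_mul_of_nonneg_right ?_ hE)
    have : x.2.length + x'.2.length ≤ A.m0 := by omega
    exact_mod_cast this
  have outer := loc_tr_list_diff_le (Y.posHist κ c G) _ _ _ fun x hx =>
    loc_tr_list_diff_le (Y.posHist κ d G) _ _ _ (inner x hx)
  refine outer.trans ?_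
  rw [← mul_assoc]
  refine mul_le_mul_of_nonneg_right ?_ (mul_nonneg (Nat.cast_nonneg _) hE)
  have h1 := tr_pos_length (Y := Y) κ c G
  have h2 := tr_pos_length (Y := Y) κ d G
  have h3 : (Y.posHist κ c G).length * (Y.posHist κ d G).length ≤ 2 ^ A.m0 := by
    calc _ ≤ 2 ^ (Y.hist κ c).length * 2 ^ (Y.hist κ d).length := Nat.mul_le_mul h1 h2
      _ = 2 ^ ((Y.hist κ c).length + (Y.hist κ d).length) := (pow_add _ _ _).symm
      _ ≤ 2 ^ A.m0 := Nat.pow_le_pow_right (by norm_num) (by omega)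
  exact_mod_cast h3

/-- abstract form of the numerics -/
theorem tr_num_abs {U W D n τ2 τ3 big R : ℝ} (hU0 : 0 ≤ U) (hU : U ≤ W) (hD : 1 ≤ D) (hn : 1 ≤ n) (t2 : 0 < τ2) (t3 : 0 < τ3)
    (hbig : 10 ^ 6 * (D ^ 2 * W) ≤ big) (h3 : τ3 * big ≤ R) (h2 : τ2 * (big * n ^ 2) ≤ R) :
    U * (16 * τ3 + 16 * D ^ 2 * n * τ2) ≤ R := by
  have hW : 0 ≤ W := hU0.trans hU
  have hD2 : 1 ≤ D ^ 2 := one_le_pow₀ hD
  have hnn : n ≤ n ^ 2 := by nlinarith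
  have a1 : W ≤ D ^ 2 * W := by nlinarith
  have a2 : τ3 * (10 ^ 6 * W) ≤ R := by
    refine le_trans (mul_le_mul_of_nonneg_left ?_ t3.le) h3
    linarith
  have a3 : τ2 * (10 ^ 6 * (D ^ 2 * W) * n) ≤ R := by
    refine le_trans (mul_le_mul_of_nonneg_left ?_ t2.le) h2
    have hb0 : 0 ≤ 10 ^ 6 * (D ^ 2 * W) := by positivity
    calc 10 ^ 6 * (D ^ 2 * W) * n ≤ big * n := mul_le_mul_of_nonneg_right hbig (by linarith)
      _ ≤ big * n ^ 2 := mul_le_mul_of_nonneg_left hnn (hb0.trans hbig)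
  have hK : 0 ≤ 16 * τ3 + 16 * D ^ 2 * n * τ2 := by positivity
  have hR : 0 ≤ R := le_trans (by positivity) a2
  calc U * (16 * τ3 + 16 * D ^ 2 * n * τ2) ≤ W * (16 * τ3 + 16 * D ^ 2 * n * τ2) := mul_le_mul_of_nonneg_right hU hK
    _ = (16 / 10 ^ 6) * (τ3 * (10 ^ 6 * W)) + (16 / 10 ^ 6) * (τ2 * (10 ^ 6 * (D ^ 2 * W) * n)) := by ring
    _ ≤ (16 / 10 ^ 6) * R + (16 / 10 ^ 6) * R := by
        apply add_le_add <;> exact mul_le_mul_of_nonneg_left (by assumption) (by norm_num)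
    _ ≤ R := by linarith

/-- Step 4: the numerics -/
theorem tr_num (hI : Y.Inner c0 C0 k C3 A) :
    (2 : ℝ) ^ A.m0 * ((A.m0 : ℝ) * (((Y.p.P + 1 : ℕ) : ℝ) ^ 2 * Y.trK A)) ≤ A.D ^ (-C3) := by
  have hD := hI.D_ge_one
  have hM := hI.num.M_ge
  have hn := hI.n_ge_one (Y.p.L + 5)
  have h3 := (hI.num.τ3_small).trans (min_le_right _ _)
  have h2 := (hI.num.τ2_small).trans (min_le_right _ _)
  have t2 := hI.num.τ2_pos
  have t3 := hI.num.τ3_pos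
  have hU : (2 : ℝ) ^ A.m0 * ((A.m0 : ℝ) * ((Y.p.P : ℝ) + 1) ^ 2) ≤ 4 ^ A.m0 * ((A.m0 : ℝ) + 1) * ((Y.p.P : ℝ) + 1) ^ 2 := by
    have e1 : (2 : ℝ) ^ A.m0 ≤ 4 ^ A.m0 := pow_le_pow_left₀ (by norm_num) (by norm_num) _
    have e2 : (A.m0 : ℝ) * ((Y.p.P : ℝ) + 1) ^ 2 ≤ ((A.m0 : ℝ) + 1) * ((Y.p.P : ℝ) + 1) ^ 2 :=
      mul_le_mul_of_nonneg_right (by linarith) (by positivity)
    calc _ ≤ (4 : ℝ) ^ A.m0 * (((A.m0 : ℝ) + 1) * ((Y.p.P : ℝ) + 1) ^ 2) := mul_le_mul e1 e2 (by positivity) (by positivity)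
      _ = _ := by ring
  have hbig : 10 ^ 6 * (A.D ^ 2 * (4 ^ A.m0 * ((A.m0 : ℝ) + 1) * ((Y.p.P : ℝ) + 1) ^ 2)) ≤ A.big Y.p := by
    unfold Acc.big
    have e1 : A.D ^ 2 ≤ (A.D + 1) ^ 6 := by
      calc A.D ^ 2 ≤ (A.D + 1) ^ 2 := pow_le_pow_left₀ (by linarith) (by linarith) _
        _ ≤ (A.D + 1) ^ 6 := pow_le_pow_right₀ (by linarith) (by norm_num)
    have e2 : (1 : ℝ) ≤ A.M * ((Y.p.L : ℝ) + 1) * (((Y.p.d0 : ℝ) ^ 8 + 1) ^ 2) := by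
      have f1 : (1 : ℝ) ≤ (Y.p.L : ℝ) + 1 := by
        have : (0 : ℝ) ≤ (Y.p.L : ℝ) := Nat.cast_nonneg _
        linarith
      have f2 : (1 : ℝ) ≤ ((Y.p.d0 : ℝ) ^ 8 + 1) ^ 2 := by
        have : (0 : ℝ) ≤ (Y.p.d0 : ℝ) ^ 8 := by positivity
        exact one_le_pow₀ (by linarith)
      calc (1 : ℝ) = 1 * 1 * 1 := by norm_num
        _ ≤ _ := mul_le_mul (mul_le_mul hM f1 (by norm_num) (by linarith)) f2 (by norm_num) (by positivity)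
    have hW : (0 : ℝ) ≤ 4 ^ A.m0 * ((A.m0 : ℝ) + 1) * ((Y.p.P : ℝ) + 1) ^ 2 := by positivity
    calc 10 ^ 6 * (A.D ^ 2 * (4 ^ A.m0 * ((A.m0 : ℝ) + 1) * ((Y.p.P : ℝ) + 1) ^ 2))
        ≤ 10 ^ 6 * ((A.D + 1) ^ 6 * (4 ^ A.m0 * ((A.m0 : ℝ) + 1) * ((Y.p.P : ℝ) + 1) ^ 2)) := by
          exact mul_le_mul_of_nonneg_left (mul_le_mul_of_nonneg_right e1 hW) (by norm_num)
      _ = 1 * (10 ^ 6 * ((A.D + 1) ^ 6 * (4 ^ A.m0 * ((A.m0 : ℝ) + 1) * ((Y.p.P : ℝ) + 1) ^ 2))) := (one_mul _).symm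
      _ ≤ (A.M * ((Y.p.L : ℝ) + 1) * (((Y.p.d0 : ℝ) ^ 8 + 1) ^ 2)) *
            (10 ^ 6 * ((A.D + 1) ^ 6 * (4 ^ A.m0 * ((A.m0 : ℝ) + 1) * ((Y.p.P : ℝ) + 1) ^ 2))) :=
          mul_le_mul_of_nonneg_right e2 (by positivity)
      _ = _ := by ring
  have := tr_num_abs (by positivity) hU hD hn t2 t3 hbig h3 h2
  unfold trK
  push_cast
  refine le_trans (le_of_eq ?_) this
  ring

/-- **Lemma 6.9 on one cell** -/
theorem tr_cell' (X : Y.TrCtx c0 C0 k C3 A hc bases I a b c d Sa) (Sb : XV) {κ G : ℕ} (hκ : κ ∈ Finset.Icc 1 Y.p.L)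
    (hG : G ∈ Y.cur κ I) :
    ‖formV I (Y.X.w I) (put4 a b c Sa Sb (Y.Z κ c G I) (Y.Z κ d G I)) - Y.transferSum hc κ a b c d G Sa Sb I‖ ≤
      A.D ^ (-C3) * n2 I Sa * n2 I Sb := by
  refine (tr_cell X Sb hκ hG).trans ?_
  unfold trE
  have := tr_num X.hI
  have n3 := xv_n2_nonneg I Sa
  have n4 := xv_n2_nonneg I Sb
  calc (2 : ℝ) ^ A.m0 * ((A.m0 : ℝ) * (((Y.p.P + 1 : ℕ) : ℝ) ^ 2 * (Y.trK A * n2 I Sa * n2 I Sb)))
      = ((2 : ℝ) ^ A.m0 * ((A.m0 : ℝ) * (((Y.p.P + 1 : ℕ) : ℝ) ^ 2 * Y.trK A))) * (n2 I Sa * n2 I Sb) := by ring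
    _ ≤ A.D ^ (-C3) * (n2 I Sa * n2 I Sb) := mul_le_mul_of_nonneg_right this (mul_nonneg n3 n4)
    _ = _ := by ring

end LocSys

end Claimed.Agent.R258
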