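/-
Row 258 (S0498), Sec. 6.6 (home architect helper68).  BLOCK [LOC-TR] = **Lemma 6.9** (`lem:transfer`, localization.tex l.969-1098): transfer of the complementary filters to a side.
TOP STATEMENT: `LocSys.Inner.transfer` below.  ARCHITECT+PROVER block (about 1500 lines): cut it into files `Loc/Tr*.lean`, prefix `loc_tr_`, keep the top statement verbatim.
The paper need not be read: the complete proof is below.  Everything happens on ONE active good cell `I` and for ONE current group `G ∈ Y.cur κ I`; it is multilinear algebra with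
`Loc/Pair.lean` (proved), `Loc/Filt.lean`, `Loc/BaseFacts.lean`, `Loc/Search.lean` (statements may be used as black boxes).

NOTATION.  `H = formV I (Y.X.w I)`, admissible kernel by `hI.adm`.  `P = Y.p.P ≥ 1`.  Main filters `Qm, Qbar, evalP` (catalog `Y.cat`), helper filters `Qh hc, Qhbar hc, evalD hc`; both are instances of the
generic family of `Loc/Gen.lean` (`Qm_eq, Qh_eq, evalP_eq, evalD_eq`, ...), for which `Loc/Filt.lean` gives contractions in `n2 I`, supports and the expansions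
`gQ_expand`, `gQbar_expand` (coefficient `ℓ¹` norm `≤ D √n_r ‖input‖`).  Catalog invariants: `hI.catOk hV`, `hI.catCnt`, `HInner.catOk`, `HInner.catCnt`.

STEP 0 (expansion of the complements).  `evalH l I h = ∑_{x ∈ loc_expand h} x.1 • evalP l I x.2` on vectors (induction on `h`; `(restr I - Q̄) y = y - Q̄ y` for `y` supported on `I`, `restr_gEval`).  Hence
  `Z κ l G I = ∑_{x ∈ posHist κ l G} x.1 • evalP l I x.2 (B l I)` for `pat l = false` (`z_eq_B`), and by bilinearity in the slots `c, d`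
  `H(Sa,Sb,Z_c,Z_d) = ∑_x ∑_{x'} x.1 x'.1 H(Sa, Sb, evalP c I x.2 B_c, evalP d I x'.2 B_d)`.   `(loc_expand h).length ≤ 2^{h.length}`, every `x.2` is a sublist of `h.map Prod.fst`.
STEP 1 (the identity (15), exact, no nestedness needed).  For operators `Q' p` (`0 ≤ p ≤ P+1`), `Q' 0 = 0`, `Q' (P+1) = restr I`, bands `A^p = Q' p - Q' (p-1)`:
  `∑_{p=1}^{P+1} A^p = restr I` (telescoping), `Q̄ = P⁻¹ ∑_{p=1}^P Q' p = ∑_{p=1}^{P+1} ((P-p+1)/P) A^p` (Abel summation).  Therefore, with `x_a, x_c` arbitrary,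
  `H(x_a, x_b, Q̄_c x_c, x_d) - H(Q̄_a x_a, x_b, x_c, x_d) = ∑_{p,q=1}^{P+1} ((p-q)/P) H(A_a^p x_a, x_b, A_c^q x_c, x_d)`      (`loc_form_sum`, `loc_form_smul`, `loc_form_restr`).
STEP 2 (far bands).  A step `t : LocTStep` is LEGAL at `(I,G)` if `t.f` and all members of `t.ha, t.hc, t.hd` are `Y.Named I`, `t.ha.length, t.hc.length, t.hd.length ≤ A.m0`, and the head `g` of the history of the OTHER
  complementary slot (if any) has `g.rank < t.f.rank`.  Say `t.fromC = true` (the other case is symmetric under `c ↔ d`).  `x_a = evalD hc a I t.ha Sa`, `x_c = evalP c I t.hc B_c`, `x_d = evalP d I t.hd B_d`;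
  `n2 x_a ≤ n2 Sa`, `n2 x_c, n2 x_d ≤ 2` (`z_size`).  `|p-q|/P ≤ 2`.
  (a) `p > q+2`.  Then `q ≤ P-2`, `A_c^q x_c = Qm c f q x_c - Qm' c f (q-1) x_c`: expand both by `gQ_expand`: sources `Φ ∈ lmM c f q I`, `ℓ¹ ≤ D √n(rank f) · 2 ≤ D √n(𝓛+4) · 2`.
      `A_a^p x_a = (restr - Qh a f (p-1)) x_a - (restr - Qh' a f p) x_a`, `3 ≤ p-1 ≤ P`; the second term is `0` if `p = P+1`.  `hHI.closed` with `x = (a, Sa)`, `h = t.ha`, `pd ∈ {p-1, p}`:
      the source is a main column, `slot = c ≠ a`, `vtx ∈ msk f (pad0+q) ⊆ msk f (pad0+pd)` (`msk_mono_pad`).  Tolerance `tol (𝓛+5) n2 Sa`, `tol_cancel` with `r = 𝓛+4`.  Result `≤ 2·2·2·(2 τ₃)·n2 Sa·n2 Sb·2`.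
  (b) `q > p+2`.  Then `p ≤ P-2`, `A_a^p x_a` is primal, `A_c^q x_c = (restr - Qm c f (q-1)) x_c - (restr - Qm' c f q) x_c`, `3 ≤ q-1 ≤ P`.  Expand the outer primal source of `x_d`:
      `t.hd = g :: _`: `gQbar_expand`, sources `Ψ ∈ lmM d g P I`, rank `≤ rank g < rank f`, `ℓ¹ ≤ D √n(rank g)·2`;   `t.hd = []`: `x_d = B_d`, `basic_expand`, rank `0 < rank f`, `ℓ¹ ≤ D`.
      NEAR `Ψ` (`∃ v ∈ msk f (pad0+p) I, d_{depth I}(tag v, tag (vtx Ψ)) ≤ 1`): then `vtx Ψ ∈ msk f (pad0+p+1) I` (`cumMask_nbr`, resp. `mask_nbr` at the actual use `use G I`; `pad0+p < Hmax`; `vtx Ψ ∈ pres I` by `CatOk.vtx`),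
      hence in the masks at `q-1, q`; `hI.closed` with `l = c`, `h = pos t.hc`, spectators `A_a^p x_a` (`n2 ≤ 2 n2 Sa`) and `Sb`; `tol_cancel`.
      FAR `Ψ`: expand `A_a^p x_a` by `gQ_expand` for the helper catalog (sources `Θ ∈ lmH hc a f p I`, `ℓ¹ ≤ D √n(𝓛+5) n2 Sa` each); every pair `(Θ,Ψ)` has tags at distance `> 1`: `loc_pair_of_sep` (`hI.sep`, `tag_col`, `CatOk.tag_ok`),
      spectators `Sb`, `A_c^q x_c` (`n2 ≤ 4`).
  Total over the `(P+1)²` pairs:  `‖∑_{far (p,q)} …‖ ≤ (P+1)² (100 τ₃ + 100 D² n(𝓛+5) τ₂) n2 Sa n2 Sb`.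
STEP 3 (iteration along the schedule).  By induction on `hc.length + hd.length` (the recursion of `loc_tsteps`, `loc_tfinal`), for Named lists with pairwise distinct ranks between `hc` and `hd`:
  `H(evalD ha Sa, Sb, evalP c hc B_c, evalP d hd B_d) = H(evalD (loc_tfinal p ha hc hd) Sa, Sb, B_c, B_d) + ∑_{t ∈ loc_tsteps p ha hc hd} (nearBand t + far t)`,  all steps legal;  `ha` grows by one per step, so all
  lengths are `≤ (hist κ c).length + (hist κ d).length + 2 ≤ Nat.clog 2 𝓛 + 2 ≤ A.m0` (`LocSt.Inv.len`, `hI.num.m0_ge`).   Distinct ranks: `LocSt.Inv.cross`, `LocSt.Inv.named` (cumulative ranks `𝓛-m+1`, `1 ≤ m < 𝓛`, are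
  injective in `m` and `≤ 𝓛`), ball ranks `𝓛 + jb` with `loc_jb_inj`, `loc_jb_range`.   Named: `LocSt.Inv.named`; `use G I` from `mem_cur`.
PROVED (helper28): `Loc/TrAlg` (algebra), `TrStep` (identity (15)), `TrFar` (far bands), `TrRec` (schedule), `TrExp` (Step 0, leaf facts), `TrMain` (assembly, numerics).
STEP 4 (numerics).  `2^{m0}` pairs of signs, `≤ m0` steps:  `2^{m0} m0 (P+1)² (100 τ₃ + 100 D² n(𝓛+5) τ₂) ≤ A.D^(-C3)` from `hI.num.τ3_small`, `hI.num.τ2_small` (`Acc.big`).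
-/
import Claimed.Agent.R258.Loc.TrMain

set_option autoImplicit false
open MeasureTheory

namespace Claimed.Agent.R258

namespace LocSys

variable {Y : LocSys LocTag} {c0 C0 k C3 : ℝ} {A : Acc}

/-- **Lemma 6.9** -/
theorem Inner.transfer (hc0 : 0 < c0) (hV : Y.Valid A.Dm A.m0) (hI : Y.Inner c0 C0 k C3 A) (hpat : PatOk Y.pat) {hc : LocCat}
    {bases : Cell → Finset (Fin 4 × XV)} (hH : Y.HelpValid hc A.Dm) (hHI : Y.HInner hc bases A) {κ : ℕ} {a b c d : Fin 4}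
    {Sa Sb : ℕ → Cell → XV} (hκ : κ ∈ Finset.Icc 1 Y.p.L) (h4 : slot4 a b c d) (hpc : Y.pat c = false) (hpd : Y.pat d = false)
    (hb : ∀ I ∈ Y.X.S, ∀ G ∈ Y.cur κ I, (a, Sa G I) ∈ bases I) :
    Y.TransferGoal hc κ a b c d Sa Sb (A.D ^ (-C3)) := by
  intro I hIS hg G hG
  exact tr_cell' ⟨hc0, hV, hI, hH, hHI, hIS, hg, h4, hpc, hpd, hb I hIS G hG⟩ (Sb G I) hκ hG

end LocSys

end Claimed.Agent.R258
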