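/-
Row 258 (S0498), Sec. 6 (architect helper68).  FILE HelpMain: **`LocHelperGoal`** = helper closure (Lemma 6.7, second half) + Lemma 6.9.
The assembly is proved from `tree_closure` (Loc/Tree.lean), `hclosed_of_g` (Loc/Cfg.lean), `Inner.transfer` (Loc/Transfer.lean) and the small LEAF P-LOC-BUD (`CatOk.bud`, `Inner.avail_card`).
-/
import Claimed.Agent.R258.Loc.Tree
import Claimed.Agent.R258.Loc.Transfer

set_option autoImplicit false
open MeasureTheory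

namespace Claimed.Agent.R258

/-- complexity is monotone -/
theorem loc_cplx_mono {a : Chart} {H H' : ℝ} (h : a.Cplx H) (hH : H ≤ H') : a.Cplx H' := by
  have h0 : 0 < H := lt_of_lt_of_le (Real.exp_pos 2) h.H_ge
  refine ⟨h.H_ge.trans hH, h.dim.trans (Real.log_le_log h0 hH), fun i j => (h.height i j).trans hH, h.smooth,
    fun x hx i => (h.supp x hx i).trans hH, fun n x => (h.deriv n x).trans ?_, h.unit⟩
  have hc : (0 : ℝ) ≤ cGev * ((n : ℝ) + 1) := by unfold cGev; positivity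
  gcongr

namespace LocSys

variable {Y : LocSys LocTag} {c0 C0 k C3 : ℝ} {A : Acc}

/-- the budget of Sec. 3.2 of a catalog.
PLAN: `chart, bdd` from `CatOk`; `cplx` by `loc_cplx_mono`; `eps`: `Dm⁻¹ ≤ D⁻¹`; `count`: the finite set is contained in `c.avail I`. -/
theorem CatOk.bud {c : LocCat} {D Hc Dm N : ℝ} (hc : Y.CatOk c D Hc) (hD : 0 < D) (hDm : D ≤ Dm) (hHc : Hc ≤ Dm)
    (hcnt : ∀ J, J ≤ Y.X.root → ((c.avail J).card : ℝ) ≤ N) (hN : N ≤ Dm) : Bud Y.X.root c.avail c.chart Dm := by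
  classical
  have hm : ∀ I, ∀ Φ ∈ c.avail I, Φ ∈ c.cols := fun I Φ hΦ => (Finset.mem_filter.1 hΦ).1
  refine ⟨fun I Φ hΦ => hc.chart Φ (hm I Φ hΦ), fun I Φ hΦ => loc_cplx_mono (hc.cplx Φ (hm I Φ hΦ)) hHc,
    fun I Φ hΦ => hc.bdd Φ (hm I Φ hΦ), fun I Φ hΦ => ?_, ?_⟩
  · obtain ⟨h1, h2⟩ := hc.eps Φ (hm I Φ hΦ)
    exact ⟨(inv_anti₀ hD hDm).trans h1, h2⟩
  · intro I hI F hF
    have hsub : F ⊆ c.avail I := by
      intro Φ hΦ
      obtain ⟨⟨I', _, h1⟩, h2⟩ := hF Φ hΦ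
      exact Finset.mem_filter.2 ⟨hm I' Φ h1, h2⟩
    exact (le_trans (by exact_mod_cast Finset.card_le_card hsub) (hcnt I hI)).trans hN

/-- all main columns on a path.  PLAN: `hI.cnt J hJ (𝓛+4)`, the filter is everything by `hV.rank_le`. -/
theorem Inner.avail_card (hV : Y.Valid A.Dm A.m0) (hI : Y.Inner c0 C0 k C3 A) {J : Cell} (hJ : J ≤ Y.X.root) :
    ((Y.cat.avail J).card : ℝ) ≤ A.n (Y.p.L + 4) := by
  classical
  refine le_trans ?_ (hI.cnt J hJ (Y.p.L + 4))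
  have hsub : Y.cat.avail J ⊆ (Y.cat.avail J).filter fun Φ => Y.cat.rank Φ.lab ≤ Y.p.L + 4 := by
    intro Φ hΦ
    exact Finset.mem_filter.2 ⟨hΦ, hV.rank_le Φ (Finset.mem_filter.1 hΦ).1⟩
  have := Finset.card_le_card hsub
  convert (Nat.cast_le (α := ℝ)).2 this using 1

end LocSys

open LocSys in
/-- **helper closure and transfer** -/
theorem loc_helperGoal (c0 C0 : ℝ) (hc0 : 0 < c0) : LocHelperGoal c0 C0 := by
  classical
  intro k C3 Y A hpat hV hI bases N0 hb hlab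
  have hE := hI.eng hV
  have hcat := hI.catOk hV
  have hsub : Y.X.S.filter Y.CS.good ⊆ Y.X.S := Finset.filter_subset _ _
  have hρ : ∀ (I : Cell) (f : LocFilt), Y.Named I f → 1 ≤ Y.rkH f ∧ Y.rkH f ≤ Y.p.L + 5 := by
    intro I f _; simp only [rkH, hrank]; omega
  obtain ⟨hc, h⟩ := tree_closure (N0 := N0) hc0 hE hcat hρ (Y.X.S.filter Y.CS.good) hsub (fun I _ => hb I)
    (fun I _ => hlab I)
  have hcnt : ∀ J, J ≤ Y.X.root → ((hc.avail J).card : ℝ) ≤ A.n (Y.p.L + 5) := fun J hJ =>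
    h.cnt_help hE hsub (fun J hJ => hI.avail_card hV hJ) hJ
  have hext : Y.cat.Ext hc Y.hrank := by
    refine ⟨h.le.sub, h.le.slot, h.le.vtx, h.le.rank, h.le.chart, ?_⟩
    intro Φ hΦ hn
    obtain ⟨-, -, -, f, -, hf⟩ := h.new Φ hΦ hn
    exact hf
  have hH : Y.HelpValid hc A.Dm := by
    refine ⟨hext, ?_, h.ok.lab_inj, h.ok.bud hI.D_pos hI.num.D_le hI.num.Hc_le hcnt (hI.num.n_le _ le_rfl)⟩
    intro Φ hΦ hn
    obtain ⟨h1, h2, -, -⟩ := h.new Φ hΦ hn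
    have h1' := hsub h1
    exact ⟨h2, h1', h.ok.vtx Φ hΦ _ (hI.le_root (hI.S_sub h1')) le_rfl⟩
  have hHI : Y.HInner hc bases A := by
    refine ⟨h.ok.tag_col, h.ok.cplx, hcnt, hclosed_of_g hV hext ?_⟩
    intro I hI' hg
    exact h.closed I (Finset.mem_filter.2 ⟨hI', hg⟩)
  refine ⟨hc, hH, fun Φ hΦ hn => (h.new Φ hΦ hn).2.2.1, ?_⟩
  intro κ a b c d Sa Sb hκ h4 hpc hpd hbs
  exact hI.transfer hc0 hV hpat hH hHI hκ h4 hpc hpd hbs

end Claimed.Agent.R258
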