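/-
Row 258 (S0498), Sec. 6.5 (architect helper68).  FILE LeafAbs: the two ABSTRACT multilinear steps at a search leaf (proof of Prop. 6.8, paragraphs 3-6).
LEAF P-LOC-LEAFABS (both theorems).  No paper reading: pure algebra with `Loc/Pair.lean` (`loc_form_sum`, `loc_form_smul`, `loc_form_replace`, `PairSmall.le`, `loc_oth_le`).

`loc_insert_third`.  `x u = ∑ a Φ • Φ.vec I` is the expanded upper guard.  Put `x^Φ = update x u (Φ.vec I)`.  By linearity in the slot `u`
   `H(x) - ∑_G H(update x t (y G)) = ∑_Φ a Φ (H(x^Φ) - ∑_G H(update x^Φ t (y G)))`        (`Function.update_comm`, `u ≠ t`).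
 * `g Φ = none` (old source): every one of the `1 + #gs` terms has `Φ.vec I` in the slot `u` and `x lw` in the slot `lw`: `≤ e1 cc²` each (`hold`, `loc_oth_le`).
 * `g Φ = some G`: `H(x^Φ) - H(update x^Φ t (y G))` is `≤ e2 cc²` (`loc_form_replace` with `hmatch`), the other `G' ∈ gs.erase G` give `≤ e3 cc²` each (`hmis`).
`loc_postcompose`.  `z_k l = if l.val < k then x' l else x l`, `z_0 = x`, `z_4 = x'`, `z_{k+1} = update z_k k (x' k)`; for `k ≠ t` `loc_form_replace` (slot `t` holds `x t = x' t`), for `k = t` nothing changes.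
-/
import Claimed.Agent.R258.Loc.Pair

set_option autoImplicit false
open MeasureTheory

namespace Claimed.Agent.R258

variable {c0 C0 : ℝ} {I : Cell} {w : ℝ × ℝ → ℂ}

/-- expansion in one slot -/
theorem loc_la_expand (hc0 : 0 < c0) (hw : Admissible c0 C0 I w) (z : Fin 4 → XV) (u : Fin 4) (A : Finset Col) (a : Col → ℂ)
    (hzu : z u = ∑ Φ ∈ A, a Φ • Φ.vec I) :
    formV I w z = ∑ Φ ∈ A, a Φ * formV I w (Function.update z u (Φ.vec I)) := by
  have hz : z = Function.update z u (∑ Φ ∈ A, a Φ • Φ.vec I) := by rw [← hzu, Function.update_eq_self]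
  conv_lhs => rw [hz]
  rw [loc_form_sum hc0 hw]
  exact Finset.sum_congr rfl fun Φ _ => loc_form_smul hc0 hw z u (a Φ) (Φ.vec I)

/-- insertion of the first ball projection in the third slot, summed over the current groups -/
theorem loc_insert_third (hc0 : 0 < c0) (hw : Admissible c0 C0 I w) (x : Fin 4 → XV) (u t lw : Fin 4) (hut : u ≠ t)
    (hul : u ≠ lw) (htl : t ≠ lw) (gs : Finset ℕ) (y : ℕ → XV) (cc : ℝ) (hx : ∀ l, n2 I (x l) ≤ cc)
    (hy : ∀ G ∈ gs, n2 I (y G) ≤ cc) (A : Finset Col) (a : Col → ℂ) (hxu : x u = ∑ Φ ∈ A, a Φ • Φ.vec I)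
    (g : Col → Option ℕ) (hg : ∀ Φ ∈ A, ∀ G, g Φ = some G → G ∈ gs) (e1 e2 e3 : ℝ) (he1 : 0 ≤ e1) (he2 : 0 ≤ e2) (he3 : 0 ≤ e3)
    (hold : ∀ Φ ∈ A, g Φ = none → PairSmall I w u lw (Φ.vec I) (x lw) e1)
    (hmatch : ∀ Φ ∈ A, ∀ G, g Φ = some G → PairSmall I w u t (Φ.vec I) (x t - y G) e2)
    (hmis : ∀ Φ ∈ A, ∀ G, g Φ = some G → ∀ G' ∈ gs, G' ≠ G → PairSmall I w u t (Φ.vec I) (y G') e3) :
    ‖formV I w x - ∑ G ∈ gs, formV I w (Function.update x t (y G))‖ ≤
      (∑ Φ ∈ A, ‖a Φ‖) * cc ^ 2 * ((1 + (gs.card : ℝ)) * e1 + e2 + (gs.card : ℝ) * e3) := by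
  classical
  have hcc2 : 0 ≤ cc ^ 2 := sq_nonneg cc
  have hcard : (0 : ℝ) ≤ gs.card := Nat.cast_nonneg _
  -- expansion of all terms
  have e0 := loc_la_expand hc0 hw x u A a hxu
  have eG : ∀ G, formV I w (Function.update x t (y G))
      = ∑ Φ ∈ A, a Φ * formV I w (Function.update (Function.update x u (Φ.vec I)) t (y G)) := by
    intro G
    rw [loc_la_expand hc0 hw (Function.update x t (y G)) u A a (by rw [Function.update_of_ne hut]; exact hxu)]
    refine Finset.sum_congr rfl fun Φ _ => ?_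
    rw [Function.update_comm hut.symm]
  have e1' : formV I w x - ∑ G ∈ gs, formV I w (Function.update x t (y G))
      = ∑ Φ ∈ A, a Φ * (formV I w (Function.update x u (Φ.vec I))
          - ∑ G ∈ gs, formV I w (Function.update (Function.update x u (Φ.vec I)) t (y G))) := by
    rw [e0]
    simp_rw [eG]
    rw [Finset.sum_comm, ← Finset.sum_sub_distrib]
    refine Finset.sum_congr rfl fun Φ _ => ?_
    rw [mul_sub, Finset.mul_sum]
  rw [e1', Finset.sum_mul, Finset.sum_mul]
  refine (norm_sum_le _ _).trans (Finset.sum_le_sum fun Φ hΦ => ?_)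
  rw [norm_mul, mul_assoc]
  refine mul_le_mul_of_nonneg_left ?_ (norm_nonneg _)
  -- slots of the modified tuples
  obtain ⟨xΦ, hxΦ⟩ : ∃ xΦ, xΦ = Function.update x u (Φ.vec I) := ⟨_, rfl⟩
  rw [← hxΦ]
  have hu : xΦ u = Φ.vec I := by rw [hxΦ, Function.update_self]
  have hne : ∀ j, j ≠ u → xΦ j = x j := fun j hj => by rw [hxΦ, Function.update_of_ne hj]
  have hGu : ∀ G, Function.update xΦ t (y G) u = Φ.vec I := fun G => by rw [Function.update_of_ne hut, hu]
  have hGt : ∀ G, Function.update xΦ t (y G) t = y G := fun G => Function.update_self _ _ _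
  have hGne : ∀ G j, j ≠ u → j ≠ t → Function.update xΦ t (y G) j = x j := fun G j h1 h2 => by
    rw [Function.update_of_ne h2, hne j h1]
  cases hgΦ : g Φ with
  | none =>
    have hP := hold Φ hΦ hgΦ
    have b0 : ‖formV I w xΦ‖ ≤ e1 * cc ^ 2 := by
      refine (hP.le xΦ hu (hne lw hul.symm)).trans (mul_le_mul_of_nonneg_left ?_ he1)
      exact loc_oth_le hul fun j h1 _ => by rw [hne j h1]; exact hx j
    have bG : ∀ G ∈ gs, ‖formV I w (Function.update xΦ t (y G))‖ ≤ e1 * cc ^ 2 := by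
      intro G hG
      refine (hP.le _ (hGu G) (hGne G lw hul.symm htl.symm)).trans (mul_le_mul_of_nonneg_left ?_ he1)
      refine loc_oth_le hul fun j h1 _ => ?_
      by_cases hjt : j = t
      · rw [hjt, hGt]
        exact hy G hG
      · rw [hGne G j h1 hjt]
        exact hx j
    calc ‖formV I w xΦ - ∑ G ∈ gs, formV I w (Function.update xΦ t (y G))‖
        ≤ ‖formV I w xΦ‖ + ∑ G ∈ gs, ‖formV I w (Function.update xΦ t (y G))‖ :=
          (norm_sub_le _ _).trans (add_le_add le_rfl (norm_sum_le _ _))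
      _ ≤ e1 * cc ^ 2 + ∑ _G ∈ gs, e1 * cc ^ 2 := add_le_add b0 (Finset.sum_le_sum bG)
      _ = cc ^ 2 * ((1 + (gs.card : ℝ)) * e1) := by
          rw [Finset.sum_const, nsmul_eq_mul]
          ring
      _ ≤ _ := by
          refine mul_le_mul_of_nonneg_left ?_ hcc2
          have : 0 ≤ (gs.card : ℝ) * e3 := mul_nonneg hcard he3
          linarith
  | some G0 =>
    have hG0 : G0 ∈ gs := hg Φ hΦ G0 hgΦ
    have b0 : ‖formV I w xΦ - formV I w (Function.update xΦ t (y G0))‖ ≤ e2 * cc ^ 2 := by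
      have hP : PairSmall I w u t (xΦ u) (xΦ t - y G0) e2 := by
        rw [hu, hne t hut.symm]
        exact hmatch Φ hΦ G0 hgΦ
      refine (loc_form_replace hc0 hw hut xΦ (y G0) hP).trans (mul_le_mul_of_nonneg_left ?_ he2)
      exact loc_oth_le hut fun j h1 _ => by rw [hne j h1]; exact hx j
    have bG : ∀ G ∈ gs.erase G0, ‖formV I w (Function.update xΦ t (y G))‖ ≤ e3 * cc ^ 2 := by
      intro G hG
      obtain ⟨hGne0, hGgs⟩ := Finset.mem_erase.1 hG
      refine ((hmis Φ hΦ G0 hgΦ G hGgs hGne0).le _ (hGu G) (hGt G)).trans (mul_le_mul_of_nonneg_left ?_ he3)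
      exact loc_oth_le hut fun j h1 h2 => by rw [hGne G j h1 h2]; exact hx j
    have hce : ((gs.erase G0).card : ℝ) ≤ gs.card := by
      exact_mod_cast Finset.card_le_card (Finset.erase_subset _ _)
    rw [← Finset.add_sum_erase gs _ hG0, ← sub_sub]
    calc ‖formV I w xΦ - formV I w (Function.update xΦ t (y G0))
          - ∑ G ∈ gs.erase G0, formV I w (Function.update xΦ t (y G))‖
        ≤ ‖formV I w xΦ - formV I w (Function.update xΦ t (y G0))‖
          + ∑ G ∈ gs.erase G0, ‖formV I w (Function.update xΦ t (y G))‖ :=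
          (norm_sub_le _ _).trans (add_le_add le_rfl (norm_sum_le _ _))
      _ ≤ e2 * cc ^ 2 + ∑ _G ∈ gs.erase G0, e3 * cc ^ 2 := add_le_add b0 (Finset.sum_le_sum bG)
      _ = cc ^ 2 * (e2 + ((gs.erase G0).card : ℝ) * e3) := by
          rw [Finset.sum_const, nsmul_eq_mul]
          ring
      _ ≤ _ := by
          refine mul_le_mul_of_nonneg_left ?_ hcc2
          have h1 : ((gs.erase G0).card : ℝ) * e3 ≤ (gs.card : ℝ) * e3 := mul_le_mul_of_nonneg_right hce he3
          have h2 : 0 ≤ (1 + (gs.card : ℝ)) * e1 := mul_nonneg (by linarith) he1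
          linarith

/-- postcomposition of the other three slots, the third slot being kept as the source -/
theorem loc_postcompose (hc0 : 0 < c0) (hw : Admissible c0 C0 I w) (x x' : Fin 4 → XV) (t : Fin 4) (htt : x' t = x t) (cc : ℝ)
    (hx : ∀ l, n2 I (x l) ≤ cc) (hx' : ∀ l, n2 I (x' l) ≤ cc) (e4 : ℝ) (he4 : 0 ≤ e4)
    (h : ∀ l, l ≠ t → PairSmall I w t l (x t) (x l - x' l) e4) :
    ‖formV I w x - formV I w x'‖ ≤ 4 * e4 * cc ^ 2 := by
  obtain ⟨zf, hzf⟩ : ∃ zf : ℕ → Fin 4 → XV, ∀ k l, zf k l = if l.val < k then x' l else x l :=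
    ⟨fun k l => if l.val < k then x' l else x l, fun _ _ => rfl⟩
  have hcc2 : 0 ≤ cc ^ 2 := sq_nonneg cc
  have h0 : zf 0 = x := by
    funext l
    rw [hzf]
    simp
  have h4 : zf 4 = x' := by
    funext l
    rw [hzf, if_pos l.isLt]
  have hsz : ∀ k l, n2 I (zf k l) ≤ cc := by
    intro k l
    rw [hzf]
    split_ifs
    · exact hx' l
    · exact hx l
  have hzt : ∀ k, zf k t = x t := by
    intro k
    rw [hzf]
    split_ifs
    · exact htt
    · rfl
  have hstep : ∀ k : Fin 4, zf (k.val + 1) = Function.update (zf k.val) k (x' k) := by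
    intro k
    funext l
    by_cases hl : l = k
    · subst hl
      rw [Function.update_self, hzf, if_pos (Nat.lt_succ_self _)]
    · rw [Function.update_of_ne hl, hzf, hzf]
      have hv : l.val ≠ k.val := fun hv => hl (Fin.ext hv)
      by_cases h1 : l.val < k.val
      · rw [if_pos h1, if_pos (by omega)]
      · rw [if_neg h1, if_neg (by omega)]
  have hb : ∀ k : Fin 4, ‖formV I w (zf k.val) - formV I w (zf (k.val + 1))‖ ≤ e4 * cc ^ 2 := by
    intro k
    rw [hstep k]
    by_cases hk : k = t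
    · have : Function.update (zf k.val) k (x' k) = zf k.val := by
        rw [hk, htt, ← hzt t.val, Function.update_eq_self]
      rw [this, sub_self, norm_zero]
      exact mul_nonneg he4 hcc2
    · have hP : PairSmall I w t k (zf k.val t) (zf k.val k - x' k) e4 := by
        rw [hzt, hzf, if_neg (lt_irrefl _)]
        exact h k hk
      refine (loc_form_replace hc0 hw (Ne.symm hk) (zf k.val) (x' k) hP).trans (mul_le_mul_of_nonneg_left ?_ he4)
      exact loc_oth_le (Ne.symm hk) fun j _ _ => hsz _ j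
  have b0 := hb 0
  have b1 := hb 1
  have b2 := hb 2
  have b3 := hb 3
  simp only [Fin.val_zero, Fin.val_one, Fin.val_two, zero_add] at b0 b1 b2
  have e3 : ((3 : Fin 4) : ℕ) = 3 := rfl
  rw [e3] at b3
  norm_num at b1 b2 b3
  rw [h0] at b0
  rw [h4] at b3
  calc ‖formV I w x - formV I w x'‖
      = ‖(formV I w x - formV I w (zf 1)) + (formV I w (zf 1) - formV I w (zf 2))
          + (formV I w (zf 2) - formV I w (zf 3)) + (formV I w (zf 3) - formV I w x')‖ := by
        congr 1
        ring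
    _ ≤ ‖formV I w x - formV I w (zf 1)‖ + ‖formV I w (zf 1) - formV I w (zf 2)‖
          + ‖formV I w (zf 2) - formV I w (zf 3)‖ + ‖formV I w (zf 3) - formV I w x'‖ :=
        (norm_add_le _ _).trans (add_le_add ((norm_add_le _ _).trans (add_le_add (norm_add_le _ _) le_rfl)) le_rfl)
    _ ≤ _ := by linarith

end Claimed.Agent.R258
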