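/-
Row 258 (S0498), Sec. 6.5 (architect helper68).  FILE Leaf: one search leaf on one active cell (proof of Prop. 6.8, paragraphs 2-6).

Fixed: `hV : Y.Valid A.Dm A.m0`, `hI : Y.Inner c0 C0 k C3 A`, an active good cell `I`, a colour `κ ∈ [1,𝓛]`.
`u = Y.up κ` upper guard, `t = Y.third κ` third slot, `x_l = Y.Zsh κ l I` the shared histories, `Y.Z κ l G I = L̄_{l,G} x_l`.
`padU κ = 10 P (𝓛-κ+1) + P` the upper pad.

LEAF P-LOC-LEAF-A : `upper_expand`, `no_old`, `old_source`, `new_source`.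
LEAF P-LOC-LEAF-B : `match_source`, `mismatch_source`, `post_source`.
The assembly `leaf_est` is proved.

PLANS.  Always start with `obtain ⟨hinv, hlo, hhi⟩ := Y.leaf_inv hκ`, `hcat := hI.catOk hV`, `hcnt := hI.catCnt`, and rewrite `Qbar, evalH, lmM` into the generic family by
`Qbar_eq, evalH_eq, lmM_eq` (all `rfl`) to use `Loc/Filt.lean`.  `Zsh κ l I = evalH l I (hist κ l) (z l I)`, `hist κ l = (leaf κ).hist l` by definition.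
* `upper_expand`.  `hinv.upper` (with `hi = κ`).  Case 2: `hist κ u = (cum κ, false) :: t'`, `Zsh = Qbar u (cum κ) I (evalH u I t' z_u)`: `gQbar_expand`, `n2_gEval_le`, `z_size`; `rank (cum κ) = 𝓛-κ+1`.
  Case 1: `κ = 𝓛`, `u = loc_u0 pat`, empty history: `Zsh = restr I (z u I)`, `z u I = ∑ a Φ • Φ.vec I` over `cat.lm u 0 (pres I) I` (`basic_expand`, `loc_u0_pat`), `restr I (Φ.vec I) = Φ.vec I`
  (`xv_restr_vec_self`);  `cat.lm u 0 (pres I) I ⊆ lmM u (cum 𝓛) P I`: rank `0 ≤ 1`; `vtx Φ ∈ pres I` is in `cumMask 𝓛 h I` with witness itself (`d_self`, `colour_le`); `Finset.sum_subset` after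
  extending `a` by zero;  `D ≤ 2 D √n` (`n_ge_one`).
* `no_old`: `hinv.lower`: `low = none` forces `lo = κ = 1`; `cumMask 0 h I = ∅` by `colour_pos`.
* `old_source`: `hinv.lower` gives `hist κ w = (cum (κ-1), true) :: t'`, `1 < κ`;  `Zsh κ w I = (restr I - Qbar w (cum (κ-1)) I) (evalH w I t' z_w)` = average of the residuals (`gRes_apply`);
  `loc_pair_avg_right` + `hI.closed` with `l = w`, `f = cum (κ-1)`, `h = t'`  (`Named`: `hinv.named`; length: `hV.hist_len`; `slot Φ = u ≠ w`: `hinv.up_low`; rank `≤ 𝓛-κ+1 < 𝓛-(κ-1)+1`;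
  mask: `cumMask_mono_pad`, `10P(𝓛-κ+1)+P ≤ 10P(𝓛-(κ-1)+1)+pd`);  finally `n2 I (z w I) ≤ 2` and `PairSmall.mono`.
* `new_source`: `vtx Φ ∈ cumMask κ (padU κ) I` gives a witness `v ∈ pres I`, `colour I v ≤ κ`, `d ≤ padU`; `colour I v ≤ κ-1` would make the source old; so `colour I v = κ`; `good I` gives `cen I v = some G`;
  `gcol_cen`, `mem_cur`; `mask_incl`.
* `match_source`: `Zsh κ t I - Z κ t G I = (restr I - Qbar t (ball 1 G) I) (Zsh κ t I)` (`restr_gEval`, `outer κ t G = ball 1 G` by `loc_jb_third`), average of residuals, `hI.closed` with `f = ball 1 G`,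
  `h = hist κ t`; `Named`: `use G I` from `mem_cur`; rank `≤ 𝓛-κ+1 < 𝓛+1`; mask: `hm` at `h = 20P(𝓛+1) + pd ∈ [padU κ, Hmax]`.
* `mismatch_source`: expand `Z κ t G' I = Qbar t (ball 1 G') I (..)` by `gQbar_expand` (`ℓ¹ ≤ D √n(𝓛+1) · 2`), `loc_pair_sum_right'`; each pair by `loc_pair_of_sep` with `hI.sep`, tags by `tag_col`, `CatOk.tag_ok`,
  distance `> 1` by `mask_sep` with `J = I` (both groups are usable on `I`: nonempty masks and `use`), `loc_depth_cell`.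
* `post_source`: expand `Z κ t G I` as before (sources: rank `≤ 𝓛+1`, `vtx ∈ mask G (20P(𝓛+1)+P) I`), `loc_pair_sum_left'`; for each source `hI.closed` with `f = ball (jb l) G`, `jb l ≥ 2`
  (`loc_jb_ge_two`, `loc_jb_range`), mask by `mask_pad`; `tol_cancel` with `r = 𝓛+1 < 𝓛 + jb l`.
-/
import Claimed.Agent.R258.Loc.BaseFacts
import Claimed.Agent.R258.Loc.LeafAbs

set_option autoImplicit false
open MeasureTheory

namespace Claimed.Agent.R258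

namespace LocSys

section defs
variable {Tag : Type} (Y : LocSys Tag)

/-- the upper primal guard of the leaf `κ` -/
def up (κ : ℕ) : Fin 4 := (Y.leaf κ).up
/-- the third slot of the leaf `κ` -/
def third (κ : ℕ) : Fin 4 := loc_third (Y.leaf κ).up (Y.leaf κ).low
/-- the upper pad -/
def padU (κ : ℕ) : ℕ := (LocFilt.cum κ).pad0 Y.p + Y.p.P

theorem leaf_inv {κ : ℕ} (hκ : κ ∈ Finset.Icc 1 Y.p.L) :
    (Y.leaf κ).Inv Y.p.L (loc_u0 Y.pat) κ ∧ (Y.leaf κ).lo = κ ∧ (Y.leaf κ).hi = κ :=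
  loc_leaf_inv _ _ _ (Finset.mem_Icc.1 hκ).1 (Finset.mem_Icc.1 hκ).2

theorem third_ne_up (κ : ℕ) : Y.third κ ≠ Y.up κ := (loc_third_ne _ _).1

end defs

variable {Y : LocSys LocTag} {c0 C0 k C3 : ℝ} {A : Acc}

/-- sizes of the shared histories and of the localized arguments -/
theorem Inner.Zsh_size (hV : Y.Valid A.Dm A.m0) (hI : Y.Inner c0 C0 k C3 A) (κ : ℕ) (l : Fin 4) {I : Cell} (h : I ∈ Y.X.T) :
    n2 I (Y.Zsh κ l I) ≤ 2 := by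
  unfold Zsh; rw [evalH_eq]
  exact (Y.n2_gEval_le _ _ hV.P_pos l I _ _).trans (hI.z_size l h)

theorem Inner.Z_size (hV : Y.Valid A.Dm A.m0) (hI : Y.Inner c0 C0 k C3 A) (κ : ℕ) (l : Fin 4) (G : ℕ) {I : Cell} (h : I ∈ Y.X.T) :
    n2 I (Y.Z κ l G I) ≤ 2 := by
  unfold Z; rw [Qbar_eq]
  exact (Y.n2_gQbar_le _ _ hV.P_pos l _ I _).trans (hI.Zsh_size hV κ l h)

/-- expansion of the upper guard -/
theorem Inner.upper_expand (hV : Y.Valid A.Dm A.m0) (hI : Y.Inner c0 C0 k C3 A) (hpat : PatOk Y.pat) {κ : ℕ}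
    (hκ : κ ∈ Finset.Icc 1 Y.p.L) {I : Cell} (hS : I ∈ Y.X.S) :
    ∃ a : Col → ℂ, Y.Zsh κ (Y.up κ) I = ∑ Φ ∈ Y.lmM (Y.up κ) (.cum κ) Y.p.P I, a Φ • Φ.vec I ∧
      ∑ Φ ∈ Y.lmM (Y.up κ) (.cum κ) Y.p.P I, ‖a Φ‖ ≤ 2 * (A.D * Real.sqrt (A.n (Y.p.L - κ + 1))) := by
  classical
  obtain ⟨hinv, hlo, hhi⟩ := Y.leaf_inv hκ
  obtain ⟨hκ1, hκ2⟩ := Finset.mem_Icc.1 hκ
  have hcat := hI.catOk hV
  have hcnt := hI.catCnt
  have hT := hI.S_sub hS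
  have hroot := hI.le_root hT
  have hD := hI.D_pos
  rcases hinv.upper with ⟨hu1, hu2, hu3⟩ | ⟨t', ht'⟩
  · -- the untouched initial guard
    have hκL : κ = Y.p.L := by rw [← hhi, hu1]
    have hup : Y.up κ = loc_u0 Y.pat := hu2
    have hhist : Y.hist κ (Y.up κ) = [] := by
      rw [hup]; exact hu3
    obtain ⟨a, ha1, ha2⟩ := hI.basic_expand hV (Y.up κ) (by rw [hup]; exact loc_u0_pat _ hpat) hT
    set Sm := Y.cat.lm (Y.up κ) 0 (Y.B.pres I : Set ℕ) I with hSm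
    set Bg := Y.lmM (Y.up κ) (.cum κ) Y.p.P I with hBg
    have hsub : Sm ⊆ Bg := by
      intro Φ hΦ
      simp only [hSm, LocCat.lm, Finset.mem_filter] at hΦ
      obtain ⟨h1, h2, h3, h4, h5⟩ := hΦ
      rw [hBg, lmM_eq, mem_glm]
      refine ⟨h1, h2, h3, by omega, ?_⟩
      have h5' : Y.cat.vtx Φ.lab ∈ Y.B.pres I := h5
      refine ⟨h5', _, h5', ?_, ?_⟩
      · rw [hκL]; exact Y.CS.colour_le I _ h5'
      · rw [Y.B.T.d_self]; exact bot_le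
    have hZ : Y.Zsh κ (Y.up κ) I = ∑ Φ ∈ Sm, a Φ • Φ.vec I := by
      unfold Zsh
      rw [hhist, ha1]
      show restr I.set (∑ Φ ∈ Sm, a Φ • Φ.vec I) = _
      rw [map_sum]
      refine Finset.sum_congr rfl fun Φ _ => ?_
      rw [map_smul, xv_restr_vec_self]
    refine ⟨fun Φ => if Φ ∈ Sm then a Φ else 0, ?_, ?_⟩
    · rw [hZ, ← Finset.sum_subset hsub]
      · exact Finset.sum_congr rfl fun Φ hΦ => by simp only [if_pos hΦ]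
      · intro Φ _ hΦ
        simp only [if_neg hΦ, zero_smul]
    · rw [← Finset.sum_subset hsub]
      · have h1 : ∑ Φ ∈ Sm, ‖(if Φ ∈ Sm then a Φ else 0)‖ = ∑ Φ ∈ Sm, ‖a Φ‖ :=
          Finset.sum_congr rfl fun Φ hΦ => by simp only [if_pos hΦ]
        rw [h1]
        have h2 : 1 ≤ Real.sqrt (A.n (Y.p.L - κ + 1)) := by
          rw [Real.one_le_sqrt]; exact hI.n_ge_one _
        nlinarith
      · intro Φ _ hΦ
        simp only [if_neg hΦ, norm_zero]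
  · -- outer cumulative filter at the split `κ`
    rw [hhi] at ht'
    have hhist : Y.hist κ (Y.up κ) = (LocFilt.cum κ, false) :: t' := ht'
    have hZ : Y.Zsh κ (Y.up κ) I
        = Y.gQbar Y.cat Y.rkM (Y.up κ) (.cum κ) I (Y.gEval Y.cat Y.rkM (Y.up κ) I t' (Y.z (Y.up κ) I)) := by
      unfold Zsh
      rw [hhist, evalH_eq]
      rfl
    obtain ⟨a, ha1, ha2⟩ := Y.gQbar_expand Y.cat Y.rkM hD hV.P_pos hcat hcnt (Y.up κ) (.cum κ) hroot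
      (Y.gEval Y.cat Y.rkM (Y.up κ) I t' (Y.z (Y.up κ) I))
    refine ⟨a, by rw [hZ, ha1]; rfl, ?_⟩
    have h1 : n2 I (Y.gEval Y.cat Y.rkM (Y.up κ) I t' (Y.z (Y.up κ) I)) ≤ 2 :=
      (Y.n2_gEval_le _ _ hV.P_pos _ I _ _).trans (hI.z_size _ hT)
    have h2 : (0 : ℝ) ≤ A.D * Real.sqrt (A.n (Y.p.L - κ + 1)) := by positivity
    calc _ ≤ A.D * Real.sqrt (A.n (Y.rkM (.cum κ))) *
          n2 I (Y.gEval Y.cat Y.rkM (Y.up κ) I t' (Y.z (Y.up κ) I)) := ha2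
      _ ≤ A.D * Real.sqrt (A.n (Y.p.L - κ + 1)) * 2 := mul_le_mul_of_nonneg_left h1 h2
      _ = _ := by ring

/-- without a lower guard there are no old sources -/
theorem Inner.no_old (hV : Y.Valid A.Dm A.m0) (hI : Y.Inner c0 C0 k C3 A) {κ : ℕ} (hκ : κ ∈ Finset.Icc 1 Y.p.L)
    (hlow : (Y.leaf κ).low = none) (h : ℕ) (I : Cell) (v : ℕ) : v ∉ Y.CS.cumMask (κ - 1) h I := by
  obtain ⟨hinv, hlo, hhi⟩ := Y.leaf_inv hκ
  rcases hinv.lower with ⟨h1, -⟩ | ⟨w, t', hw, -, -⟩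
  · have hκ1 : κ = 1 := by rw [← hlo, h1]
    subst hκ1
    rintro ⟨-, w, hw, hc, -⟩
    have := Y.CS.colour_pos I w hw
    omega
  · rw [hlow] at hw
    exact absurd hw (by simp)

/-- old sources are killed by the lower residual guard -/
theorem Inner.old_source (hV : Y.Valid A.Dm A.m0) (hI : Y.Inner c0 C0 k C3 A) (hc0 : 0 < c0) {κ : ℕ} (hκ : κ ∈ Finset.Icc 1 Y.p.L)
    {I : Cell} (hS : I ∈ Y.X.S) (hg : Y.CS.good I) {lw : Fin 4} (hlow : (Y.leaf κ).low = some lw) {Φ : Col}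
    (hΦ : Φ ∈ Y.lmM (Y.up κ) (.cum κ) Y.p.P I) (hold : Y.cat.vtx Φ.lab ∈ Y.CS.cumMask (κ - 1) (Y.padU κ) I) :
    PairSmall I (Y.X.w I) (Y.up κ) lw (Φ.vec I) (Y.Zsh κ lw I) (tol A.D A.τ3 A.n (Y.p.L - κ + 2) * 2) := by
  obtain ⟨hinv, hlo, hhi⟩ := Y.leaf_inv hκ
  obtain ⟨hκ1, hκ2⟩ := Finset.mem_Icc.1 hκ
  have hw := hI.adm hS
  have hT := hI.S_sub hS
  rcases hinv.lower with ⟨-, h2⟩ | ⟨w, t', hw', h1κ, ht'⟩
  · rw [hlow] at h2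
    exact absurd h2 (by simp)
  rw [hlow, Option.some.injEq] at hw'
  subst hw'
  rw [hlo] at h1κ ht'
  have hhist : Y.hist κ lw = (LocFilt.cum (κ - 1), true) :: t' := ht'
  have hul : Y.up κ ≠ lw := by
    intro h
    apply hinv.up_low
    rw [hlow, ← h]
    rfl
  rw [lmM_eq, mem_glm] at hΦ
  obtain ⟨hΦ1, hΦ2, hΦ3, hΦ4, -⟩ := hΦ
  have hrank : (LocFilt.cum (κ - 1)).rank Y.p = Y.p.L - κ + 2 := by
    show Y.p.L - (κ - 1) + 1 = Y.p.L - κ + 2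
    omega
  have hZ : Y.Zsh κ lw I = ((Y.p.P : ℂ)⁻¹) • ∑ pd ∈ Finset.Icc 1 Y.p.P,
      (restr I.set - Y.Qm lw (.cum (κ - 1)) pd I) (Y.evalH lw I t' (Y.z lw I)) := by
    unfold Zsh
    rw [hhist]
    show (restr I.set - Y.Qbar lw (.cum (κ - 1)) I) (Y.evalH lw I t' (Y.z lw I)) = _
    rw [Qbar_eq, Y.gRes_apply _ _ hV.P_pos]
    rfl
  rw [hZ]
  refine loc_pair_avg_right hc0 hw hul hV.P_pos _ _ _ fun pd hpd => ?_
  obtain ⟨hpd1, hpd2⟩ := Finset.mem_Icc.1 hpd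
  have hcl := hI.closed I hS hg lw (.cum (κ - 1)) pd ⟨by omega, by omega⟩ hpd1 hpd2 t'
    (by
      have := hV.hist_len κ lw
      rw [hhist, List.length_cons] at this
      omega)
    (by
      intro e he
      obtain ⟨m, hm, hm1, hm2, -⟩ := hinv.named lw e (by rw [ht']; exact List.mem_cons_of_mem _ he)
      rw [hm]
      exact ⟨hm1, hm2.le⟩)
    Φ hΦ1 hΦ2 (by rw [hΦ3]; exact hul)
    (by
      rw [hrank]
      have : Y.cat.rank Φ.lab ≤ Y.p.L - κ + 1 := hΦ4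
      omega)
    (by
      refine Y.CS.cumMask_mono_pad (κ - 1) ?_ I hold
      show 10 * Y.p.P * (Y.p.L - κ + 1) + Y.p.P ≤ 10 * Y.p.P * (Y.p.L - (κ - 1) + 1) + pd
      have e : Y.p.L - (κ - 1) + 1 = (Y.p.L - κ + 1) + 1 := by omega
      rw [e]
      generalize Y.p.L - κ + 1 = x
      have e2 : 10 * Y.p.P * (x + 1) = 10 * Y.p.P * x + 10 * Y.p.P := by ring
      omega)
  rw [hΦ3, hrank] at hcl
  exact hcl.mono (mul_le_mul_of_nonneg_left (hI.z_size lw hT) (hI.tol_nonneg _))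

/-- a source that is not old is matched to a current group of the colour `κ` -/
theorem Inner.new_source (hV : Y.Valid A.Dm A.m0) (hI : Y.Inner c0 C0 k C3 A) {κ : ℕ} (hκ : κ ∈ Finset.Icc 1 Y.p.L)
    {I : Cell} (hS : I ∈ Y.X.S) (hg : Y.CS.good I) {Φ : Col} (hΦ : Φ ∈ Y.lmM (Y.up κ) (.cum κ) Y.p.P I)
    (hnew : Y.cat.vtx Φ.lab ∉ Y.CS.cumMask (κ - 1) (Y.padU κ) I) :
    ∃ G ∈ Y.cur κ I, ∀ h, Y.padU κ ≤ h → h ≤ Y.p.Hmax → Y.cat.vtx Φ.lab ∈ Y.CS.mask G h I := by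
  obtain ⟨hκ1, hκ2⟩ := Finset.mem_Icc.1 hκ
  rw [lmM_eq, mem_glm] at hΦ
  obtain ⟨-, -, -, -, hm⟩ := hΦ
  obtain ⟨hv, w, hw, hc, hd⟩ : Y.cat.vtx Φ.lab ∈ Y.CS.cumMask κ (Y.padU κ) I := hm
  have hcol : Y.CS.colour I w = κ := by
    by_contra hne
    exact hnew ⟨hv, w, hw, by omega, hd⟩
  obtain ⟨G, hG⟩ := Option.isSome_iff_exists.1 (hg I le_rfl w hw)
  refine ⟨G, mem_cur.2 ⟨⟨w, hw, hG⟩, (Y.CS.gcol_cen I w G hw hG).trans hcol⟩, fun h h1 h2 => ?_⟩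
  exact Y.CS.mask_incl I w G _ h hw hG hv h2 (hd.trans (by exact_mod_cast h1))

/-- the difference from the outer ball filter is an average of residual projections -/
theorem leafB_diff (Y : LocSys LocTag) (hP : 1 ≤ Y.p.P) (κ : ℕ) (l : Fin 4) (G : ℕ) (I : Cell) :
    Y.Zsh κ l I - Y.Z κ l G I = ((Y.p.P : ℂ)⁻¹) • ∑ pd ∈ Finset.Icc 1 Y.p.P,
      (restr I.set - Y.Qm l (Y.outer κ l G) pd I) (Y.evalH l I (Y.hist κ l) (Y.z l I)) := by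
  have h1 : restr I.set (Y.Zsh κ l I) = Y.Zsh κ l I := by
    unfold Zsh
    rw [evalH_eq]
    exact Y.restr_gEval _ _ l I _ _
  have h2 : Y.Zsh κ l I - Y.Z κ l G I = (restr I.set - Y.Qbar l (Y.outer κ l G) I) (Y.Zsh κ l I) := by
    rw [sub_apply, h1]
    rfl
  rw [h2, Qbar_eq, Y.gRes_apply _ _ hP]
  rfl

/-- the closure test (13) for the outer ball filter of the slot `l` -/
theorem Inner.leafB_ball (hV : Y.Valid A.Dm A.m0) (hI : Y.Inner c0 C0 k C3 A) (hc0 : 0 < c0) {κ : ℕ}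
    (hκ : κ ∈ Finset.Icc 1 Y.p.L) {I : Cell} (hS : I ∈ Y.X.S) (hg : Y.CS.good I) {G : ℕ} (hG : G ∈ Y.cur κ I) (l : Fin 4)
    {Ψ : Col} (hΨ : Ψ ∈ Y.cat.cols) (hb : I ≤ Ψ.birth) (hsl : Y.cat.slot Ψ.lab ≠ l)
    (hr : Y.cat.rank Ψ.lab < Y.p.L + loc_jb (Y.leaf κ) l)
    (hm : ∀ pd, 1 ≤ pd → pd ≤ Y.p.P → Y.cat.vtx Ψ.lab ∈ Y.CS.mask G ((Y.outer κ l G).pad0 Y.p + pd) I) :
    PairSmall I (Y.X.w I) (Y.cat.slot Ψ.lab) l (Ψ.vec I) (Y.Zsh κ l I - Y.Z κ l G I)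
      (tol A.D A.τ3 A.n (Y.p.L + loc_jb (Y.leaf κ) l) * 2) := by
  obtain ⟨hinv, -, -⟩ := Y.leaf_inv hκ
  have hw := hI.adm hS
  have hT := hI.S_sub hS
  rw [Y.leafB_diff hV.P_pos]
  refine loc_pair_avg_right hc0 hw hsl hV.P_pos _ _ _ fun pd hpd => ?_
  obtain ⟨hpd1, hpd2⟩ := Finset.mem_Icc.1 hpd
  have hcl := hI.closed I hS hg l (Y.outer κ l G) pd
    ⟨(loc_jb_range _ l).1, (loc_jb_range _ l).2, (mem_cur.1 hG).1⟩ hpd1 hpd2 (Y.hist κ l) (hV.hist_len κ l)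
    (by
      intro e he
      obtain ⟨m, hm', hm1, hm2, -⟩ := hinv.named l e he
      rw [hm']
      exact ⟨hm1, hm2.le⟩)
    Ψ hΨ hb hsl hr (hm pd hpd1 hpd2)
  exact hcl.mono (mul_le_mul_of_nonneg_left (hI.z_size l hT) (hI.tol_nonneg _))

/-- expansion of a localized argument in the third slot -/
theorem Inner.leafB_expand (hV : Y.Valid A.Dm A.m0) (hI : Y.Inner c0 C0 k C3 A) (κ : ℕ) {I : Cell} (hS : I ∈ Y.X.S) (G : ℕ) :
    ∃ a : Col → ℂ, Y.Z κ (Y.third κ) G I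
        = ∑ Ψ ∈ Y.glm Y.cat Y.rkM (Y.third κ) (.ball 1 G) Y.p.P I, a Ψ • Ψ.vec I ∧
      ∑ Ψ ∈ Y.glm Y.cat Y.rkM (Y.third κ) (.ball 1 G) Y.p.P I, ‖a Ψ‖ ≤ 2 * (A.D * Real.sqrt (A.n (Y.p.L + 1))) := by
  have hT := hI.S_sub hS
  have hD := hI.D_pos
  have hout : Y.outer κ (Y.third κ) G = .ball 1 G := by
    unfold outer third
    rw [loc_jb_third]
  obtain ⟨a, ha1, ha2⟩ := Y.gQbar_expand Y.cat Y.rkM hD hV.P_pos (hI.catOk hV) hI.catCnt (Y.third κ) (.ball 1 G)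
    (hI.le_root hT) (Y.Zsh κ (Y.third κ) I)
  refine ⟨a, ?_, ?_⟩
  · rw [← ha1]
    unfold Z
    rw [hout, Qbar_eq]
  · have h1 := hI.Zsh_size hV κ (Y.third κ) hT
    have h2 : (0 : ℝ) ≤ A.D * Real.sqrt (A.n (Y.p.L + 1)) := by positivity
    calc _ ≤ A.D * Real.sqrt (A.n (Y.rkM (.ball 1 G))) * n2 I (Y.Zsh κ (Y.third κ) I) := ha2
      _ ≤ A.D * Real.sqrt (A.n (Y.p.L + 1)) * 2 := mul_le_mul_of_nonneg_left h1 h2
      _ = _ := by ring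

/-- the matching group: the difference from the identity is bounded by (13) -/
theorem Inner.match_source (hV : Y.Valid A.Dm A.m0) (hI : Y.Inner c0 C0 k C3 A) (hc0 : 0 < c0) {κ : ℕ}
    (hκ : κ ∈ Finset.Icc 1 Y.p.L) {I : Cell} (hS : I ∈ Y.X.S) (hg : Y.CS.good I) {Φ : Col}
    (hΦ : Φ ∈ Y.lmM (Y.up κ) (.cum κ) Y.p.P I) {G : ℕ} (hG : G ∈ Y.cur κ I)
    (hm : ∀ h, Y.padU κ ≤ h → h ≤ Y.p.Hmax → Y.cat.vtx Φ.lab ∈ Y.CS.mask G h I) :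
    PairSmall I (Y.X.w I) (Y.up κ) (Y.third κ) (Φ.vec I) (Y.Zsh κ (Y.third κ) I - Y.Z κ (Y.third κ) G I)
      (tol A.D A.τ3 A.n (Y.p.L + 1) * 2) := by
  obtain ⟨hκ1, hκ2⟩ := Finset.mem_Icc.1 hκ
  rw [lmM_eq, mem_glm] at hΦ
  obtain ⟨hΦ1, hΦ2, hΦ3, hΦ4, -⟩ := hΦ
  have hjb : loc_jb (Y.leaf κ) (Y.third κ) = 1 := loc_jb_third _
  have hout : Y.outer κ (Y.third κ) G = .ball 1 G := by
    unfold outer
    rw [hjb]
  have key := hI.leafB_ball hV hc0 hκ hS hg hG (Y.third κ) hΦ1 hΦ2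
    (by rw [hΦ3]; exact (Y.third_ne_up κ).symm)
    (by
      rw [hjb]
      have : Y.cat.rank Φ.lab ≤ Y.p.L - κ + 1 := hΦ4
      omega)
    (by
      intro pd hpd1 hpd2
      rw [hout]
      refine hm _ ?_ ?_
      · show 10 * Y.p.P * (Y.p.L - κ + 1) + Y.p.P ≤ 20 * Y.p.P * (Y.p.L + 1) + 10 * (1 - 1) * Y.p.P + pd
        have h1 : 10 * Y.p.P * (Y.p.L - κ + 1) ≤ 10 * Y.p.P * (Y.p.L + 1) := Nat.mul_le_mul_left _ (by omega)
        have h2 : 20 * Y.p.P * (Y.p.L + 1) = 10 * Y.p.P * (Y.p.L + 1) + 10 * Y.p.P * Y.p.L + 10 * Y.p.P := by ring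
        omega
      · show 20 * Y.p.P * (Y.p.L + 1) + 10 * (1 - 1) * Y.p.P + pd ≤ 100 * Y.p.P * (Y.p.L + 1)
        have h2 : 100 * Y.p.P * (Y.p.L + 1) = 20 * Y.p.P * (Y.p.L + 1) + 80 * Y.p.P * Y.p.L + 80 * Y.p.P := by ring
        omega)
  rw [hΦ3, hjb] at key
  exact key

/-- any other current group: pair mismatch -/
theorem Inner.mismatch_source (hV : Y.Valid A.Dm A.m0) (hI : Y.Inner c0 C0 k C3 A) (hc0 : 0 < c0) {κ : ℕ}
    (hκ : κ ∈ Finset.Icc 1 Y.p.L) {I : Cell} (hS : I ∈ Y.X.S) (hg : Y.CS.good I) {Φ : Col}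
    (hΦ : Φ ∈ Y.lmM (Y.up κ) (.cum κ) Y.p.P I) {G G' : ℕ} (hG : G ∈ Y.cur κ I) (hG' : G' ∈ Y.cur κ I) (hne : G' ≠ G)
    (hm : ∀ h, Y.padU κ ≤ h → h ≤ Y.p.Hmax → Y.cat.vtx Φ.lab ∈ Y.CS.mask G h I) :
    PairSmall I (Y.X.w I) (Y.up κ) (Y.third κ) (Φ.vec I) (Y.Z κ (Y.third κ) G' I)
      (2 * (A.D * Real.sqrt (A.n (Y.p.L + 1))) * A.τ2) := by
  obtain ⟨hκ1, hκ2⟩ := Finset.mem_Icc.1 hκ
  have hw := hI.adm hS
  have hT := hI.S_sub hS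
  have hroot := hI.le_root hT
  have hcat := hI.catOk hV
  have hτ2 := hI.num.τ2_pos
  rw [lmM_eq, mem_glm] at hΦ
  obtain ⟨hΦ1, hΦ2, hΦ3, hΦ4, -⟩ := hΦ
  obtain ⟨a, ha1, ha2⟩ := hI.leafB_expand hV κ hS G'
  rw [ha1]
  have hpadU : Y.padU κ ≤ Y.p.Hmax := by
    show 10 * Y.p.P * (Y.p.L - κ + 1) + Y.p.P ≤ 100 * Y.p.P * (Y.p.L + 1)
    have h1 : 10 * Y.p.P * (Y.p.L - κ + 1) ≤ 10 * Y.p.P * (Y.p.L + 1) := Nat.mul_le_mul_left _ (by omega)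
    have h2 : 100 * Y.p.P * (Y.p.L + 1) = 10 * Y.p.P * (Y.p.L + 1) + 90 * Y.p.P * Y.p.L + 90 * Y.p.P := by ring
    omega
  have hb : Y.cat.vtx Φ.lab ∈ Y.CS.mask G (Y.padU κ) I := hm _ le_rfl hpadU
  refine (loc_pair_sum_right' hc0 hw (Y.third_ne_up κ).symm _ a (Φ.vec I) (fun Ψ => Ψ.vec I) A.τ2 ?_).mono
    (mul_le_mul_of_nonneg_right ha2 hτ2.le)
  intro Ψ hΨ
  rw [mem_glm] at hΨ
  obtain ⟨hΨ1, hΨ2, hΨ3, hΨ4, hΨ5⟩ := hΨ
  have hb' : Y.cat.vtx Ψ.lab ∈ Y.CS.mask G' ((LocFilt.ball 1 G').pad0 Y.p + Y.p.P) I := hΨ5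
  have hpad' : (LocFilt.ball 1 G').pad0 Y.p + Y.p.P ≤ Y.p.Hmax := by
    show 20 * Y.p.P * (Y.p.L + 1) + 10 * (1 - 1) * Y.p.P + Y.p.P ≤ 100 * Y.p.P * (Y.p.L + 1)
    have h2 : 100 * Y.p.P * (Y.p.L + 1) = 20 * Y.p.P * (Y.p.L + 1) + 80 * Y.p.P * Y.p.L + 80 * Y.p.P := by ring
    omega
  have hsep := Y.CS.mask_sep G G' I I _ _ _ _ hne.symm
    ((mem_cur.1 hG).2.trans (mem_cur.1 hG').2.symm) le_rfl
    (Or.inl ⟨⟨⟨_, hpadU, _, hb⟩, I, le_rfl, (mem_cur.1 hG).1⟩,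
      ⟨⟨_, hpad', _, hb'⟩, I, le_rfl, (mem_cur.1 hG').1⟩, hb, hb'⟩) hpadU hpad'
  have htΦ := hcat.tag_ok hI hΦ1 hroot hΦ2
  have htΨ := hcat.tag_ok hI hΨ1 hroot hΨ2
  have hcΦ := hcat.tag_col Φ hΦ1
  have hcΨ := hcat.tag_col Ψ hΨ1
  rw [hΦ3] at htΦ hcΦ
  rw [hΨ3] at htΨ hcΨ
  exact loc_pair_of_sep hc0 hI.sep Φ Ψ _ _ _ _ I _ (Y.third_ne_up κ).symm hw (hcat.chart Φ hΦ1) (hcat.chart Ψ hΨ1)
    (hcat.cplx Φ hΦ1) (hcat.cplx Ψ hΨ1) (hcat.bdd Φ hΦ1) (hcat.bdd Ψ hΨ1) htΦ htΨ (by rw [hcΦ, hcΨ]; exact hsep)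

/-- postcomposition of another slot with its own ball filter, the third slot being the source -/
theorem Inner.post_source (hV : Y.Valid A.Dm A.m0) (hI : Y.Inner c0 C0 k C3 A) (hc0 : 0 < c0) {κ : ℕ}
    (hκ : κ ∈ Finset.Icc 1 Y.p.L) {I : Cell} (hS : I ∈ Y.X.S) (hg : Y.CS.good I) {G : ℕ} (hG : G ∈ Y.cur κ I) {l : Fin 4}
    (hl : l ≠ Y.third κ) :
    PairSmall I (Y.X.w I) (Y.third κ) l (Y.Z κ (Y.third κ) G I) (Y.Zsh κ l I - Y.Z κ l G I) (4 * A.τ3) := by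
  obtain ⟨hκ1, hκ2⟩ := Finset.mem_Icc.1 hκ
  have hw := hI.adm hS
  have hjb2 : 2 ≤ loc_jb (Y.leaf κ) l := loc_jb_ge_two _ l hl
  obtain ⟨a, ha1, ha2⟩ := hI.leafB_expand hV κ hS G
  rw [ha1]
  have htol := hI.tol_nonneg (Y.p.L + loc_jb (Y.leaf κ) l)
  have hcancel := hI.tol_cancel (r := Y.p.L + 1) (r' := Y.p.L + loc_jb (Y.leaf κ) l) (by omega)
  refine (loc_pair_sum_left' hc0 hw hl.symm _ a (fun Ψ => Ψ.vec I) _
    (tol A.D A.τ3 A.n (Y.p.L + loc_jb (Y.leaf κ) l) * 2) ?_).mono ?_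
  · intro Ψ hΨ
    rw [mem_glm] at hΨ
    obtain ⟨hΨ1, hΨ2, hΨ3, hΨ4, hΨ5⟩ := hΨ
    have key := hI.leafB_ball hV hc0 hκ hS hg hG l hΨ1 hΨ2 (by rw [hΨ3]; exact hl.symm)
      (by
        have : Y.cat.rank Ψ.lab ≤ Y.p.L + 1 := hΨ4
        omega)
      (by
        intro pd hpd1 hpd2
        refine Y.CS.mask_pad G _ _ I ?_ hΨ5
        show 20 * Y.p.P * (Y.p.L + 1) + 10 * (1 - 1) * Y.p.P + Y.p.P
          ≤ 20 * Y.p.P * (Y.p.L + 1) + 10 * (loc_jb (Y.leaf κ) l - 1) * Y.p.P + pd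
        have h1 : 10 * 1 * Y.p.P ≤ 10 * (loc_jb (Y.leaf κ) l - 1) * Y.p.P :=
          Nat.mul_le_mul_right _ (Nat.mul_le_mul_left _ (by omega))
        omega)
    rw [hΨ3] at key
    exact key
  · calc (∑ Ψ ∈ Y.glm Y.cat Y.rkM (Y.third κ) (.ball 1 G) Y.p.P I, ‖a Ψ‖) *
          (tol A.D A.τ3 A.n (Y.p.L + loc_jb (Y.leaf κ) l) * 2)
        ≤ 2 * (A.D * Real.sqrt (A.n (Y.p.L + 1))) * (tol A.D A.τ3 A.n (Y.p.L + loc_jb (Y.leaf κ) l) * 2) :=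
          mul_le_mul_of_nonneg_right ha2 (by positivity)
      _ = 4 * (A.D * Real.sqrt (A.n (Y.p.L + 1)) * tol A.D A.τ3 A.n (Y.p.L + loc_jb (Y.leaf κ) l)) := by ring
      _ ≤ 4 * A.τ3 := by gcongr

/-- the error of one leaf on one cell -/
noncomputable def Acc.Eleaf (A : Acc) (p : LocParams) : ℝ :=
  (32 + 80 * (p.D : ℝ)) * A.τ3 + 16 * (p.D : ℝ) * A.D ^ 2 * A.n (p.L + 1) * A.τ2

theorem loc_exists_fourth (u t : Fin 4) : ∃ lw : Fin 4, u ≠ lw ∧ t ≠ lw := by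
  revert u t; decide

/-- numerical part of `leaf_est` -/
theorem Inner.leaf_num (hI : Y.Inner c0 C0 k C3 A) {κ : ℕ} (hκ : κ ∈ Finset.Icc 1 Y.p.L) {S g : ℝ} (_hS0 : 0 ≤ S)
    (hS : S ≤ 2 * (A.D * Real.sqrt (A.n (Y.p.L - κ + 1)))) (hg0 : 0 ≤ g) (hg : g ≤ (Y.p.D : ℝ)) :
    S * 2 ^ 2 * ((1 + g) * (tol A.D A.τ3 A.n (Y.p.L - κ + 2) * 2) + tol A.D A.τ3 A.n (Y.p.L + 1) * 2 +
      g * (2 * (A.D * Real.sqrt (A.n (Y.p.L + 1))) * A.τ2)) + g * (4 * (4 * A.τ3) * 2 ^ 2) ≤ A.Eleaf Y.p := by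
  obtain ⟨h1, h2⟩ := Finset.mem_Icc.1 hκ
  have hD := hI.D_pos
  have ht3 := hI.num.τ3_pos
  have ht2 := hI.num.τ2_pos
  set na := A.n (Y.p.L - κ + 1) with hna
  set nb := A.n (Y.p.L + 1) with hnb
  have hab : na ≤ nb := hI.num.n_mono (by omega)
  have hna1 : 1 ≤ na := hI.n_ge_one _
  have hc1 : A.D * Real.sqrt na * tol A.D A.τ3 A.n (Y.p.L - κ + 2) ≤ A.τ3 := hI.tol_cancel (by omega)
  have hc2 : A.D * Real.sqrt na * tol A.D A.τ3 A.n (Y.p.L + 1) ≤ A.τ3 := hI.tol_cancel (by omega)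
  have ht1 := hI.tol_nonneg (Y.p.L - κ + 2)
  have ht2' := hI.tol_nonneg (Y.p.L + 1)
  set t1 := tol A.D A.τ3 A.n (Y.p.L - κ + 2)
  set t2 := tol A.D A.τ3 A.n (Y.p.L + 1)
  have hsq : Real.sqrt na * Real.sqrt nb ≤ nb := by
    calc Real.sqrt na * Real.sqrt nb ≤ Real.sqrt nb * Real.sqrt nb := by
          gcongr
      _ = nb := Real.mul_self_sqrt (by linarith)
  have hsa : 0 ≤ Real.sqrt na := Real.sqrt_nonneg _
  have hsb : 0 ≤ Real.sqrt nb := Real.sqrt_nonneg _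
  -- the three products
  have e1 : S * t1 ≤ 2 * A.τ3 := by
    calc S * t1 ≤ 2 * (A.D * Real.sqrt na) * t1 := by gcongr
      _ = 2 * (A.D * Real.sqrt na * t1) := by ring
      _ ≤ 2 * A.τ3 := by gcongr
  have e2 : S * t2 ≤ 2 * A.τ3 := by
    calc S * t2 ≤ 2 * (A.D * Real.sqrt na) * t2 := by gcongr
      _ = 2 * (A.D * Real.sqrt na * t2) := by ring
      _ ≤ 2 * A.τ3 := by gcongr
  have e3 : S * (A.D * Real.sqrt nb) ≤ 2 * (A.D ^ 2 * nb) := by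
    calc S * (A.D * Real.sqrt nb) ≤ 2 * (A.D * Real.sqrt na) * (A.D * Real.sqrt nb) := by gcongr
      _ = 2 * (A.D ^ 2 * (Real.sqrt na * Real.sqrt nb)) := by ring
      _ ≤ 2 * (A.D ^ 2 * nb) := by gcongr
  have hnb0 : 0 ≤ nb := by linarith
  have key : S * 2 ^ 2 * ((1 + g) * (t1 * 2) + t2 * 2 + g * (2 * (A.D * Real.sqrt nb) * A.τ2)) + g * (4 * (4 * A.τ3) * 2 ^ 2)
      = 8 * (1 + g) * (S * t1) + 8 * (S * t2) + 8 * g * A.τ2 * (S * (A.D * Real.sqrt nb)) + 64 * g * A.τ3 := by ring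
  rw [key]
  have f1 : 8 * (1 + g) * (S * t1) ≤ 8 * (1 + g) * (2 * A.τ3) := by gcongr
  have f2 : 8 * (S * t2) ≤ 8 * (2 * A.τ3) := by gcongr
  have f3 : 8 * g * A.τ2 * (S * (A.D * Real.sqrt nb)) ≤ 8 * g * A.τ2 * (2 * (A.D ^ 2 * nb)) := by gcongr
  have f4 : (32 + 80 * g) * A.τ3 + 16 * g * A.D ^ 2 * nb * A.τ2 ≤ A.Eleaf Y.p := by
    unfold Acc.Eleaf
    have : 16 * g * A.D ^ 2 * nb * A.τ2 ≤ 16 * (Y.p.D : ℝ) * A.D ^ 2 * nb * A.τ2 := by gcongr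
    have : (32 + 80 * g) * A.τ3 ≤ (32 + 80 * (Y.p.D : ℝ)) * A.τ3 := by gcongr
    linarith
  nlinarith [f1, f2, f3, f4]

/-- **one leaf on one cell** -/
theorem Inner.leaf_est (hV : Y.Valid A.Dm A.m0) (hI : Y.Inner c0 C0 k C3 A) (hc0 : 0 < c0) (hpat : PatOk Y.pat) {κ : ℕ}
    (hκ : κ ∈ Finset.Icc 1 Y.p.L) {I : Cell} (hS : I ∈ Y.X.S) (hg : Y.CS.good I) :
    ‖formV I (Y.X.w I) (fun l => Y.Zsh κ l I) - Y.leafForm κ I‖ ≤ A.Eleaf Y.p := by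
  classical
  have hw := hI.adm hS
  have hT := hI.S_sub hS
  obtain ⟨hinv, -, -⟩ := Y.leaf_inv hκ
  obtain ⟨a, hxa, hsum⟩ := hI.upper_expand hV hpat hκ hS
  set u := Y.up κ with hu
  set t := Y.third κ with ht
  have hut : u ≠ t := (Y.third_ne_up κ).symm
  set x : Fin 4 → XV := fun l => Y.Zsh κ l I with hx
  set gs := Y.cur κ I with hgs
  set AA := Y.lmM u (.cum κ) Y.p.P I with hAA
  -- the lower guard (or a dummy slot)
  obtain ⟨lw, hul, htl, hlw⟩ : ∃ lw : Fin 4, u ≠ lw ∧ t ≠ lw ∧ ((Y.leaf κ).low = some lw ∨ (Y.leaf κ).low = none) := by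
    rcases hlow : (Y.leaf κ).low with _ | w
    · obtain ⟨lw, h1, h2⟩ := loc_exists_fourth u t
      exact ⟨lw, h1, h2, Or.inr rfl⟩
    · refine ⟨w, ?_, ?_, Or.inl rfl⟩
      · intro h; apply hinv.up_low; rw [hlow, ← h]; rfl
      · intro h
        have h3 : some t ≠ (Y.leaf κ).low := (loc_third_ne (Y.leaf κ).up (Y.leaf κ).low).2
        apply h3; rw [hlow, h]
  -- classification of the sources
  let g : Col → Option ℕ := fun Φ =>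
    if h : Φ ∈ AA ∧ Y.cat.vtx Φ.lab ∉ Y.CS.cumMask (κ - 1) (Y.padU κ) I then
      some (Classical.choose (hI.new_source hV hκ hS hg h.1 h.2)) else none
  have hgspec : ∀ Φ ∈ AA, ∀ G, g Φ = some G →
      G ∈ gs ∧ ∀ h, Y.padU κ ≤ h → h ≤ Y.p.Hmax → Y.cat.vtx Φ.lab ∈ Y.CS.mask G h I := by
    intro Φ _ G hG
    simp only [g] at hG
    split_ifs at hG with h
    have := Classical.choose_spec (hI.new_source hV hκ hS hg h.1 h.2)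
    rw [Option.some.injEq] at hG
    rw [← hG]; exact this
  have hgnone : ∀ Φ ∈ AA, g Φ = none → Y.cat.vtx Φ.lab ∈ Y.CS.cumMask (κ - 1) (Y.padU κ) I := by
    intro Φ hΦ hG
    simp only [g] at hG
    split_ifs at hG with h
    by_contra hc; exact h ⟨hΦ, hc⟩
  have hτ3 := hI.num.τ3_pos
  have hτ2 := hI.num.τ2_pos
  have hD := hI.D_pos
  have step1 := loc_insert_third hc0 hw x u t lw hut hul htl gs (fun G => Y.Z κ t G I) 2
    (fun l => hI.Zsh_size hV κ l hT) (fun G _ => hI.Z_size hV κ t G hT) AA a hxa g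
    (fun Φ hΦ G hG => (hgspec Φ hΦ G hG).1)
    (tol A.D A.τ3 A.n (Y.p.L - κ + 2) * 2) (tol A.D A.τ3 A.n (Y.p.L + 1) * 2)
    (2 * (A.D * Real.sqrt (A.n (Y.p.L + 1))) * A.τ2)
    (mul_nonneg (hI.tol_nonneg _) (by norm_num)) (mul_nonneg (hI.tol_nonneg _) (by norm_num)) (by positivity)
    (by
      intro Φ hΦ hG
      rcases hlw with hlw | hlw
      · exact hI.old_source hV hc0 hκ hS hg hlw hΦ (hgnone Φ hΦ hG)
      · exact absurd (hgnone Φ hΦ hG) (hI.no_old hV hκ hlw _ _ _))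
    (fun Φ hΦ G hG => hI.match_source hV hc0 hκ hS hg hΦ (hgspec Φ hΦ G hG).1 (hgspec Φ hΦ G hG).2)
    (fun Φ hΦ G hG G' hG' hne =>
      hI.mismatch_source hV hc0 hκ hS hg hΦ (hgspec Φ hΦ G hG).1 hG' hne (hgspec Φ hΦ G hG).2)
  have step2 : ∀ G ∈ gs, ‖formV I (Y.X.w I) (Function.update x t (Y.Z κ t G I)) -
      formV I (Y.X.w I) (fun l => Y.Z κ l G I)‖ ≤ 4 * (4 * A.τ3) * 2 ^ 2 := by
    intro G hG
    refine loc_postcompose hc0 hw _ _ t (by simp) 2 ?_ (fun l => hI.Z_size hV κ l G hT) (4 * A.τ3) (by positivity) ?_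
    · intro l
      by_cases hl : l = t
      · subst hl; simpa using hI.Z_size hV κ _ G hT
      · rw [Function.update_of_ne hl]; exact hI.Zsh_size hV κ l hT
    · intro l hl
      rw [Function.update_self, Function.update_of_ne hl]
      exact hI.post_source hV hc0 hκ hS hg hG hl
  have step3 : ‖∑ G ∈ gs, formV I (Y.X.w I) (Function.update x t (Y.Z κ t G I)) - Y.leafForm κ I‖
      ≤ (gs.card : ℝ) * (4 * (4 * A.τ3) * 2 ^ 2) := by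
    unfold leafForm
    rw [← Finset.sum_sub_distrib]
    refine (norm_sum_le _ _).trans ?_
    calc ∑ G ∈ gs, ‖formV I (Y.X.w I) (Function.update x t (Y.Z κ t G I)) - formV I (Y.X.w I) (fun l => Y.Z κ l G I)‖
        ≤ ∑ _G ∈ gs, 4 * (4 * A.τ3) * 2 ^ 2 := Finset.sum_le_sum step2
      _ = (gs.card : ℝ) * (4 * (4 * A.τ3) * 2 ^ 2) := by rw [Finset.sum_const, nsmul_eq_mul]
  have hcard : (gs.card : ℝ) ≤ (Y.p.D : ℝ) := by exact_mod_cast Y.cur_card_le κ I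
  have hnum := hI.leaf_num hκ (Finset.sum_nonneg fun Φ (_ : Φ ∈ AA) => norm_nonneg (a Φ)) hsum (Nat.cast_nonneg gs.card) hcard
  calc ‖formV I (Y.X.w I) x - Y.leafForm κ I‖
      ≤ ‖formV I (Y.X.w I) x - ∑ G ∈ gs, formV I (Y.X.w I) (Function.update x t (Y.Z κ t G I))‖ +
        ‖∑ G ∈ gs, formV I (Y.X.w I) (Function.update x t (Y.Z κ t G I)) - Y.leafForm κ I‖ := norm_sub_le_norm_sub_add_norm_sub _ _ _
    _ ≤ _ := add_le_add step1 step3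
    _ ≤ A.Eleaf Y.p := hnum

end LocSys

end Claimed.Agent.R258
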