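/-
Row 258 (S0498), Sec. 6, block [LOC-NUM] (helper136).  FILE NumCalc: a small calculus of "polynomially bounded" and "exponentially bounded"
quantities, used to choose the numerical accuracies without any bookkeeping of exponents.

`ι` = type of the data, `κ d` = the large parameter (`k`), `β d ≥ κ d` = the base of the bounds (`k` or `k + P`).
`loc_num_PB κ β f` : `|f d| ≤ (β d)^a` for `κ d ≥ k0`;   `loc_num_EB κ β f` : `|f d| ≤ exp ((β d)^a)` for `κ d ≥ k0`.
-/
import Mathlib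

set_option autoImplicit false
set_option linter.unusedSectionVars false
set_option linter.unusedVariables false

namespace Claimed.Agent.R258

/-! ### powers of a base `b ≥ 2` -/

theorem loc_num_bs_mono {b a c : ℝ} (hb : 2 ≤ b) (hac : a ≤ c) : b ^ a ≤ b ^ c :=
  Real.rpow_le_rpow_of_exponent_le (by linarith) hac

theorem loc_num_bs_succ {b a : ℝ} (hb : 2 ≤ b) : 2 * b ^ a ≤ b ^ (a + 1) := by
  rw [Real.rpow_add (by linarith), Real.rpow_one, mul_comm]
  exact mul_le_mul_of_nonneg_left hb (Real.rpow_nonneg (by linarith) _)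

theorem loc_num_bs_add {b a c : ℝ} (hb : 2 ≤ b) : b ^ a + b ^ c ≤ b ^ (max a c + 1) := by
  have h1 := loc_num_bs_mono hb (le_max_left a c)
  have h2 := loc_num_bs_mono hb (le_max_right a c)
  have h3 := loc_num_bs_succ (a := max a c) hb
  linarith

theorem loc_num_bs_one_le {b a : ℝ} (hb : 2 ≤ b) (ha : 0 ≤ a) : 1 ≤ b ^ a :=
  Real.one_le_rpow (by linarith) ha

theorem loc_num_le_exp (x : ℝ) : x ≤ Real.exp x := by
  have := Real.add_one_le_exp x
  linarith

theorem loc_num_two_le_exp_one : (2 : ℝ) ≤ Real.exp 1 := by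
  have := Real.add_one_le_exp 1
  linarith

theorem loc_num_exp_half_le : Real.exp (1 / 2) ≤ 2 := by
  have h1 : Real.exp (1 / 2) ^ 2 = Real.exp 1 := by
    rw [← Real.exp_nat_mul]
    norm_num
  have h2 := Real.exp_one_lt_d9
  have h3 := Real.exp_pos (1 / 2)
  nlinarith

/-- `clog₂ N ≤ 2 t + 1` if `N ≤ e^t`. -/
theorem loc_num_clog_le (N : ℕ) {t : ℝ} (ht : 0 ≤ t) (h : (N : ℝ) ≤ Real.exp t) :
    (Nat.clog 2 N : ℝ) ≤ 2 * t + 1 := by
  have h1 : N ≤ 2 ^ ⌈2 * t⌉₊ := by
    have h2 : (N : ℝ) ≤ (2 : ℝ) ^ ⌈2 * t⌉₊ := by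
      calc (N : ℝ) ≤ Real.exp t := h
        _ ≤ Real.exp ((⌈2 * t⌉₊ : ℝ) * (1 / 2)) := by
            apply Real.exp_le_exp.2
            have := Nat.le_ceil (2 * t)
            linarith
        _ = Real.exp (1 / 2) ^ ⌈2 * t⌉₊ := Real.exp_nat_mul _ _
        _ ≤ 2 ^ ⌈2 * t⌉₊ := pow_le_pow_left₀ (Real.exp_pos _).le loc_num_exp_half_le _
    exact_mod_cast h2
  have h3 : (Nat.clog 2 N : ℝ) ≤ (⌈2 * t⌉₊ : ℝ) := by exact_mod_cast Nat.clog_le_of_le_pow h1
  have h4 := Nat.ceil_lt_add_one (by positivity : 0 ≤ 2 * t)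
  linarith

/-! ### the two classes -/

section Calc

variable {ι : Type*} (κ β : ι → ℝ)

/-- polynomially bounded -/
def loc_num_PB (f : ι → ℝ) : Prop := ∃ a k0 : ℝ, 0 ≤ a ∧ ∀ d, k0 ≤ κ d → |f d| ≤ β d ^ a

/-- exponentially bounded -/
def loc_num_EB (f : ι → ℝ) : Prop := ∃ a k0 : ℝ, 0 ≤ a ∧ ∀ d, k0 ≤ κ d → |f d| ≤ Real.exp (β d ^ a)

variable {κ β} {f g : ι → ℝ}

theorem loc_num_PB.mono (hg : loc_num_PB κ β g) (h : ∀ d, |f d| ≤ |g d|) : loc_num_PB κ β f := by
  obtain ⟨a, k0, ha, H⟩ := hg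
  exact ⟨a, k0, ha, fun d hd => (h d).trans (H d hd)⟩

theorem loc_num_EB.mono (hg : loc_num_EB κ β g) (h : ∀ d, |f d| ≤ |g d|) : loc_num_EB κ β f := by
  obtain ⟨a, k0, ha, H⟩ := hg
  exact ⟨a, k0, ha, fun d hd => (h d).trans (H d hd)⟩

theorem loc_num_PB.congr (hg : loc_num_PB κ β g) (h : ∀ d, f d = g d) : loc_num_PB κ β f :=
  hg.mono fun d => by rw [h d]

theorem loc_num_EB.congr (hg : loc_num_EB κ β g) (h : ∀ d, f d = g d) : loc_num_EB κ β f :=
  hg.mono fun d => by rw [h d]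

/-- comparison of nonnegative quantities -/
theorem loc_num_PB.of_le (hg : loc_num_PB κ β g) (h0 : ∀ d, 0 ≤ f d) (h : ∀ d, f d ≤ g d) : loc_num_PB κ β f :=
  hg.mono fun d => by rw [abs_of_nonneg (h0 d)]; exact (h d).trans (le_abs_self _)

theorem loc_num_EB.of_le (hg : loc_num_EB κ β g) (h0 : ∀ d, 0 ≤ f d) (h : ∀ d, f d ≤ g d) : loc_num_EB κ β f :=
  hg.mono fun d => by rw [abs_of_nonneg (h0 d)]; exact (h d).trans (le_abs_self _)

variable (hβ : ∀ d, κ d ≤ β d)

include hβ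

theorem loc_num_PB.const (c : ℝ) : loc_num_PB κ β fun _ => c :=
  ⟨1, max |c| 0, zero_le_one, fun d hd => by
    rw [Real.rpow_one]
    exact (le_max_left _ _).trans (hd.trans (hβ d))⟩

theorem loc_num_PB.kappa : loc_num_PB κ β κ :=
  ⟨1, 0, zero_le_one, fun d hd => by
    rw [Real.rpow_one, abs_of_nonneg hd]
    exact hβ d⟩

theorem loc_num_PB.base : loc_num_PB κ β β :=
  ⟨1, 0, zero_le_one, fun d hd => by
    rw [Real.rpow_one, abs_of_nonneg (hd.trans (hβ d))]⟩

theorem loc_num_PB.add (hf : loc_num_PB κ β f) (hg : loc_num_PB κ β g) : loc_num_PB κ β fun d => f d + g d := by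
  obtain ⟨a, k1, ha, H1⟩ := hf
  obtain ⟨c, k2, _, H2⟩ := hg
  refine ⟨max a c + 1, max (max k1 k2) 2, by positivity, fun d hd => ?_⟩
  have hb : 2 ≤ β d := (le_max_right _ _).trans (hd.trans (hβ d))
  have h1 := H1 d (((le_max_left _ _).trans (le_max_left _ _)).trans hd)
  have h2 := H2 d (((le_max_right _ _).trans (le_max_left _ _)).trans hd)
  exact (abs_add_le _ _).trans ((add_le_add h1 h2).trans (loc_num_bs_add hb))

theorem loc_num_PB.mul (hf : loc_num_PB κ β f) (hg : loc_num_PB κ β g) : loc_num_PB κ β fun d => f d * g d := by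
  obtain ⟨a, k1, ha, H1⟩ := hf
  obtain ⟨c, k2, hc, H2⟩ := hg
  refine ⟨a + c, max (max k1 k2) 2, by positivity, fun d hd => ?_⟩
  have hb : 2 ≤ β d := (le_max_right _ _).trans (hd.trans (hβ d))
  have h1 := H1 d (((le_max_left _ _).trans (le_max_left _ _)).trans hd)
  have h2 := H2 d (((le_max_right _ _).trans (le_max_left _ _)).trans hd)
  rw [abs_mul, Real.rpow_add (by linarith)]
  exact mul_le_mul h1 h2 (abs_nonneg _) (Real.rpow_nonneg (by linarith) _)

theorem loc_num_PB.neg (hf : loc_num_PB κ β f) : loc_num_PB κ β fun d => -f d :=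
  hf.mono fun d => by rw [abs_neg]

theorem loc_num_PB.sub (hf : loc_num_PB κ β f) (hg : loc_num_PB κ β g) : loc_num_PB κ β fun d => f d - g d :=
  (hf.add hβ (hg.neg hβ)).congr fun d => sub_eq_add_neg _ _

theorem loc_num_PB.pow (hf : loc_num_PB κ β f) (n : ℕ) : loc_num_PB κ β fun d => f d ^ n := by
  induction n with
  | zero => exact (loc_num_PB.const hβ 1).congr fun d => pow_zero _
  | succ n ih => exact (ih.mul hβ hf).congr fun d => pow_succ _ _

theorem loc_num_PB.rpow (hf : loc_num_PB κ β f) {s : ℝ} (hs : 0 ≤ s) : loc_num_PB κ β fun d => f d ^ s := by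
  obtain ⟨a, k1, ha, H1⟩ := hf
  refine ⟨a * s, max k1 2, by positivity, fun d hd => ?_⟩
  have hb : 2 ≤ β d := (le_max_right _ _).trans (hd.trans (hβ d))
  have h1 := H1 d ((le_max_left _ _).trans hd)
  rw [Real.rpow_mul (by linarith)]
  exact (Real.abs_rpow_le_abs_rpow _ _).trans (Real.rpow_le_rpow (abs_nonneg _) h1 hs)

theorem loc_num_PB.fmax (hf : loc_num_PB κ β f) (hg : loc_num_PB κ β g) : loc_num_PB κ β fun d => max (f d) (g d) := by
  have h := (hf.mono (f := fun d => |f d|) fun d => by rw [abs_abs]).add hβ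
    (hg.mono (f := fun d => |g d|) fun d => by rw [abs_abs])
  refine h.mono fun d => ?_
  rw [abs_of_nonneg (add_nonneg (abs_nonneg (f d)) (abs_nonneg (g d)))]
  refine abs_le.2 ⟨?_, ?_⟩
  · have := neg_abs_le (f d)
    have h2 := le_max_left (f d) (g d)
    have h3 := abs_nonneg (g d)
    linarith
  · exact max_le (by linarith [le_abs_self (f d), abs_nonneg (g d)]) (by linarith [le_abs_self (g d), abs_nonneg (f d)])

theorem loc_num_PB.natCeil (hf : loc_num_PB κ β f) : loc_num_PB κ β fun d => ((⌈f d⌉₊ : ℕ) : ℝ) := by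
  refine (((hf.mono (f := fun d => |f d|) fun d => by rw [abs_abs])).add hβ (loc_num_PB.const hβ 1)).of_le
    (fun d => Nat.cast_nonneg _) fun d => ?_
  have h1 : (⌈f d⌉₊ : ℝ) ≤ (⌈|f d|⌉₊ : ℝ) := by exact_mod_cast Nat.ceil_mono (le_abs_self _)
  exact h1.trans (Nat.ceil_lt_add_one (abs_nonneg _)).le

theorem loc_num_PB.natFloor (hf : loc_num_PB κ β f) : loc_num_PB κ β fun d => ((⌊f d⌋₊ : ℕ) : ℝ) := by
  refine ((hf.mono (f := fun d => |f d|) fun d => by rw [abs_abs])).of_le (fun d => Nat.cast_nonneg _) fun d => ?_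
  have h1 : (⌊f d⌋₊ : ℝ) ≤ (⌊|f d|⌋₊ : ℝ) := by exact_mod_cast Nat.floor_mono (le_abs_self _)
  exact h1.trans (Nat.floor_le (abs_nonneg _))

/-- powers of the large parameter -/
theorem loc_num_PB.kappa_rpow {s : ℝ} (hs : 0 ≤ s) : loc_num_PB κ β fun d => κ d ^ s :=
  (loc_num_PB.kappa hβ).rpow hβ hs

/-! #### exponential bounds -/

theorem loc_num_PB.toEB (hf : loc_num_PB κ β f) : loc_num_EB κ β f := by
  obtain ⟨a, k1, ha, H1⟩ := hf
  exact ⟨a, k1, ha, fun d hd => (H1 d hd).trans (loc_num_le_exp _)⟩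

theorem loc_num_PB.exp (hf : loc_num_PB κ β f) : loc_num_EB κ β fun d => Real.exp (f d) := by
  obtain ⟨a, k1, ha, H1⟩ := hf
  refine ⟨a, k1, ha, fun d hd => ?_⟩
  rw [abs_of_pos (Real.exp_pos _)]
  exact Real.exp_le_exp.2 ((le_abs_self _).trans (H1 d hd))

theorem loc_num_EB.const (c : ℝ) : loc_num_EB κ β fun _ => c := (loc_num_PB.const hβ c).toEB hβ

theorem loc_num_EB.mul (hf : loc_num_EB κ β f) (hg : loc_num_EB κ β g) : loc_num_EB κ β fun d => f d * g d := by
  obtain ⟨a, k1, ha, H1⟩ := hf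
  obtain ⟨c, k2, _, H2⟩ := hg
  refine ⟨max a c + 1, max (max k1 k2) 2, by positivity, fun d hd => ?_⟩
  have hb : 2 ≤ β d := (le_max_right _ _).trans (hd.trans (hβ d))
  have h1 := H1 d (((le_max_left _ _).trans (le_max_left _ _)).trans hd)
  have h2 := H2 d (((le_max_right _ _).trans (le_max_left _ _)).trans hd)
  rw [abs_mul]
  calc |f d| * |g d| ≤ Real.exp (β d ^ a) * Real.exp (β d ^ c) :=
        mul_le_mul h1 h2 (abs_nonneg _) (Real.exp_pos _).le
    _ = Real.exp (β d ^ a + β d ^ c) := (Real.exp_add _ _).symm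
    _ ≤ _ := Real.exp_le_exp.2 (loc_num_bs_add hb)

theorem loc_num_EB.add (hf : loc_num_EB κ β f) (hg : loc_num_EB κ β g) : loc_num_EB κ β fun d => f d + g d := by
  obtain ⟨a, k1, ha, H1⟩ := hf
  obtain ⟨c, k2, _, H2⟩ := hg
  refine ⟨max a c + 1, max (max k1 k2) 2, by positivity, fun d hd => ?_⟩
  have hb : 2 ≤ β d := (le_max_right _ _).trans (hd.trans (hβ d))
  have h1 := H1 d (((le_max_left _ _).trans (le_max_left _ _)).trans hd)
  have h2 := H2 d (((le_max_right _ _).trans (le_max_left _ _)).trans hd)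
  have h3 : Real.exp (β d ^ a) ≤ Real.exp (β d ^ max a c) :=
    Real.exp_le_exp.2 (loc_num_bs_mono hb (le_max_left _ _))
  have h4 : Real.exp (β d ^ c) ≤ Real.exp (β d ^ max a c) :=
    Real.exp_le_exp.2 (loc_num_bs_mono hb (le_max_right _ _))
  have h5 : 1 ≤ β d ^ max a c := loc_num_bs_one_le hb (ha.trans (le_max_left _ _))
  calc |f d + g d| ≤ |f d| + |g d| := abs_add_le _ _
    _ ≤ 2 * Real.exp (β d ^ max a c) := by linarith
    _ ≤ Real.exp 1 * Real.exp (β d ^ max a c) :=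
        mul_le_mul_of_nonneg_right loc_num_two_le_exp_one (Real.exp_pos _).le
    _ = Real.exp (1 + β d ^ max a c) := (Real.exp_add _ _).symm
    _ ≤ _ := by
        apply Real.exp_le_exp.2
        have := loc_num_bs_succ (a := max a c) hb
        linarith

theorem loc_num_EB.pow (hf : loc_num_EB κ β f) (n : ℕ) : loc_num_EB κ β fun d => f d ^ n := by
  induction n with
  | zero => exact (loc_num_EB.const hβ 1).congr fun d => pow_zero _
  | succ n ih => exact (ih.mul hβ hf).congr fun d => pow_succ _ _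

/-- powers with a polynomially bounded exponent -/
theorem loc_num_EB.npow (hf : loc_num_EB κ β f) {N : ι → ℕ} (hN : loc_num_PB κ β fun d => (N d : ℝ)) :
    loc_num_EB κ β fun d => f d ^ N d := by
  obtain ⟨a, k1, ha, H1⟩ := hf
  obtain ⟨c, k2, hc, H2⟩ := hN
  refine ⟨c + a, max (max k1 k2) 2, by positivity, fun d hd => ?_⟩
  have hb : 2 ≤ β d := (le_max_right _ _).trans (hd.trans (hβ d))
  have h1 := H1 d (((le_max_left _ _).trans (le_max_left _ _)).trans hd)
  have h2 := H2 d (((le_max_right _ _).trans (le_max_left _ _)).trans hd)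
  rw [abs_of_nonneg (Nat.cast_nonneg _)] at h2
  rw [abs_pow]
  calc |f d| ^ N d ≤ Real.exp (β d ^ a) ^ N d := pow_le_pow_left₀ (abs_nonneg _) h1 _
    _ = Real.exp ((N d : ℝ) * β d ^ a) := (Real.exp_nat_mul _ _).symm
    _ ≤ _ := by
        apply Real.exp_le_exp.2
        rw [Real.rpow_add (by linarith)]
        exact mul_le_mul_of_nonneg_right h2 (Real.rpow_nonneg (by linarith) _)

theorem loc_num_EB.abs (hf : loc_num_EB κ β f) : loc_num_EB κ β fun d => |f d| :=
  hf.mono fun d => by rw [abs_abs]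

theorem loc_num_EB.fmax (hf : loc_num_EB κ β f) (hg : loc_num_EB κ β g) : loc_num_EB κ β fun d => max (f d) (g d) := by
  refine ((hf.abs hβ).add hβ (hg.abs hβ)).mono fun d => ?_
  rw [abs_of_nonneg (add_nonneg (abs_nonneg (f d)) (abs_nonneg (g d)))]
  refine abs_le.2 ⟨?_, ?_⟩
  · have := neg_abs_le (f d)
    have h2 := le_max_left (f d) (g d)
    have h3 := abs_nonneg (g d)
    linarith
  · exact max_le (by linarith [le_abs_self (f d), abs_nonneg (g d)]) (by linarith [le_abs_self (g d), abs_nonneg (f d)])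

theorem loc_num_EB.natCeil (hf : loc_num_EB κ β f) : loc_num_EB κ β fun d => ((⌈f d⌉₊ : ℕ) : ℝ) := by
  refine ((hf.abs hβ).add hβ (loc_num_EB.const hβ 1)).of_le (fun d => Nat.cast_nonneg _) fun d => ?_
  have h1 : (⌈f d⌉₊ : ℝ) ≤ (⌈|f d|⌉₊ : ℝ) := by exact_mod_cast Nat.ceil_mono (le_abs_self _)
  exact h1.trans (Nat.ceil_lt_add_one (abs_nonneg _)).le

/-- logarithms of exponentially bounded quantities `≥ 1` -/
theorem loc_num_EB.log (hf : loc_num_EB κ β f) (h1 : ∀ d, 1 ≤ f d) : loc_num_PB κ β fun d => Real.log (f d) := by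
  obtain ⟨a, k1, ha, H1⟩ := hf
  refine ⟨a, k1, ha, fun d hd => ?_⟩
  have h2 := H1 d hd
  rw [abs_of_nonneg (by linarith [h1 d])] at h2
  rw [abs_of_nonneg (Real.log_nonneg (h1 d)), Real.log_le_iff_le_exp (by linarith [h1 d])]
  exact h2

theorem loc_num_EB.clog {N : ι → ℕ} (hN : loc_num_EB κ β fun d => (N d : ℝ)) :
    loc_num_PB κ β fun d => (Nat.clog 2 (N d) : ℝ) := by
  obtain ⟨a, k1, ha, H1⟩ := hN
  have h0 : loc_num_PB κ β fun d => 2 * β d ^ a + 1 :=
    ((loc_num_PB.const hβ 2).mul hβ ((loc_num_PB.base hβ).rpow hβ ha)).add hβ (loc_num_PB.const hβ 1)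
  obtain ⟨c, k2, hc, H2⟩ := h0
  refine ⟨c, max (max k1 k2) 2, hc, fun d hd => ?_⟩
  have hb : 2 ≤ β d := (le_max_right _ _).trans (hd.trans (hβ d))
  have h1 := H1 d (((le_max_left _ _).trans (le_max_left _ _)).trans hd)
  have h2 := H2 d (((le_max_right _ _).trans (le_max_left _ _)).trans hd)
  rw [abs_of_nonneg (Nat.cast_nonneg _)] at h1 ⊢
  exact (loc_num_clog_le _ (Real.rpow_nonneg (by linarith) _) h1).trans ((le_abs_self _).trans h2)

end Calc

/-- change of base -/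
theorem loc_num_PB.lift {ι : Type*} {κ β : ι → ℝ} {f : ι → ℝ} (hβ : ∀ d, κ d ≤ β d) (hf : loc_num_PB κ κ f) :
    loc_num_PB κ β f := by
  obtain ⟨a, k1, ha, H1⟩ := hf
  refine ⟨a, max k1 0, ha, fun d hd => ?_⟩
  exact (H1 d ((le_max_left _ _).trans hd)).trans
    (Real.rpow_le_rpow ((le_max_right _ _).trans hd) (hβ d) ha)

end Claimed.Agent.R258
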