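/-
Row 258 (S0498), Sec. 6, block [LOC-NUM] (helper136).  FILE NumData: the data `(k, D, M, P, C3)` of `loc_numerics`, the chosen accuracies as functions
of the data, and their polynomial / exponential bounds (calculus of `Loc/NumCalc.lean`).  `C3` is part of the data, with `C3 ≤ k`: so no exponent
depends on `C3`.
-/
import Claimed.Agent.R258.Loc.NumCalc
import Claimed.Agent.R258.Loc.S6aGoals
import Claimed.Agent.R258.Color.Num

set_option autoImplicit false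
set_option linter.unusedSectionVars false
set_option linter.unusedVariables false

namespace Claimed.Agent.R258

/-- the data of one attempt -/
structure loc_num_Dat (Cb : ℝ) where
  k : ℝ
  D : ℝ
  M : ℝ
  C3 : ℝ
  P : ℕ
  hk : 1 ≤ k
  hD1 : Real.exp k ≤ D
  hD2 : D ≤ Real.exp (k ^ Cb)
  hM1 : 1 ≤ M
  hM2 : M ≤ D ^ Cb
  hP1 : 1 ≤ P
  hP2 : (P : ℝ) ≤ Real.exp k
  hC0 : 0 ≤ C3
  hC3 : C3 ≤ k

variable {Cb : ℝ}

namespace loc_num_Dat

variable (d : loc_num_Dat Cb)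

theorem one_le_D : 1 ≤ d.D := (Real.one_le_exp (by linarith [d.hk])).trans d.hD1

theorem D_pos : 0 < d.D := lt_of_lt_of_le one_pos d.one_le_D

theorem logD_nonneg : 0 ≤ Real.log d.D := Real.log_nonneg d.one_le_D

theorem logD_le : Real.log d.D ≤ d.k ^ Cb := (Real.log_le_iff_le_exp d.D_pos).2 d.hD2

theorem le_pD : d.D ≤ (⌈d.D⌉₊ : ℝ) := Nat.le_ceil _

theorem pD_le : (⌈d.D⌉₊ : ℝ) ≤ d.D + 1 := (Nat.ceil_lt_add_one d.D_pos.le).le

theorem one_le_pD : (1 : ℝ) ≤ (⌈d.D⌉₊ : ℝ) := d.one_le_D.trans d.le_pD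

end loc_num_Dat

/-! ### the choices -/

noncomputable def loc_num_par (d : loc_num_Dat Cb) : LocParams := loc_params ⌈d.D⌉₊ d.P

noncomputable def loc_num_m0 (d : loc_num_Dat Cb) : ℕ := Nat.clog 2 (loc_num_par d).L + 2

noncomputable def loc_num_Hc (Cs : ℝ) (d : loc_num_Dat Cb) : ℝ := max (9 * d.D) Cs

noncomputable def loc_num_n (C2 : ℝ) (d : loc_num_Dat Cb) (r : ℕ) : ℝ := (⌈d.D⌉₊ : ℝ) * Real.exp (r * d.k ^ C2)

noncomputable def loc_num_big (d : loc_num_Dat Cb) : ℝ :=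
  10 ^ 6 * d.M * (((loc_num_par d).L : ℝ) + 1) * (d.D + 1) ^ 6 * (((loc_num_par d).d0 : ℝ) ^ 8 + 1) ^ 2
    * 4 ^ (loc_num_m0 d) * ((loc_num_m0 d : ℝ) + 1) * (((loc_num_par d).P : ℝ) + 1) ^ 2

/-- `n (𝓛 + 5)` -/
noncomputable def loc_num_nT (C2 : ℝ) (d : loc_num_Dat Cb) : ℝ := loc_num_n C2 d ((loc_num_par d).L + 5)

noncomputable def loc_num_tau2 (C2 : ℝ) (d : loc_num_Dat Cb) : ℝ :=
  min (Real.exp (-d.k)) (d.D ^ (-d.C3)) / (loc_num_big d * loc_num_nT C2 d ^ 2)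

noncomputable def loc_num_acc (Cs Cn a3 C2 : ℝ) (d : loc_num_Dat Cb) (Hpath : ℝ) : LocSys.Acc where
  D := d.D
  Dm := loc_num_nT C2 d * loc_num_Hc Cs d
  M := d.M
  Hc := loc_num_Hc Cs d
  H0 := qpoly Cs (Real.log (loc_num_Hc Cs d))
  τ2 := loc_num_tau2 C2 d
  τ3 := Real.exp (-(d.k ^ a3))
  n := loc_num_n C2 d
  m0 := loc_num_m0 d
  Hpath := Hpath
  Nb := 4 * Real.exp (d.k ^ Cn)
  dmax := ⌊Real.log d.D⌋₊
  Hb := 3 * d.D

noncomputable def loc_num_Hed (Cs Cq C2 : ℝ) (d : loc_num_Dat Cb) : ℝ :=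
  max 2 (qpoly Cq (Real.log (loc_num_Hc Cs d) + Real.log (1 / loc_num_tau2 C2 d)))

/-! ### bounds, for an arbitrary base `β ≥ k` -/

/-- polynomially bounded functions of the data -/
abbrev loc_num_P (β f : loc_num_Dat Cb → ℝ) : Prop := loc_num_PB (fun d : loc_num_Dat Cb => d.k) β f

/-- exponentially bounded functions of the data -/
abbrev loc_num_E (β f : loc_num_Dat Cb → ℝ) : Prop := loc_num_EB (fun d : loc_num_Dat Cb => d.k) β f

section Bounds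

variable {β : loc_num_Dat Cb → ℝ} (hβ : ∀ d : loc_num_Dat Cb, d.k ≤ β d) (hCb : 1 ≤ Cb)


include hβ hCb

theorem loc_num_pb_k : loc_num_P β fun d => d.k := loc_num_PB.kappa hβ

theorem loc_num_pb_kpow {s : ℝ} (hs : 0 ≤ s) : loc_num_P β fun d => d.k ^ s := loc_num_PB.kappa_rpow hβ hs

theorem loc_num_pb_logD : loc_num_P β fun d => Real.log d.D :=
  (loc_num_pb_kpow hβ hCb (by linarith : 0 ≤ Cb)).of_le (fun d => d.logD_nonneg) fun d => d.logD_le

theorem loc_num_pb_C3 : loc_num_P β fun d => d.C3 := (loc_num_pb_k hβ hCb).of_le (fun d => d.hC0) fun d => d.hC3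

theorem loc_num_eb_D : loc_num_E β fun d => d.D :=
  ((loc_num_pb_logD hβ hCb).exp hβ).congr fun d => (Real.exp_log d.D_pos).symm

theorem loc_num_eb_M : loc_num_E β fun d => d.M := by
  refine ((((loc_num_pb_logD hβ hCb).mul hβ (loc_num_PB.const hβ Cb))).exp hβ).of_le
    (fun d => by linarith [d.hM1]) fun d => ?_
  rw [← Real.rpow_def_of_pos d.D_pos]
  exact d.hM2

theorem loc_num_eb_P : loc_num_E β fun d => (d.P : ℝ) :=
  ((loc_num_pb_k hβ hCb).exp hβ).of_le (fun d => Nat.cast_nonneg _) fun d => d.hP2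

theorem loc_num_eb_pD : loc_num_E β fun d => ((⌈d.D⌉₊ : ℕ) : ℝ) := (loc_num_eb_D hβ hCb).natCeil hβ

theorem loc_num_pb_d0 : loc_num_P β fun d => ((loc_num_par d).d0 : ℝ) := by
  have h1 : loc_num_P β fun d => Real.log (2 * ((⌈d.D⌉₊ : ℕ) : ℝ)) :=
    ((loc_num_EB.const hβ 2).mul hβ (loc_num_eb_pD hβ hCb)).log hβ fun d => by linarith [d.one_le_pD]
  exact ((loc_num_PB.const hβ 1000).mul hβ h1).natCeil hβ

theorem loc_num_L_cast (d : loc_num_Dat Cb) : ((loc_num_par d).L : ℝ) = ((loc_num_par d).d0 : ℝ) ^ 30 := by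
  unfold LocParams.L
  push_cast
  rfl

theorem loc_num_pb_L : loc_num_P β fun d => ((loc_num_par d).L : ℝ) :=
  ((loc_num_pb_d0 hβ hCb).pow hβ 30).congr fun d => loc_num_L_cast hβ hCb d

theorem loc_num_pb_m0 : loc_num_P β fun d => (loc_num_m0 d : ℝ) := by
  refine ((((loc_num_pb_L hβ hCb).toEB hβ).clog hβ).add hβ (loc_num_PB.const hβ 2)).congr fun d => ?_
  unfold loc_num_m0
  push_cast
  rfl

theorem loc_num_eb_big : loc_num_E β fun d => loc_num_big d := by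
  unfold loc_num_big
  have e1 : loc_num_E β fun d => (10 : ℝ) ^ 6 * d.M := (loc_num_EB.const hβ _).mul hβ (loc_num_eb_M hβ hCb)
  have e2 : loc_num_E β fun d => ((loc_num_par d).L : ℝ) + 1 :=
    ((loc_num_pb_L hβ hCb).add hβ (loc_num_PB.const hβ 1)).toEB hβ
  have e3 : loc_num_E β fun d => (d.D + 1) ^ 6 := ((loc_num_eb_D hβ hCb).add hβ (loc_num_EB.const hβ 1)).pow hβ 6
  have e4 : loc_num_E β fun d => (((loc_num_par d).d0 : ℝ) ^ 8 + 1) ^ 2 :=
    (((((loc_num_pb_d0 hβ hCb).pow hβ 8).add hβ (loc_num_PB.const hβ 1)).pow hβ 2)).toEB hβ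
  have e5 : loc_num_E β fun d => (4 : ℝ) ^ (loc_num_m0 d) := (loc_num_EB.const hβ 4).npow hβ (loc_num_pb_m0 hβ hCb)
  have e6 : loc_num_E β fun d => (loc_num_m0 d : ℝ) + 1 :=
    ((loc_num_pb_m0 hβ hCb).add hβ (loc_num_PB.const hβ 1)).toEB hβ
  have e7 : loc_num_E β fun d => (((loc_num_par d).P : ℝ) + 1) ^ 2 :=
    ((loc_num_eb_P hβ hCb).add hβ (loc_num_EB.const hβ 1)).pow hβ 2
  exact ((((((e1.mul hβ e2).mul hβ e3).mul hβ e4).mul hβ e5).mul hβ e6).mul hβ e7)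

theorem loc_num_eb_Hc (Cs : ℝ) : loc_num_E β fun d => loc_num_Hc Cs d :=
  ((loc_num_EB.const hβ 9).mul hβ (loc_num_eb_D hβ hCb)).fmax hβ (loc_num_EB.const hβ Cs)

theorem loc_num_one_le_Hc (Cs : ℝ) (d : loc_num_Dat Cb) : 1 ≤ loc_num_Hc Cs d :=
  le_trans (by linarith [d.one_le_D]) (le_max_left _ _)

theorem loc_num_pb_logHc (Cs : ℝ) : loc_num_P β fun d => Real.log (loc_num_Hc Cs d) :=
  (loc_num_eb_Hc hβ hCb Cs).log hβ fun d => loc_num_one_le_Hc hβ hCb Cs d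

/-- `qpoly C (f)` is exponentially bounded if `f` is polynomially bounded. -/
theorem loc_num_eb_qpoly {C : ℝ} (hC : 0 ≤ C) {f : loc_num_Dat Cb → ℝ} (hf : loc_num_P β f) : loc_num_E β fun d => qpoly C (f d) := by
  unfold qpoly
  exact ((loc_num_PB.const hβ C).mul hβ (((loc_num_PB.const hβ 1).add hβ hf).rpow hβ hC)).exp hβ

theorem loc_num_eb_H0 {Cs : ℝ} (hCs : 0 ≤ Cs) : loc_num_E β fun d => qpoly Cs (Real.log (loc_num_Hc Cs d)) :=
  loc_num_eb_qpoly hβ hCb hCs (loc_num_pb_logHc hβ hCb Cs)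

theorem loc_num_eb_Nf : loc_num_E β fun d => LocSys.Acc.Nf (loc_num_par d) := by
  unfold LocSys.Acc.Nf
  exact ((loc_num_pb_L hβ hCb).toEB hβ).add hβ ((loc_num_EB.const hβ 4).mul hβ (loc_num_eb_pD hβ hCb))

theorem loc_num_eb_nT {C2 : ℝ} (hC2 : 0 ≤ C2) : loc_num_E β fun d => loc_num_nT C2 d := by
  unfold loc_num_nT loc_num_n
  refine (loc_num_eb_pD hβ hCb).mul hβ (loc_num_PB.exp hβ ?_)
  refine (((loc_num_pb_L hβ hCb).add hβ (loc_num_PB.const hβ 5)).mul hβ (loc_num_pb_kpow hβ hCb hC2)).congr fun d => ?_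
  push_cast
  rfl

end Bounds

end Claimed.Agent.R258
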