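/-
Row 258 (S0498), Sec. 6, block [LOC-NUM] (helper136).  FILE NumMain: the choice of the exponents (in the non-circular order of Lemma 6.7) and the
verification of `LocSys.Acc.Num` for the accuracies `loc_num_acc` of `Loc/NumData.lean`.
-/
import Claimed.Agent.R258.Loc.NumData

set_option autoImplicit false
set_option linter.unusedSectionVars false
set_option linter.unusedVariables false

namespace Claimed.Agent.R258

variable {Cb : ℝ}

/-- "for `k` large" -/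
def loc_num_Ev (p : loc_num_Dat Cb → Prop) : Prop := ∃ k0 : ℝ, ∀ d : loc_num_Dat Cb, k0 ≤ d.k → p d

theorem loc_num_Ev.and {p q : loc_num_Dat Cb → Prop} (hp : loc_num_Ev p) (hq : loc_num_Ev q) :
    loc_num_Ev fun d => p d ∧ q d := by
  obtain ⟨k1, H1⟩ := hp
  obtain ⟨k2, H2⟩ := hq
  exact ⟨max k1 k2, fun d hd => ⟨H1 d ((le_max_left _ _).trans hd), H2 d ((le_max_right _ _).trans hd)⟩⟩

/-! ### elementary facts on the choices -/

theorem loc_num_one_le_n {C2 : ℝ} (d : loc_num_Dat Cb) (r : ℕ) : 1 ≤ loc_num_n C2 d r := by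
  unfold loc_num_n
  have h1 : 0 ≤ (r : ℝ) * d.k ^ C2 := mul_nonneg (Nat.cast_nonneg _) (Real.rpow_nonneg (by linarith [d.hk]) _)
  exact one_le_mul_of_one_le_of_one_le d.one_le_pD (Real.one_le_exp h1)

theorem loc_num_one_le_nT {C2 : ℝ} (d : loc_num_Dat Cb) : 1 ≤ loc_num_nT C2 d := loc_num_one_le_n d _

theorem loc_num_n_mono {C2 : ℝ} (d : loc_num_Dat Cb) : Monotone (loc_num_n C2 d) := by
  intro r s hrs
  unfold loc_num_n
  have h0 : 0 ≤ d.k ^ C2 := Real.rpow_nonneg (by linarith [d.hk]) _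
  have h1 : (r : ℝ) ≤ (s : ℝ) := by exact_mod_cast hrs
  exact mul_le_mul_of_nonneg_left (Real.exp_le_exp.2 (mul_le_mul_of_nonneg_right h1 h0)) (Nat.cast_nonneg _)

theorem loc_num_n_succ {C2 : ℝ} (d : loc_num_Dat Cb) (r : ℕ) (hr : 1 ≤ r) :
    loc_num_n C2 d (r - 1) * Real.exp (d.k ^ C2) = loc_num_n C2 d r := by
  unfold loc_num_n
  rw [mul_assoc, ← Real.exp_add]
  congr 2
  rw [Nat.cast_sub hr]
  push_cast
  ring

theorem loc_num_one_le_big (d : loc_num_Dat Cb) : 1 ≤ loc_num_big d := by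
  unfold loc_num_big
  have h1 : (1 : ℝ) ≤ 10 ^ 6 * d.M := by nlinarith [d.hM1]
  have h2 : (1 : ℝ) ≤ ((loc_num_par d).L : ℝ) + 1 := by
    have := Nat.cast_nonneg (α := ℝ) (loc_num_par d).L
    linarith
  have h3 : (1 : ℝ) ≤ (d.D + 1) ^ 6 := one_le_pow₀ (by linarith [d.one_le_D])
  have h4 : (1 : ℝ) ≤ (((loc_num_par d).d0 : ℝ) ^ 8 + 1) ^ 2 := by
    have := pow_nonneg (Nat.cast_nonneg (α := ℝ) (loc_num_par d).d0) 8
    exact one_le_pow₀ (by linarith)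
  have h5 : (1 : ℝ) ≤ 4 ^ (loc_num_m0 d) := one_le_pow₀ (by norm_num)
  have h6 : (1 : ℝ) ≤ (loc_num_m0 d : ℝ) + 1 := by
    have := Nat.cast_nonneg (α := ℝ) (loc_num_m0 d)
    linarith
  have h7 : (1 : ℝ) ≤ (((loc_num_par d).P : ℝ) + 1) ^ 2 := by
    have := Nat.cast_nonneg (α := ℝ) (loc_num_par d).P
    exact one_le_pow₀ (by linarith)
  exact one_le_mul_of_one_le_of_one_le (one_le_mul_of_one_le_of_one_le (one_le_mul_of_one_le_of_one_le
    (one_le_mul_of_one_le_of_one_le (one_le_mul_of_one_le_of_one_le (one_le_mul_of_one_le_of_one_le h1 h2) h3) h4) h5) h6) h7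

/-- the target `min (e^{-k}) (D^{-C3})` -/
noncomputable def loc_num_mu (d : loc_num_Dat Cb) : ℝ := min (Real.exp (-d.k)) (d.D ^ (-d.C3))

theorem loc_num_mu_pos (d : loc_num_Dat Cb) : 0 < loc_num_mu d :=
  lt_min (Real.exp_pos _) (Real.rpow_pos_of_pos d.D_pos _)

theorem loc_num_mu_le_one (d : loc_num_Dat Cb) : loc_num_mu d ≤ 1 :=
  (min_le_left _ _).trans (Real.exp_le_one_iff.2 (by linarith [d.hk]))

theorem loc_num_le_mu (d : loc_num_Dat Cb) : Real.exp (-(d.k + d.C3 * Real.log d.D)) ≤ loc_num_mu d := by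
  have h3 : 0 ≤ d.C3 * Real.log d.D := mul_nonneg d.hC0 d.logD_nonneg
  refine le_min (Real.exp_le_exp.2 (by linarith)) ?_
  rw [Real.rpow_def_of_pos d.D_pos]
  exact Real.exp_le_exp.2 (by linarith [d.hk])

theorem loc_num_den_ge {C2 : ℝ} (d : loc_num_Dat Cb) : 1 ≤ loc_num_big d * loc_num_nT C2 d ^ 2 :=
  one_le_mul_of_one_le_of_one_le (loc_num_one_le_big d) (one_le_pow₀ (loc_num_one_le_nT d))

theorem loc_num_tau2_eq {C2 : ℝ} (d : loc_num_Dat Cb) :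
    loc_num_tau2 C2 d = loc_num_mu d / (loc_num_big d * loc_num_nT C2 d ^ 2) := rfl

theorem loc_num_tau2_pos {C2 : ℝ} (d : loc_num_Dat Cb) : 0 < loc_num_tau2 C2 d := by
  rw [loc_num_tau2_eq]
  exact div_pos (loc_num_mu_pos d) (lt_of_lt_of_le one_pos (loc_num_den_ge d))

theorem loc_num_tau2_le_one {C2 : ℝ} (d : loc_num_Dat Cb) : loc_num_tau2 C2 d ≤ 1 := by
  rw [loc_num_tau2_eq, div_le_one (lt_of_lt_of_le one_pos (loc_num_den_ge d))]
  exact (loc_num_mu_le_one d).trans (loc_num_den_ge d)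

theorem loc_num_tau2_mul {C2 : ℝ} (d : loc_num_Dat Cb) :
    loc_num_tau2 C2 d * (loc_num_big d * loc_num_nT C2 d ^ 2) = loc_num_mu d := by
  rw [loc_num_tau2_eq]
  exact div_mul_cancel₀ _ (lt_of_lt_of_le one_pos (loc_num_den_ge d)).ne'

theorem loc_num_one_le_inv_tau2 {C2 : ℝ} (d : loc_num_Dat Cb) : 1 ≤ 1 / loc_num_tau2 C2 d := by
  rw [le_div_iff₀ (loc_num_tau2_pos d), one_mul]
  exact loc_num_tau2_le_one d

theorem loc_num_inv_tau2_le {C2 : ℝ} (d : loc_num_Dat Cb) :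
    1 / loc_num_tau2 C2 d ≤ loc_num_big d * loc_num_nT C2 d ^ 2 * Real.exp (d.k + d.C3 * Real.log d.D) := by
  rw [loc_num_tau2_eq, one_div_div, div_le_iff₀ (loc_num_mu_pos d), mul_assoc]
  have h0 : 0 ≤ loc_num_big d * loc_num_nT C2 d ^ 2 := le_trans zero_le_one (loc_num_den_ge d)
  have h1 : 1 ≤ Real.exp (d.k + d.C3 * Real.log d.D) * loc_num_mu d := by
    calc (1 : ℝ) = Real.exp (d.k + d.C3 * Real.log d.D) * Real.exp (-(d.k + d.C3 * Real.log d.D)) := by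
          rw [← Real.exp_add, add_neg_cancel, Real.exp_zero]
      _ ≤ _ := mul_le_mul_of_nonneg_left (loc_num_le_mu d) (Real.exp_pos _).le
  calc loc_num_big d * loc_num_nT C2 d ^ 2 = loc_num_big d * loc_num_nT C2 d ^ 2 * 1 := (mul_one _).symm
    _ ≤ _ := mul_le_mul_of_nonneg_left h1 h0

theorem loc_num_one_le_qpoly {C x : ℝ} (hC : 0 ≤ C) (hx : 0 ≤ x) : 1 ≤ qpoly C x := by
  unfold qpoly
  exact Real.one_le_exp (mul_nonneg hC (Real.rpow_nonneg (by linarith) _))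

theorem loc_num_logHc_nonneg (Cs : ℝ) (d : loc_num_Dat Cb) : 0 ≤ Real.log (loc_num_Hc Cs d) :=
  Real.log_nonneg (le_trans (by linarith [d.one_le_D]) (le_max_left _ _))

/-! ### Step 1: `τ₃` -/

theorem loc_num_exists_a3 (hCb : 1 ≤ Cb) : ∃ a3 : ℝ, 0 ≤ a3 ∧ loc_num_Ev fun d : loc_num_Dat Cb =>
    Real.exp (-(d.k ^ a3)) * loc_num_big d ≤ loc_num_mu d := by
  have hβ : ∀ d : loc_num_Dat Cb, d.k ≤ d.k := fun _ => le_rfl
  obtain ⟨ab, kb, hab, Hb⟩ := loc_num_eb_big hβ hCb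
  obtain ⟨a3, k3, ha3, H3⟩ := ((loc_num_pb_kpow hβ hCb hab).add hβ (loc_num_pb_k hβ hCb)).add hβ
    ((loc_num_pb_C3 hβ hCb).mul hβ (loc_num_pb_logD hβ hCb))
  refine ⟨a3, ha3, max kb k3, fun d hd => ?_⟩
  have h1 := (le_abs_self _).trans (Hb d ((le_max_left _ _).trans hd))
  have h2 := (le_abs_self _).trans (H3 d ((le_max_right _ _).trans hd))
  refine le_trans ?_ (loc_num_le_mu d)
  calc _ ≤ Real.exp (-(d.k ^ a3)) * Real.exp (d.k ^ ab) := mul_le_mul_of_nonneg_left h1 (Real.exp_pos _).le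
    _ = Real.exp (-(d.k ^ a3) + d.k ^ ab) := (Real.exp_add _ _).symm
    _ ≤ _ := Real.exp_le_exp.2 (by linarith)

/-! ### Step 2: the binary prefix factor, with an exponent which does not depend on `C2` -/

theorem loc_num_exists_aK (hCb : 1 ≤ Cb) : ∃ aK : ℝ, 0 ≤ aK ∧ ∀ C2 : ℝ, 0 ≤ C2 → loc_num_Ev fun d : loc_num_Dat Cb =>
    (2 * (s3_LT (⌈loc_num_nT C2 d⌉₊ + 1) : ℝ)) ^ (2 * loc_num_m0 d) ≤ Real.exp (d.k ^ aK) := by
  have hβ : ∀ d : loc_num_Dat Cb, d.k ≤ d.k := fun _ => le_rfl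
  obtain ⟨am, km, ham, Hm⟩ := loc_num_pb_m0 hβ hCb
  refine ⟨am + 3, by positivity, fun C2 hC2 => ?_⟩
  have e1 : loc_num_E (fun d => d.k) fun d : loc_num_Dat Cb => ((⌈loc_num_nT C2 d⌉₊ + 1 + 1 : ℕ) : ℝ) := by
    refine (((loc_num_eb_nT hβ hCb hC2).natCeil hβ).add hβ (loc_num_EB.const hβ 2)).congr fun d => ?_
    push_cast
    ring
  have p1 : loc_num_P (fun d => d.k) fun d : loc_num_Dat Cb => 2 * (s3_LT (⌈loc_num_nT C2 d⌉₊ + 1) : ℝ) := by
    refine ((loc_num_PB.const hβ 2).mul hβ ((loc_num_PB.const hβ 1).add hβ (e1.clog hβ))).congr fun d => ?_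
    unfold s3_LT
    push_cast
    rfl
  obtain ⟨bK, k5, hbK, H5⟩ := p1
  refine ⟨max (max km k5) (max bK 2), fun d hd => ?_⟩
  have hk2 : 2 ≤ d.k := ((le_max_right _ _).trans (le_max_right _ _)).trans hd
  have hkb : bK ≤ d.k := ((le_max_left _ _).trans (le_max_right _ _)).trans hd
  have h1 := Hm d (((le_max_left _ _).trans (le_max_left _ _)).trans hd)
  have h2 := H5 d (((le_max_right _ _).trans (le_max_left _ _)).trans hd)
  rw [abs_of_nonneg (Nat.cast_nonneg _)] at h1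
  rw [abs_of_nonneg (by positivity)] at h2
  have hk0 : 0 < d.k := by linarith
  calc (2 * (s3_LT (⌈loc_num_nT C2 d⌉₊ + 1) : ℝ)) ^ (2 * loc_num_m0 d)
      ≤ (d.k ^ bK) ^ (2 * loc_num_m0 d) := pow_le_pow_left₀ (by positivity) h2 _
    _ = Real.exp (((2 * loc_num_m0 d : ℕ) : ℝ) * (Real.log d.k * bK)) := by
        rw [Real.rpow_def_of_pos hk0, ← Real.exp_nat_mul]
    _ ≤ Real.exp (d.k ^ (am + 3)) := by
        apply Real.exp_le_exp.2
        have h3 : Real.log d.k ≤ d.k := (Real.log_le_sub_one_of_pos hk0).trans (by linarith)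
        have h4 : 0 ≤ Real.log d.k := Real.log_nonneg (by linarith)
        have h5 : d.k ^ (am + 3) = d.k ^ am * (d.k * d.k * d.k) := by
          rw [Real.rpow_add hk0]
          congr 1
          rw [show (3 : ℝ) = ((3 : ℕ) : ℝ) by norm_num, Real.rpow_natCast]
          ring
        rw [h5]
        push_cast
        have h6 : Real.log d.k * bK ≤ d.k * d.k := mul_le_mul h3 hkb hbK hk0.le
        have h7 : 2 * (loc_num_m0 d : ℝ) ≤ d.k * d.k ^ am := mul_le_mul hk2 h1 (Nat.cast_nonneg _) hk0.le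
        calc 2 * (loc_num_m0 d : ℝ) * (Real.log d.k * bK) ≤ (d.k * d.k ^ am) * (d.k * d.k) :=
              mul_le_mul h7 h6 (mul_nonneg h4 hbK) (by positivity)
          _ = _ := by ring

/-! ### Step 3: the exponent `C2` of the path counts -/

/-- the a-priori bound for `1 + M E`, the binary prefix factor being replaced by `exp (k^aK)` -/
noncomputable def loc_num_F1 (Cs Cn a3 aK : ℝ) (d : loc_num_Dat Cb) : ℝ :=
  1 + d.M * (4 * Real.exp (d.k ^ Cn) * LocSys.Acc.Nf (loc_num_par d) * ((loc_num_par d).P : ℝ)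
      * (2 * LocSys.Acc.Nf (loc_num_par d) + 1) ^ loc_num_m0 d
    * Real.exp (d.k ^ aK) * (2 * qpoly Cs (Real.log (loc_num_Hc Cs d)) ^ 2 * d.D ^ 2 * Real.exp (2 * d.k ^ a3)))

theorem loc_num_exists_C2 (hCb : 1 ≤ Cb) {Cs Cn a3 aK : ℝ} (hCs : 0 ≤ Cs) (hCn : 0 ≤ Cn) (ha3 : 0 ≤ a3) (haK : 0 ≤ aK) :
    ∃ C2 : ℝ, 0 ≤ C2 ∧ loc_num_Ev fun d : loc_num_Dat Cb => loc_num_F1 Cs Cn a3 aK d ≤ Real.exp (d.k ^ C2) := by
  have hβ : ∀ d : loc_num_Dat Cb, d.k ≤ d.k := fun _ => le_rfl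
  have e1 : loc_num_E (fun d => d.k) fun d : loc_num_Dat Cb => 4 * Real.exp (d.k ^ Cn) :=
    (loc_num_EB.const hβ 4).mul hβ ((loc_num_pb_kpow hβ hCb hCn).exp hβ)
  have e2 : loc_num_E (fun d => d.k) fun d : loc_num_Dat Cb => LocSys.Acc.Nf (loc_num_par d) := loc_num_eb_Nf hβ hCb
  have e3 : loc_num_E (fun d => d.k) fun d : loc_num_Dat Cb => ((loc_num_par d).P : ℝ) := loc_num_eb_P hβ hCb
  have e4 : loc_num_E (fun d => d.k) fun d : loc_num_Dat Cb => (2 * LocSys.Acc.Nf (loc_num_par d) + 1) ^ loc_num_m0 d :=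
    (((loc_num_EB.const hβ 2).mul hβ e2).add hβ (loc_num_EB.const hβ 1)).npow hβ (loc_num_pb_m0 hβ hCb)
  have e5 : loc_num_E (fun d => d.k) fun d : loc_num_Dat Cb => Real.exp (d.k ^ aK) := (loc_num_pb_kpow hβ hCb haK).exp hβ
  have e6 : loc_num_E (fun d => d.k) fun d : loc_num_Dat Cb =>
      2 * qpoly Cs (Real.log (loc_num_Hc Cs d)) ^ 2 * d.D ^ 2 * Real.exp (2 * d.k ^ a3) :=
    (((loc_num_EB.const hβ 2).mul hβ ((loc_num_eb_H0 hβ hCb hCs).pow hβ 2)).mul hβ ((loc_num_eb_D hβ hCb).pow hβ 2)).mul hβ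
      (((loc_num_PB.const hβ 2).mul hβ (loc_num_pb_kpow hβ hCb ha3)).exp hβ)
  have e7 : loc_num_E (fun d => d.k) fun d : loc_num_Dat Cb => loc_num_F1 Cs Cn a3 aK d :=
    (loc_num_EB.const hβ 1).add hβ ((loc_num_eb_M hβ hCb).mul hβ (((((e1.mul hβ e2).mul hβ e3).mul hβ e4).mul hβ e5).mul hβ e6))
  obtain ⟨C2, k4, hC2, H4⟩ := e7
  exact ⟨C2, hC2, k4, fun d hd => (le_abs_self _).trans (H4 d hd)⟩

theorem loc_num_Nf_nonneg (p : LocParams) : 0 ≤ LocSys.Acc.Nf p := by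
  unfold LocSys.Acc.Nf
  positivity

/-- `1 + M E ≤ F1` -/
theorem loc_num_E_le {Cs Cn a3 aK C2 : ℝ} (d : loc_num_Dat Cb) (Hpath : ℝ)
    (hK : (2 * (s3_LT (⌈loc_num_nT C2 d⌉₊ + 1) : ℝ)) ^ (2 * loc_num_m0 d) ≤ Real.exp (d.k ^ aK)) :
    1 + (loc_num_acc Cs Cn a3 C2 d Hpath).M * (loc_num_acc Cs Cn a3 C2 d Hpath).E (loc_num_par d) ≤ loc_num_F1 Cs Cn a3 aK d := by
  have hτ : (2 * qpoly Cs (Real.log (loc_num_Hc Cs d)) ^ 2 * d.D ^ 2) / (Real.exp (-(d.k ^ a3))) ^ 2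
      = 2 * qpoly Cs (Real.log (loc_num_Hc Cs d)) ^ 2 * d.D ^ 2 * Real.exp (2 * d.k ^ a3) := by
    rw [← Real.exp_nat_mul, div_eq_mul_inv, ← Real.exp_neg]
    congr 2
    push_cast
    ring
  have hN := loc_num_Nf_nonneg (loc_num_par d)
  have hE : (loc_num_acc Cs Cn a3 C2 d Hpath).E (loc_num_par d)
      = 4 * Real.exp (d.k ^ Cn) * LocSys.Acc.Nf (loc_num_par d) * ((loc_num_par d).P : ℝ)
          * (2 * LocSys.Acc.Nf (loc_num_par d) + 1) ^ loc_num_m0 d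
        * (2 * (s3_LT (⌈loc_num_nT C2 d⌉₊ + 1) : ℝ)) ^ (2 * loc_num_m0 d)
        * (2 * qpoly Cs (Real.log (loc_num_Hc Cs d)) ^ 2 * d.D ^ 2 * Real.exp (2 * d.k ^ a3)) := by
    rw [← hτ]
    rfl
  rw [hE]
  unfold loc_num_F1
  have hM : 0 ≤ d.M := by linarith [d.hM1]
  have h1 : 0 ≤ 4 * Real.exp (d.k ^ Cn) * LocSys.Acc.Nf (loc_num_par d) * ((loc_num_par d).P : ℝ)
          * (2 * LocSys.Acc.Nf (loc_num_par d) + 1) ^ loc_num_m0 d := by positivity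
  have h2 : 0 ≤ 2 * qpoly Cs (Real.log (loc_num_Hc Cs d)) ^ 2 * d.D ^ 2 * Real.exp (2 * d.k ^ a3) := by positivity
  have h3 := mul_le_mul_of_nonneg_left (mul_le_mul_of_nonneg_right (mul_le_mul_of_nonneg_left hK h1) h2) hM
  have h4 : (loc_num_acc Cs Cn a3 C2 d Hpath).M = d.M := rfl
  rw [h4]
  linarith

/-! ### `Acc.Num` -/

theorem loc_num_acc_num {Cs Cn a3 aK C2 : ℝ} (hCs : 0 ≤ Cs) (d : loc_num_Dat Cb) (Hpath : ℝ)
    (h3 : Real.exp (-(d.k ^ a3)) * loc_num_big d ≤ loc_num_mu d)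
    (hK : (2 * (s3_LT (⌈loc_num_nT C2 d⌉₊ + 1) : ℝ)) ^ (2 * loc_num_m0 d) ≤ Real.exp (d.k ^ aK))
    (hF : loc_num_F1 Cs Cn a3 aK d ≤ Real.exp (d.k ^ C2)) :
    (loc_num_acc Cs Cn a3 C2 d Hpath).Num (loc_num_par d) d.k d.C3 where
  k_ge := d.hk
  D_ge := d.hD1
  D_le := by
    show d.D ≤ loc_num_nT C2 d * loc_num_Hc Cs d
    have h1 : d.D ≤ loc_num_Hc Cs d := le_trans (by linarith [d.one_le_D]) (le_max_left _ _)
    have h2 := loc_num_one_le_nT (C2 := C2) d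
    nlinarith [d.one_le_D]
  pD_ge := d.le_pD
  pD_le := d.pD_le
  M_ge := d.hM1
  Hc_ge := by
    show d.D ≤ loc_num_Hc Cs d
    exact le_trans (by linarith [d.one_le_D]) (le_max_left _ _)
  Hc_le := by
    show loc_num_Hc Cs d ≤ loc_num_nT C2 d * loc_num_Hc Cs d
    have h1 : 0 ≤ loc_num_Hc Cs d := le_trans (by linarith [d.one_le_D]) (le_max_left _ _)
    have h2 := loc_num_one_le_nT (C2 := C2) d
    nlinarith
  H0_ge := loc_num_one_le_qpoly hCs (loc_num_logHc_nonneg Cs d)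
  Nb_ge := by
    show (4 : ℝ) ≤ 4 * Real.exp (d.k ^ Cn)
    have := Real.one_le_exp (Real.rpow_nonneg (by linarith [d.hk] : 0 ≤ d.k) Cn)
    linarith
  m0_ge := le_rfl
  n_mono := loc_num_n_mono d
  n_zero := by
    show ((⌈d.D⌉₊ : ℕ) : ℝ) ≤ loc_num_n C2 d 0
    unfold loc_num_n
    simp
  n_le := by
    intro r hr
    show loc_num_n C2 d r ≤ loc_num_nT C2 d * loc_num_Hc Cs d
    have h1 : 1 ≤ loc_num_Hc Cs d := le_trans (by linarith [d.one_le_D]) (le_max_left _ _)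
    have h2 : loc_num_n C2 d r ≤ loc_num_nT C2 d := loc_num_n_mono d hr
    have h4 := loc_num_one_le_nT (C2 := C2) d
    nlinarith
  ratio := by
    intro r hr _
    have h1 := (loc_num_E_le (Cs := Cs) (Cn := Cn) (a3 := a3) d Hpath hK).trans hF
    have h2 : 0 ≤ loc_num_n C2 d (r - 1) := le_trans zero_le_one (loc_num_one_le_n d _)
    calc _ ≤ loc_num_n C2 d (r - 1) * Real.exp (d.k ^ C2) := mul_le_mul_of_nonneg_left h1 h2
      _ = _ := loc_num_n_succ d r hr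
  τ2_pos := loc_num_tau2_pos d
  τ3_pos := Real.exp_pos _
  τ3_small := h3
  τ2_small := (loc_num_tau2_mul d).le

/-! ### Step 4: `Dm`, `τ₂`, `H_ed` -/

section Bounds2

variable {β : loc_num_Dat Cb → ℝ} (hβ : ∀ d : loc_num_Dat Cb, d.k ≤ β d) (hCb : 1 ≤ Cb)

include hβ hCb

theorem loc_num_eb_Dm (Cs : ℝ) {C2 : ℝ} (hC2 : 0 ≤ C2) : loc_num_E β fun d => loc_num_nT C2 d * loc_num_Hc Cs d :=
  (loc_num_eb_nT hβ hCb hC2).mul hβ (loc_num_eb_Hc hβ hCb Cs)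

theorem loc_num_pb_logtau {C2 : ℝ} (hC2 : 0 ≤ C2) : loc_num_P β fun d => Real.log (1 / loc_num_tau2 C2 d) := by
  have e1 : loc_num_E β fun d => loc_num_big d * loc_num_nT C2 d ^ 2 * Real.exp (d.k + d.C3 * Real.log d.D) :=
    ((loc_num_eb_big hβ hCb).mul hβ ((loc_num_eb_nT hβ hCb hC2).pow hβ 2)).mul hβ
      (((loc_num_pb_k hβ hCb).add hβ ((loc_num_pb_C3 hβ hCb).mul hβ (loc_num_pb_logD hβ hCb))).exp hβ)
  exact (e1.of_le (fun d => le_trans zero_le_one (loc_num_one_le_inv_tau2 d)) fun d => loc_num_inv_tau2_le d).log hβ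
    fun d => loc_num_one_le_inv_tau2 d

theorem loc_num_eb_Hed (Cs : ℝ) {Cq C2 : ℝ} (hCq : 0 ≤ Cq) (hC2 : 0 ≤ C2) : loc_num_E β fun d => loc_num_Hed Cs Cq C2 d :=
  (loc_num_EB.const hβ 2).fmax hβ
    (loc_num_eb_qpoly hβ hCb hCq ((loc_num_pb_logHc hβ hCb Cs).add hβ (loc_num_pb_logtau hβ hCb hC2)))

theorem loc_num_pb_logHed (Cs : ℝ) {Cq C2 : ℝ} (hCq : 0 ≤ Cq) (hC2 : 0 ≤ C2) :
    loc_num_P β fun d => Real.log (loc_num_Hed Cs Cq C2 d) :=
  (loc_num_eb_Hed hβ hCb Cs hCq hC2).log hβ fun d => le_trans (by norm_num) (le_max_left _ _)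

end Bounds2

/-! ### Step 5: `H_path`, in the base `k + P` -/

/-- the base `k + P` -/
noncomputable def loc_num_bP (d : loc_num_Dat Cb) : ℝ := d.k + d.P

theorem loc_num_le_bP (d : loc_num_Dat Cb) : d.k ≤ loc_num_bP d := by
  unfold loc_num_bP
  have := Nat.cast_nonneg (α := ℝ) d.P
  linarith

theorem loc_num_pb_P : loc_num_P loc_num_bP fun d : loc_num_Dat Cb => (d.P : ℝ) :=
  ((loc_num_PB.base loc_num_le_bP).sub loc_num_le_bP (loc_num_PB.kappa loc_num_le_bP)).congr fun d => by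
    unfold loc_num_bP
    ring

/-- the length of the paths -/
noncomputable def loc_num_Lp (d : loc_num_Dat Cb) : ℕ :=
  ((loc_num_par d).d0 + 1) * (loc_num_par d).b1 + (loc_num_par d).Hmax

theorem loc_num_pb_Lp (hCb : 1 ≤ Cb) : loc_num_P loc_num_bP fun d : loc_num_Dat Cb => (loc_num_Lp d : ℝ) := by
  have hβ := loc_num_le_bP (Cb := Cb)
  have pd := loc_num_pb_d0 hβ hCb
  have pL := loc_num_pb_L hβ hCb
  have pH : loc_num_P loc_num_bP fun d : loc_num_Dat Cb => ((loc_num_par d).Hmax : ℝ) := by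
    refine (((loc_num_PB.const hβ 100).mul hβ loc_num_pb_P).mul hβ (pL.add hβ (loc_num_PB.const hβ 1))).congr fun d => ?_
    unfold LocParams.Hmax
    push_cast
    rfl
  have pb2 : loc_num_P loc_num_bP fun d : loc_num_Dat Cb => ((loc_num_par d).b2 : ℝ) := by
    refine ((loc_num_PB.const hβ 100).mul hβ (pH.add hβ (loc_num_PB.const hβ 1))).congr fun d => ?_
    unfold LocParams.b2
    push_cast
    rfl
  have pb1 : loc_num_P loc_num_bP fun d : loc_num_Dat Cb => ((loc_num_par d).b1 : ℝ) := by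
    refine (((pd.pow hβ 10).mul hβ pb2).mul hβ (pH.add hβ (loc_num_PB.const hβ 1))).congr fun d => ?_
    unfold LocParams.b1
    push_cast
    rfl
  refine (((pd.add hβ (loc_num_PB.const hβ 1)).mul hβ pb1).add hβ pH).congr fun d => ?_
  unfold loc_num_Lp
  push_cast
  rfl

/-- the bound of `log H_path` in L6.2 -/
noncomputable def loc_num_R (Cs Cq Cp C2 : ℝ) (d : loc_num_Dat Cb) : ℝ :=
  Cp * (((loc_num_Lp d : ℝ) + 1) * ((⌊Real.log d.D⌋₊ : ℝ) + 1)) ^ 6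
    * (1 + Real.log (loc_num_Hed Cs Cq C2 d) + Real.log (3 * d.D))

theorem loc_num_pb_R (hCb : 1 ≤ Cb) (Cs Cp : ℝ) {Cq C2 : ℝ} (hCq : 0 ≤ Cq) (hC2 : 0 ≤ C2) :
    loc_num_P loc_num_bP fun d : loc_num_Dat Cb => loc_num_R Cs Cq Cp C2 d := by
  have hβ := loc_num_le_bP (Cb := Cb)
  have p1 : loc_num_P loc_num_bP fun d : loc_num_Dat Cb => (loc_num_Lp d : ℝ) + 1 :=
    (loc_num_pb_Lp hCb).add hβ (loc_num_PB.const hβ 1)
  have p2 : loc_num_P loc_num_bP fun d : loc_num_Dat Cb => (⌊Real.log d.D⌋₊ : ℝ) + 1 :=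
    ((loc_num_pb_logD hβ hCb).natFloor hβ).add hβ (loc_num_PB.const hβ 1)
  have p3 : loc_num_P loc_num_bP fun d : loc_num_Dat Cb => Real.log (3 * d.D) :=
    ((loc_num_EB.const hβ 3).mul hβ (loc_num_eb_D hβ hCb)).log hβ fun d => by linarith [d.one_le_D]
  exact ((loc_num_PB.const hβ Cp).mul hβ ((p1.mul hβ p2).pow hβ 6)).mul hβ
    (((loc_num_PB.const hβ 1).add hβ (loc_num_pb_logHed hβ hCb Cs hCq hC2)).add hβ p3)

/-! ### Step 6: `m0` -/

theorem loc_num_m0_le {aL : ℝ} (haL : 0 ≤ aL) (d : loc_num_Dat Cb) (hL : ((loc_num_par d).L : ℝ) ≤ d.k ^ aL) :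
    (loc_num_m0 d : ℝ) ≤ 2 * aL * Real.log d.k + 3 := by
  have hk0 : 0 < d.k := by linarith [d.hk]
  have h1 := loc_num_clog_le (loc_num_par d).L (t := Real.log d.k * aL) (mul_nonneg (Real.log_nonneg d.hk) haL)
    (by rw [← Real.rpow_def_of_pos hk0]; exact hL)
  unfold loc_num_m0
  push_cast
  linarith

theorem loc_num_L_le_nT {C2 : ℝ} (hC2 : 0 ≤ C2) (d : loc_num_Dat Cb) : ((loc_num_par d).L : ℝ) ≤ loc_num_nT C2 d := by
  unfold loc_num_nT loc_num_n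
  have h1 : 1 ≤ d.k ^ C2 := Real.one_le_rpow d.hk hC2
  have h2 : (0 : ℝ) ≤ ((loc_num_par d).L : ℝ) := Nat.cast_nonneg _
  have h3 : ((loc_num_par d).L : ℝ) ≤ (((loc_num_par d).L + 5 : ℕ) : ℝ) * d.k ^ C2 := by
    push_cast
    nlinarith
  have h4 := loc_num_le_exp ((((loc_num_par d).L + 5 : ℕ) : ℝ) * d.k ^ C2)
  have h5 := d.one_le_pD
  have h6 := Real.exp_pos ((((loc_num_par d).L + 5 : ℕ) : ℝ) * d.k ^ C2)
  nlinarith

end Claimed.Agent.R258
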