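/-
Row 258 (S0498), Sec. 6 (home architect helper68).  BLOCK [LOC-NUM]: the choice of all numerical accuracies of Sec. 6 (non-circular order of Lemma 6.7, last paragraph).
TOP STATEMENT: `loc_numerics`.  ARCHITECT+PROVER block, PURE REAL ANALYSIS ("for k large" inequalities between exponentials of powers of `k`); about 800 lines; files `Loc/Num*.lean`, prefix `loc_num_`.
No paper reading.  Definitions: `LocSys.Acc`, `Acc.Nf/Ncfg/T0/K/E/big`, `Acc.Num` in `Loc/IfaceTag.lean`; `LocParams` (`L = d0^30`, `Hmax = 100 P (L+1)`, `b2 = 100 (Hmax+1)`, `b1 = d0^10 b2 (Hmax+1)`) in `Loc/Basic.lean`;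
`loc_params D P = ⟨D, P, ⌈1000 log (2D)⌉₊⟩` in `Color/Num.lean`; `qpoly C x = exp (C (1+x)^C)` in `S5/Defs.lean`; `s3_LT T = 1 + Nat.clog 2 (T+1)`; goals of [S6a] in `Loc/S6aGoals.lean`.

GIVEN: `Cb ≥ 1`, `Cn ≥ 0`; constants `Cq, Cs, Cp ≥ 1` of the three goals.  `Cm` must NOT depend on `C3` (captain's memo #4); `kmin` may.
INPUT: `k ≥ kmin`, `e^k ≤ D ≤ exp (k^Cb)`, `1 ≤ M ≤ D^Cb`, `1 ≤ P ≤ e^k`.   Put `p = loc_params ⌈D⌉₊ P`, `pD = ⌈D⌉₊ ∈ [D, D+1]`.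
THE CHOICES, in this order (write `x ≲ k^a` for "`x ≤ k^a` for `k ≥ kmin`"):
 1. `d0 = ⌈1000 log (2 pD)⌉₊ ≤ 1000 (log 4 + k^Cb) + 1 ≲ k^(Cb+1)`;  `𝓛 = d0^30 ≲ k^(30 Cb+30)`;  `1 ≤ 𝓛`.
 2. `m0 := Nat.clog 2 𝓛 + 2 ≤ log₂ 𝓛 + 3 ≤ (30 Cb + 30) log k / log 2 + 3 ≤ Cm (1 + log k)`.
 3. `dmax := ⌊log D⌋₊` (so `exp dmax ≤ D`), `Hb := 3 D`, `Hc := max (9 D) Cs`, `H0 := qpoly Cs (log Hc)` (`≥ 1`);  `log Hc ≲ k^(Cb+1)`, `log H0 = Cs (1 + log Hc)^Cs ≲ k^(a0)`, `a0 = Cs (Cb+2) + 1`.   `LocSameGoal` gives `same`.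
 4. `log big ≤ log 10⁶ + log M + log (𝓛+1) + 6 log (D+1) + 2 log (d0⁸+1) + m0 log 4 + log (m0+1) + 2 log (P+1) ≲ k^(Cb+1)`.
    `τ₃ := exp (-k^(Cb+3))`.  Then `τ₃ big ≤ min (e^{-k}) (D^{-C3})` because `k^(Cb+3) ≥ k^(Cb+1) + k + C3 k^Cb` for `k ≥ max 3 C3`  [the ONLY place, with 7., where `C3` enters: through `kmin`].
 5. `Nb := 4 exp (k^Cn)`.
 6. `n r := pD * exp (r * k^C2)` with `C2` a large exponent depending only on `(Cb, Cn, Cs)`.  `n_mono`, `n_zero` clear.  `ratio` is `1 + M E ≤ exp (k^C2)`: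
    `log Nf ≤ log (𝓛 + 4 pD) ≲ k^(Cb+1)`,  `log Ncfg = log Nb + log Nf + log P + m0 log (2 Nf + 1) ≲ k^(Cn+1) + k^(Cb+2)`,
    `T0 = ⌈n(𝓛+5)⌉₊ + 1`, `L_{T0} = 1 + clog₂ (T0+1) ≤ 4 + log₂ (n(𝓛+5)) ≤ 4 + 2 (k^(Cb)+1 + (𝓛+5) k^C2) ≲ k^(C2 + 30 Cb + 32)`,
    `log K = 2 m0 log (2 L_{T0}) ≤ 2 m0 (1 + (C2 + 30 Cb + 32) log k) ≲ C2 · k` (crude: `m0 log k ≲ k^(1/2)`…; anything `≤ k^C2 / 4` will do, e.g. use `log k ≤ k`, `m0 ≤ k`: `log K ≤ 2k (1 + (C2+30Cb+32) k) ≤ k^3 · (C2 + 30 Cb + 40)`, fine if `C2 ≥ 5` and `k ≥ C2 + 30 Cb + 40`),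
    `log (2 H0² D² / τ₃²) = log 2 + 2 log H0 + 2 log D + 2 k^(Cb+3)`.   So `log (1 + M E) ≤ log 2 + log M + log E ≤ k^C2` with `C2 := max (a0, Cn, Cb + 3, 5) + 2`.
 7. `Dm := n(𝓛+5) * Hc` (all factors `≥ 1`, so `Dm ≥ D, Hc, n r (r ≤ 𝓛+5), 𝓛` [`𝓛 ≤ exp (k^C2) ≤ n 1`]);  `log Dm ≤ log (D+1) + (𝓛+5) k^C2 + log Hc ≲ k^(C2 + 30 Cb + 32)`.
    `τ₂ := min (e^{-k}) (D^{-C3}) / (big * n(𝓛+5)²)`: `τ2_small` holds with equality, `0 < τ₂ ≤ 1`;  `log (1/τ₂) ≤ k + C3 k^Cb + log big + 2 log n(𝓛+5) ≲ k^(C2 + 30 Cb + 33)`  (`k ≥ C3`).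
 8. `Hed := max 2 (qpoly Cq (log Hc + log (1/τ₂)))`; `LocSepGoal` gives `sep`;  `log Hed ≲ k^(a1)`, `a1 = Cq (C2 + 30 Cb + 34) + 1`.
 9. `Lp = (d0+1) b1 + Hmax ≤ (k+P)^(a2)` (polynomial in `d0 ≲ k^(Cb+1)` and `P`);  `LocPathGoal` gives `Hpath` with `log Hpath ≤ Cp ((Lp+1)(dmax+1))^6 (1 + log Hed + log Hb) ≤ (k+P)^Cm`;  `Hpath ≤ exp (log Hpath)` (`Real.le_exp_log`).
10. `Cm := ` the maximum of all exponents above `+ 1`.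
HINT: prove once and for all  `loc_num_pow : ∀ a b c : ℝ, a < b → ∃ k0, ∀ k ≥ k0, c * k^a ≤ k^b`  and  `log k ≤ k`, `k^a ≤ k^b` for `1 ≤ k`, `a ≤ b` (`Real.rpow_le_rpow_of_exponent_le`), and work with logarithms.
-/
import Claimed.Agent.R258.Loc.S6aGoals
import Claimed.Agent.R258.Color.Num
import Claimed.Agent.R258.Loc.NumMain

set_option autoImplicit false
open MeasureTheory

namespace Claimed.Agent.R258

/-- what the numerics deliver -/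
structure LocSys.Acc.Ok (A : LocSys.Acc) (c0 C0 k C3 Cm Cn D M : ℝ) (P : ℕ) (Hed : ℝ) : Prop where
  D_eq : A.D = D
  M_eq : A.M = M
  dmax_eq : A.dmax = ⌊Real.log D⌋₊
  Hb_eq : A.Hb = 3 * D
  num : A.Num (loc_params ⌈D⌉₊ P) k C3
  same : LocSameTagOk c0 C0 A.Hc A.H0 A.dmax A.Hb
  sep : LocSepOk (loc_tagSys Hed A.Hb A.dmax) c0 C0 A.Hc A.τ2 A.dmax A.Hb
  path : LocPathOk (loc_tagSys Hed A.Hb A.dmax)
    (((loc_params ⌈D⌉₊ P).d0 + 1) * (loc_params ⌈D⌉₊ P).b1 + (loc_params ⌈D⌉₊ P).Hmax) A.Hpath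
  Dm_le : A.Dm ≤ Real.exp (k ^ Cm)
  Nb_ge : Real.exp (k ^ Cn) ≤ A.Nb
  L_le : ((loc_params ⌈D⌉₊ P).L : ℝ) ≤ k ^ Cm
  L_le_Dm : ((loc_params ⌈D⌉₊ P).L : ℝ) ≤ A.Dm
  m0_le : (A.m0 : ℝ) ≤ Cm * (1 + Real.log k)
  Hpath_le : A.Hpath ≤ Real.exp ((k + P) ^ Cm)
  Hpath_ge : 1 ≤ A.Hpath

/-- the assembly, in terms of the data `d = (k, D, M, C3, P)` with `C3 ≤ k` (calculus: `Loc/NumCalc.lean`, choices: `Loc/NumData.lean`,
exponents: `Loc/NumMain.lean`) -/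
theorem loc_num_main (c0 C0 : ℝ) (h1 : LocSepGoal c0 C0) (h2 : LocSameGoal c0 C0) (h3 : LocPathGoal)
    (Cb Cn : ℝ) (hCb : 1 ≤ Cb) (hCn : 0 ≤ Cn) : ∃ Cm : ℝ, 0 < Cm ∧ ∃ k0 : ℝ, ∀ d : loc_num_Dat Cb, k0 ≤ d.k →
      ∃ (A : LocSys.Acc) (Hed : ℝ), A.Ok c0 C0 d.k d.C3 Cm Cn d.D d.M d.P Hed := by
  obtain ⟨Cq, hCq, H1⟩ := h1
  obtain ⟨Cs, hCs, H2⟩ := h2
  obtain ⟨Cp, hCp, H3⟩ := h3
  have hCq0 : 0 ≤ Cq := by linarith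
  have hCs0 : 0 ≤ Cs := by linarith
  have hβ : ∀ d : loc_num_Dat Cb, d.k ≤ d.k := fun _ => le_rfl
  obtain ⟨a3, ha3, E3⟩ := loc_num_exists_a3 hCb
  obtain ⟨aK, haK, EK⟩ := loc_num_exists_aK hCb
  obtain ⟨C2, hC2, EF⟩ := loc_num_exists_C2 hCb (Cs := Cs) (Cn := Cn) (a3 := a3) (aK := aK) hCs0 hCn ha3 haK
  obtain ⟨aD, kD, haD, HD⟩ := loc_num_eb_Dm hβ hCb Cs hC2
  obtain ⟨aL, kL, haL, HL⟩ := loc_num_pb_L hβ hCb
  obtain ⟨aP, kP, haP, HP⟩ := loc_num_pb_R hCb Cs Cp hCq0 hC2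
  obtain ⟨k1, HH⟩ := (E3.and (EK C2 hC2)).and EF
  refine ⟨aD + aP + 2 * aL + 3, by positivity, max (max k1 kD) (max kL kP), fun d hd => ?_⟩
  obtain ⟨⟨e3, eK⟩, eF⟩ := HH d (((le_max_left _ _).trans (le_max_left _ _)).trans hd)
  have eD := (le_abs_self _).trans (HD d (((le_max_right _ _).trans (le_max_left _ _)).trans hd))
  have eL := (le_abs_self _).trans (HL d (((le_max_left _ _).trans (le_max_right _ _)).trans hd))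
  have eP := (le_abs_self _).trans (HP d (((le_max_right _ _).trans (le_max_right _ _)).trans hd))
  have hD9 : 9 * d.D ≤ loc_num_Hc Cs d := le_max_left _ _
  have hD1 := d.one_le_D
  obtain ⟨Hpath, hp0, hp1, hp2⟩ := H3 (loc_num_Hed Cs Cq C2 d) (3 * d.D) ⌊Real.log d.D⌋₊ (loc_num_Lp d) (le_max_left _ _)
    (by linarith)
  have hlog : 0 ≤ Real.log d.k := Real.log_nonneg d.hk
  refine ⟨loc_num_acc Cs Cn a3 C2 d Hpath, loc_num_Hed Cs Cq C2 d, ?_⟩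
  have f_num : (loc_num_acc Cs Cn a3 C2 d Hpath).Num (loc_params ⌈d.D⌉₊ d.P) d.k d.C3 :=
    loc_num_acc_num hCs0 d Hpath e3 eK eF
  have f_same : LocSameTagOk c0 C0 (loc_num_Hc Cs d) (qpoly Cs (Real.log (loc_num_Hc Cs d))) ⌊Real.log d.D⌋₊ (3 * d.D) := by
    refine H2 (loc_num_Hc Cs d) _ (3 * d.D) ⌊Real.log d.D⌋₊ (by linarith) ?_ (le_max_right _ _) le_rfl
    have h4 : Real.exp (⌊Real.log d.D⌋₊ : ℝ) ≤ d.D := by
      calc Real.exp (⌊Real.log d.D⌋₊ : ℝ) ≤ Real.exp (Real.log d.D) := Real.exp_le_exp.2 (Nat.floor_le d.logD_nonneg)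
        _ = d.D := Real.exp_log d.D_pos
    have h5 : Real.exp 2 ≤ 9 := by
      have h6 := Real.exp_one_lt_d9
      have h7 : Real.exp 2 = Real.exp 1 * Real.exp 1 := by rw [← Real.exp_add]; norm_num
      have h8 := Real.exp_pos 1
      rw [h7]
      nlinarith
    rw [Real.exp_add]
    calc Real.exp (⌊Real.log d.D⌋₊ : ℝ) * Real.exp 2 ≤ d.D * 9 := mul_le_mul h4 h5 (Real.exp_pos _).le d.D_pos.le
      _ ≤ loc_num_Hc Cs d := by linarith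
  have f_sep : LocSepOk (loc_tagSys (loc_num_Hed Cs Cq C2 d) (3 * d.D) ⌊Real.log d.D⌋₊) c0 C0 (loc_num_Hc Cs d)
      (loc_num_tau2 C2 d) ⌊Real.log d.D⌋₊ (3 * d.D) :=
    H1 (loc_num_Hc Cs d) (loc_num_tau2 C2 d) _ (3 * d.D) ⌊Real.log d.D⌋₊ (by linarith) (loc_num_tau2_pos d) (loc_num_tau2_le_one d)
        (le_max_right _ _)
  have f_Dm : loc_num_nT C2 d * loc_num_Hc Cs d ≤ Real.exp (d.k ^ (aD + aP + 2 * aL + 3)) :=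
    eD.trans (Real.exp_le_exp.2 (Real.rpow_le_rpow_of_exponent_le d.hk (by linarith)))
  have f_Nb : Real.exp (d.k ^ Cn) ≤ 4 * Real.exp (d.k ^ Cn) := by
    have := Real.exp_pos (d.k ^ Cn)
    linarith
  have f_L : ((loc_num_par d).L : ℝ) ≤ d.k ^ (aD + aP + 2 * aL + 3) :=
    eL.trans (Real.rpow_le_rpow_of_exponent_le d.hk (by linarith))
  have f_LD : ((loc_num_par d).L : ℝ) ≤ loc_num_nT C2 d * loc_num_Hc Cs d := by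
    have h4 := loc_num_L_le_nT hC2 d
    have h5 := loc_num_one_le_nT (C2 := C2) d
    exact h4.trans (le_mul_of_one_le_right (by linarith) (by linarith))
  have f_m0 : (loc_num_m0 d : ℝ) ≤ (aD + aP + 2 * aL + 3) * (1 + Real.log d.k) := by
    have h4 := loc_num_m0_le haL d eL
    have h5 : 0 ≤ (aD + aP) * (1 + Real.log d.k) := by positivity
    have h6 : (aD + aP + 2 * aL + 3) * (1 + Real.log d.k)
        = (aD + aP) * (1 + Real.log d.k) + 2 * aL + 2 * aL * Real.log d.k + 3 + 3 * Real.log d.k := by ring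
    rw [h6]
    linarith
  have f_Hp : Hpath ≤ Real.exp ((d.k + d.P) ^ (aD + aP + 2 * aL + 3)) := by
    have h4 : (1 : ℝ) ≤ d.k + d.P := by
      have := Nat.cast_nonneg (α := ℝ) d.P
      linarith [d.hk]
    calc Hpath ≤ Real.exp (Real.log Hpath) := Real.le_exp_log _
      _ ≤ Real.exp ((d.k + d.P) ^ aP) := Real.exp_le_exp.2 (hp2.trans eP)
      _ ≤ _ := Real.exp_le_exp.2 (Real.rpow_le_rpow_of_exponent_le h4 (by linarith))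
  exact
    { D_eq := rfl
      M_eq := rfl
      dmax_eq := rfl
      Hb_eq := rfl
      num := f_num
      same := f_same
      sep := f_sep
      path := hp1
      Dm_le := f_Dm
      Nb_ge := f_Nb
      L_le := f_L
      L_le_Dm := f_LD
      m0_le := f_m0
      Hpath_le := f_Hp
      Hpath_ge := hp0 }

/-- **the numerical accuracies can be chosen** -/
theorem loc_numerics (c0 C0 : ℝ) (h1 : LocSepGoal c0 C0) (h2 : LocSameGoal c0 C0) (h3 : LocPathGoal) :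
    ∀ Cb Cn : ℝ, 1 ≤ Cb → 0 ≤ Cn → ∃ Cm : ℝ, 0 < Cm ∧ ∀ C3 : ℝ, 0 ≤ C3 → ∃ kmin : ℝ, 1 ≤ kmin ∧
    ∀ (k D M : ℝ) (P : ℕ), kmin ≤ k → Real.exp k ≤ D → D ≤ Real.exp (k ^ Cb) → 1 ≤ M → M ≤ D ^ Cb → 1 ≤ P →
      (P : ℝ) ≤ Real.exp k → ∃ (A : LocSys.Acc) (Hed : ℝ), A.Ok c0 C0 k C3 Cm Cn D M P Hed := by
  intro Cb Cn hCb hCn
  obtain ⟨Cm, hCm, k0, H⟩ := loc_num_main c0 C0 h1 h2 h3 Cb Cn hCb hCn
  refine ⟨Cm, hCm, fun C3 hC3 => ⟨max 1 (max C3 k0), le_max_left _ _, fun k D M P hk hD1 hD2 hM1 hM2 hP1 hP2 => ?_⟩⟩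
  exact H ⟨k, D, M, C3, P, (le_max_left _ _).trans hk, hD1, hD2, hM1, hM2, hP1, hP2, hC3,
    ((le_max_left _ _).trans (le_max_right _ _)).trans hk⟩ (((le_max_right _ _).trans (le_max_right _ _)).trans hk)

end Claimed.Agent.R258
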