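/-
Row 258 (S0498), Sec. 6.5 (architect helper68).  FILE Prop68: **Proposition 6.8** (`LocSys.Goal68`) from the search identity, the leaf estimate and the path
multiplicity (10) of the active cells.   The assembly is proved; LEAF P-LOC-NUM68 = `Inner.num68` (pure real arithmetic).

PLAN (num68).  `A.Eleaf p = (32 + 80 pD) τ₃ + 16 pD D² n(𝓛+1) τ₂`.  From `hI.num`: `pD ≤ D + 1`, `1 ≤ D`, `1 ≤ M`, `n(𝓛+1) ≤ n(𝓛+5)`, `1 ≤ n(𝓛+5)`,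
`τ₃ * big ≤ e^{-k}`, `τ₂ * (big * n(𝓛+5)²) ≤ e^{-k}` (`min_le_left`), `big = 10⁶ M (𝓛+1) (D+1)⁶ (d0⁸+1)² 4^{m0} (m0+1) (P+1)²`, all factors `≥ 1`.
Show `M 𝓛 (32 + 80 pD) ≤ big / 2` and `M 𝓛 16 pD D² n(𝓛+1) ≤ big n(𝓛+5)² / 2`.
-/
import Claimed.Agent.R258.Loc.Leaf
import Claimed.Agent.R258.CellApi.Pack

set_option autoImplicit false
open MeasureTheory

namespace Claimed.Agent.R258

namespace LocSys

variable {Y : LocSys LocTag} {c0 C0 k C3 : ℝ} {A : Acc}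

theorem Inner.Eleaf_nonneg (hI : Y.Inner c0 C0 k C3 A) : 0 ≤ A.Eleaf Y.p := by
  unfold Acc.Eleaf
  have := hI.num.τ3_pos; have := hI.num.τ2_pos; have := hI.D_pos; have := hI.n_ge_one (Y.p.L + 1)
  positivity

/-- abstract form of `num68` -/
theorem loc_num68_abs {M Lr pD D n1 n5 τ2 τ3 big R : ℝ} (hM : 1 ≤ M) (hL : 0 ≤ Lr) (hD : 1 ≤ D) (hpD0 : 0 ≤ pD) (hpD : pD ≤ D + 1)
    (hn1 : 1 ≤ n1) (hn : n1 ≤ n5) (t2 : 0 < τ2) (t3 : 0 < τ3) (hbig : 10 ^ 6 * (M * (Lr + 1) * (D + 1) ^ 6) ≤ big)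
    (h3 : τ3 * big ≤ R) (h2 : τ2 * (big * n5 ^ 2) ≤ R) :
    M * (Lr * ((32 + 80 * pD) * τ3 + 16 * pD * D ^ 2 * n1 * τ2)) ≤ R := by
  have hn5 : 1 ≤ n5 := hn1.trans hn
  have hV : 0 ≤ M * (Lr + 1) := by positivity
  have hD1 : 1 ≤ D + 1 := by linarith
  have p1 : D + 1 ≤ (D + 1) ^ 6 := by
    calc D + 1 = (D + 1) ^ 1 := (pow_one _).symm
      _ ≤ (D + 1) ^ 6 := pow_le_pow_right₀ hD1 (by norm_num)
  have p3 : (D + 1) ^ 3 ≤ (D + 1) ^ 6 := pow_le_pow_right₀ hD1 (by norm_num)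
  have a1 : 32 + 80 * pD ≤ 112 * (D + 1) ^ 6 := by linarith
  have a2 : pD * D ^ 2 ≤ (D + 1) ^ 6 := by
    refine le_trans ?_ p3
    calc pD * D ^ 2 ≤ (D + 1) * (D + 1) ^ 2 :=
          mul_le_mul hpD (pow_le_pow_left₀ (by linarith) (by linarith) _) (by positivity) (by linarith)
      _ = (D + 1) ^ 3 := by ring
  have a3 : n1 ≤ n5 ^ 2 := by nlinarith
  have hML : M * Lr ≤ M * (Lr + 1) := by nlinarith
  have hML0 : 0 ≤ M * Lr := by positivity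
  have b0 : 0 ≤ 10 ^ 6 * (M * (Lr + 1) * (D + 1) ^ 6) := by positivity
  have b1 : M * Lr * (32 + 80 * pD) * τ3 ≤ (112 / 10 ^ 6) * R := by
    calc M * Lr * (32 + 80 * pD) * τ3 ≤ M * (Lr + 1) * (112 * (D + 1) ^ 6) * τ3 :=
          mul_le_mul_of_nonneg_right (mul_le_mul hML a1 (by positivity) hV) t3.le
      _ = (112 / 10 ^ 6) * (τ3 * (10 ^ 6 * (M * (Lr + 1) * (D + 1) ^ 6))) := by ring
      _ ≤ (112 / 10 ^ 6) * R :=
          mul_le_mul_of_nonneg_left ((mul_le_mul_of_nonneg_left hbig t3.le).trans h3) (by norm_num)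
  have b2 : M * Lr * (16 * (pD * D ^ 2) * n1) * τ2 ≤ (16 / 10 ^ 6) * R := by
    calc M * Lr * (16 * (pD * D ^ 2) * n1) * τ2 ≤ M * (Lr + 1) * (16 * (D + 1) ^ 6 * n5 ^ 2) * τ2 := by
          refine mul_le_mul_of_nonneg_right (mul_le_mul hML ?_ (by positivity) hV) t2.le
          exact mul_le_mul (by linarith) a3 (by linarith) (by positivity)
      _ = (16 / 10 ^ 6) * (τ2 * (10 ^ 6 * (M * (Lr + 1) * (D + 1) ^ 6) * n5 ^ 2)) := by ring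
      _ ≤ (16 / 10 ^ 6) * R := by
          refine mul_le_mul_of_nonneg_left (le_trans (mul_le_mul_of_nonneg_left ?_ t2.le) h2) (by norm_num)
          exact mul_le_mul_of_nonneg_right hbig (by positivity)
  have hR : 0 ≤ R := le_trans (mul_nonneg t3.le (b0.trans hbig)) h3
  calc M * (Lr * ((32 + 80 * pD) * τ3 + 16 * pD * D ^ 2 * n1 * τ2))
      = M * Lr * (32 + 80 * pD) * τ3 + M * Lr * (16 * (pD * D ^ 2) * n1) * τ2 := by ring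
    _ ≤ (112 / 10 ^ 6) * R + (16 / 10 ^ 6) * R := add_le_add b1 b2
    _ ≤ R := by linarith

theorem Inner.num68 (hI : Y.Inner c0 C0 k C3 A) : A.M * ((Y.p.L : ℝ) * A.Eleaf Y.p) ≤ Real.exp (-k) := by
  have hD := hI.D_ge_one
  have hM := hI.num.M_ge
  have h3 := (hI.num.τ3_small).trans (min_le_left _ _)
  have h2 := (hI.num.τ2_small).trans (min_le_left _ _)
  have hbig : 10 ^ 6 * (A.M * ((Y.p.L : ℝ) + 1) * (A.D + 1) ^ 6) ≤ A.big Y.p := by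
    unfold Acc.big
    have f2 : (1 : ℝ) ≤ ((Y.p.d0 : ℝ) ^ 8 + 1) ^ 2 := by
      have : (0 : ℝ) ≤ (Y.p.d0 : ℝ) ^ 8 := by positivity
      exact one_le_pow₀ (by linarith)
    have f3 : (1 : ℝ) ≤ 4 ^ A.m0 := one_le_pow₀ (by norm_num)
    have f4 : (1 : ℝ) ≤ (A.m0 : ℝ) + 1 := by
      have : (0 : ℝ) ≤ (A.m0 : ℝ) := Nat.cast_nonneg _
      linarith
    have f5 : (1 : ℝ) ≤ ((Y.p.P : ℝ) + 1) ^ 2 := by
      have : (0 : ℝ) ≤ (Y.p.P : ℝ) := Nat.cast_nonneg _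
      exact one_le_pow₀ (by linarith)
    have f6 : (1 : ℝ) ≤ ((Y.p.d0 : ℝ) ^ 8 + 1) ^ 2 * 4 ^ A.m0 * ((A.m0 : ℝ) + 1) * ((Y.p.P : ℝ) + 1) ^ 2 := by
      calc (1 : ℝ) = 1 * 1 * 1 * 1 := by norm_num
        _ ≤ _ := mul_le_mul (mul_le_mul (mul_le_mul f2 f3 (by norm_num) (by positivity)) f4 (by norm_num) (by positivity))
            f5 (by norm_num) (by positivity)
    have hV : (0 : ℝ) ≤ 10 ^ 6 * (A.M * ((Y.p.L : ℝ) + 1) * (A.D + 1) ^ 6) := by positivity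
    calc 10 ^ 6 * (A.M * ((Y.p.L : ℝ) + 1) * (A.D + 1) ^ 6)
        = 10 ^ 6 * (A.M * ((Y.p.L : ℝ) + 1) * (A.D + 1) ^ 6) * 1 := (mul_one _).symm
      _ ≤ 10 ^ 6 * (A.M * ((Y.p.L : ℝ) + 1) * (A.D + 1) ^ 6) *
          (((Y.p.d0 : ℝ) ^ 8 + 1) ^ 2 * 4 ^ A.m0 * ((A.m0 : ℝ) + 1) * ((Y.p.P : ℝ) + 1) ^ 2) :=
          mul_le_mul_of_nonneg_left f6 hV
      _ = _ := by ring
  unfold Acc.Eleaf
  exact loc_num68_abs hM (Nat.cast_nonneg _) hD (Nat.cast_nonneg _) hI.num.pD_le (hI.n_ge_one _)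
    (hI.num.n_mono (by omega)) hI.num.τ2_pos hI.num.τ3_pos hbig h3 h2

/-- all leaves on one cell -/
theorem Inner.cell_est (hV : Y.Valid A.Dm A.m0) (hI : Y.Inner c0 C0 k C3 A) (hc0 : 0 < c0) (hpat : PatOk Y.pat) {I : Cell}
    (hS : I ∈ Y.X.S) (hg : Y.CS.good I) :
    ‖formV I (Y.X.w I) (Y.X.arg Y.pat I) - ∑ κ ∈ Finset.Icc 1 Y.p.L, Y.leafForm κ I‖ ≤ (Y.p.L : ℝ) * A.Eleaf Y.p := by
  have hL : 1 ≤ Y.p.L := by
    have := hV.adm.d0_ge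
    exact Nat.one_le_pow _ _ (by omega)
  have h1 : formV I (Y.X.w I) (Y.X.arg Y.pat I) = ∑ κ ∈ Finset.Icc 1 Y.p.L, formV I (Y.X.w I) fun l => Y.Zsh κ l I :=
    Y.search_identity hc0 (hI.adm hS) hL
  rw [h1, ← Finset.sum_sub_distrib]
  refine (norm_sum_le _ _).trans ?_
  calc ∑ κ ∈ Finset.Icc 1 Y.p.L, ‖formV I (Y.X.w I) (fun l => Y.Zsh κ l I) - Y.leafForm κ I‖
      ≤ ∑ _κ ∈ Finset.Icc 1 Y.p.L, A.Eleaf Y.p := Finset.sum_le_sum fun κ hκ => hI.leaf_est hV hc0 hpat hκ hS hg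
    _ = (Y.p.L : ℝ) * A.Eleaf Y.p := by rw [Finset.sum_const, Nat.card_Icc, nsmul_eq_mul]; simp

/-- **Proposition 6.8** -/
theorem Inner.goal68 (hV : Y.Valid A.Dm A.m0) (hI : Y.Inner c0 C0 k C3 A) (hc0 : 0 < c0) (hpat : PatOk Y.pat) :
    Y.Goal68 (Real.exp (-k)) := by
  classical
  unfold Goal68
  obtain ⟨q, η, LU, _, hX⟩ := hI.xv
  set E := (Y.p.L : ℝ) * A.Eleaf Y.p with hE
  have hE0 : 0 ≤ E := mul_nonneg (Nat.cast_nonneg _) hI.Eleaf_nonneg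
  have hM0 : 0 ≤ A.M := by linarith [hI.num.M_ge]
  set S' := Y.X.S.filter Y.CS.good with hS'
  have h1 : ∑ I ∈ S', I.len * ‖formV I (Y.X.w I) (Y.X.arg Y.pat I) - ∑ κ ∈ Finset.Icc 1 Y.p.L, Y.leafForm κ I‖
      ≤ ∑ I ∈ S', I.len * E := by
    refine Finset.sum_le_sum fun I hI' => ?_
    obtain ⟨hIS, hIg⟩ := Finset.mem_filter.1 hI'
    exact mul_le_mul_of_nonneg_left (hI.cell_est hV hc0 hpat hIS hIg) (cell_len_pos I).le
  have h2 : ∑ I ∈ S', I.len * E ≤ (A.M * E) * Y.X.root.len := by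
    refine cell_chain_bound (fun I hI' => hI.le_root (hI.S_sub (Finset.mem_filter.1 hI').1)) (fun _ => E)
      (mul_nonneg hM0 hE0) ?_
    intro L0 hL0
    rw [Finset.sum_const, nsmul_eq_mul]
    refine mul_le_mul_of_nonneg_right ?_ hE0
    refine hX.mult L0 (hI.S_sub (Finset.mem_filter.1 hL0).1) _ ?_ ?_
    · intro I hI'; exact (Finset.mem_filter.1 (Finset.mem_filter.1 hI').1).1
    · intro I hI'; exact (Finset.mem_filter.1 hI').2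
  refine h1.trans (h2.trans ?_)
  exact mul_le_mul_of_nonneg_right hI.num68 (cell_len_pos _).le

end LocSys

end Claimed.Agent.R258
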