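/-
Row 258 (S0498), Sec. 6 (architect helper68).  FILE S6aAdapt: the exports of block [S6a] (helper70, `S6a/Export.lean`) give the four goals of `Loc/S6aGoals.lean`.
-/
import Claimed.Agent.R258.Loc.S6aGoals
import Claimed.Agent.R258.S6a.Export

set_option autoImplicit false
open MeasureTheory

namespace Claimed.Agent.R258

/-- `qpoly` is monotone in the constant for nonnegative arguments -/
theorem loc_qpoly_mono_const {C C' x : ℝ} (hC : 0 ≤ C) (h : C ≤ C') (hx : 0 ≤ x) : qpoly C x ≤ qpoly C' x := by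
  unfold qpoly
  apply Real.exp_le_exp.2
  have h1 : (1 : ℝ) ≤ 1 + x := by linarith
  have h2 : (1 + x) ^ C ≤ (1 + x) ^ C' := Real.rpow_le_rpow_of_exponent_le h1 h
  have h3 : 0 ≤ (1 + x) ^ C := Real.rpow_nonneg (by linarith) _
  exact mul_le_mul h h2 h3 (hC.trans h)

theorem loc_sepGoal (c0 C0 : ℝ) (hc0 : 0 < c0) (hC0 : 1 ≤ C0) : LocSepGoal c0 C0 := by
  obtain ⟨Cq, hCq, h⟩ := s6a_sepOk c0 C0 hc0 hC0
  refine ⟨max Cq 1, le_max_right _ _, fun Hc τ2 Hed Hb dmax hHc hτ hτ1 hH => h Hc τ2 Hed Hb dmax hτ ?_⟩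
  rw [min_eq_left hτ1]
  refine le_trans (loc_qpoly_mono_const hCq.le (le_max_left _ _) ?_) hH
  have h1 : 0 ≤ Real.log Hc := Real.log_nonneg hHc
  have h2 : 0 ≤ Real.log (1 / τ2) := Real.log_nonneg (by rw [le_div_iff₀ hτ]; linarith)
  linarith

theorem loc_sameGoal (c0 C0 : ℝ) (hc0 : 0 < c0) (hC0 : 1 ≤ C0) : LocSameGoal c0 C0 := by
  obtain ⟨Cq, hCq, h⟩ := s6a_stH0_qpoly C0 hC0
  refine ⟨max Cq 1, le_max_right _ _, fun Hc H0 Hb dmax hHb hd _ hH => ?_⟩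
  have h2 : Real.exp 2 ≤ Hc := le_trans (Real.exp_le_exp.2 (by have : (0 : ℝ) ≤ (dmax : ℝ) := Nat.cast_nonneg _; linarith)) hd
  obtain ⟨hp, hle⟩ := h Hc h2
  have hlog : 0 ≤ Real.log Hc := Real.log_nonneg (le_trans (Real.one_le_exp (by norm_num : (0:ℝ) ≤ 2)) h2)
  have h3 : stH0 C0 Hc ≤ H0 := hle.trans ((loc_qpoly_mono_const hCq.le (le_max_left _ _) hlog).trans hH)
  exact s6a_sameTagOk c0 C0 Hc H0 Hb dmax hc0 hd hHb h3 (lt_of_lt_of_le hp h3)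

theorem loc_log_ceil_le {x : ℝ} (hx : 1 ≤ x) : Real.log ((⌈x⌉₊ : ℕ) : ℝ) ≤ 1 + Real.log x := by
  have h0 : 0 < x := by linarith
  have h1 : ((⌈x⌉₊ : ℕ) : ℝ) ≤ 2 * x := by
    have := (Nat.ceil_lt_add_one h0.le).le
    linarith
  have h2 : (0 : ℝ) < ((⌈x⌉₊ : ℕ) : ℝ) := lt_of_lt_of_le h0 (Nat.le_ceil x)
  calc Real.log ((⌈x⌉₊ : ℕ) : ℝ) ≤ Real.log (2 * x) := Real.log_le_log h2 h1
    _ = Real.log 2 + Real.log x := Real.log_mul (by norm_num) h0.ne'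
    _ ≤ 1 + Real.log x := by
      have : Real.log 2 ≤ 1 := by
        have := Real.log_two_lt_d9
        linarith
      linarith

theorem loc_pathGoal : LocPathGoal := by
  refine ⟨300, by norm_num, fun Hed Hb dmax Lp hHed hHb => ⟨_, le_trans (by norm_num) (le_max_left _ _), s6a_pathOk Hed Hb dmax Lp, ?_⟩⟩
  have hc2 : 2 ≤ ⌈Hed⌉₊ := by
    have : ((2 : ℕ) : ℝ) ≤ ((⌈Hed⌉₊ : ℕ) : ℝ) := by push_cast; exact hHed.trans (Nat.le_ceil _)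
    exact_mod_cast this
  have hb1 : 1 ≤ ⌈Hb⌉₊ := by
    have : ((1 : ℕ) : ℝ) ≤ ((⌈Hb⌉₊ : ℕ) : ℝ) := by push_cast; exact hHb.trans (Nat.le_ceil _)
    exact_mod_cast this
  rw [max_eq_right hc2]
  refine (s6a_pathH_log Lp dmax ⌈Hed⌉₊ ⌈Hb⌉₊ (by omega) hb1).trans ?_
  have h1 := loc_log_ceil_le (x := Hed) (by linarith)
  have h2 := loc_log_ceil_le hHb
  have h3 : 0 ≤ Real.log Hed := Real.log_nonneg (by linarith)
  have h4 : 0 ≤ Real.log Hb := Real.log_nonneg hHb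
  have h5 : (0 : ℝ) ≤ (((Lp : ℝ) + 1) * ((dmax : ℝ) + 1)) ^ 6 := by positivity
  calc 100 * (((Lp : ℝ) + 1) * ((dmax : ℝ) + 1)) ^ 6 * (1 + Real.log ((⌈Hed⌉₊ : ℕ) : ℝ) + Real.log ((⌈Hb⌉₊ : ℕ) : ℝ))
      ≤ 100 * (((Lp : ℝ) + 1) * ((dmax : ℝ) + 1)) ^ 6 * (3 * (1 + Real.log Hed + Real.log Hb)) := by
        apply mul_le_mul_of_nonneg_left _ (by positivity)
        linarith
    _ = 300 * (((Lp : ℝ) + 1) * ((dmax : ℝ) + 1)) ^ 6 * (1 + Real.log Hed + Real.log Hb) := by ring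

theorem loc_tagOkGoal : LocTagOkGoal := fun a D i ha => s6a_tag_ok a D ha i

end Claimed.Agent.R258
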