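/-
Row 258 (S0498), Sec. 6 (architect helper68).  FILE Main: **`LocMainGoal2`** (S10/Att.lean) = the main construction of Sec. 6, ASSEMBLED from
  `loc_numerics` (Loc/Numerics.lean), `BaseSeg.locBase` (Loc/BaseSys.lean), `loc_colourSys_stops`, `loc_params_adm`, `loc_fail_small` (block [COLOR]), `tree_closure` (Loc/Tree.lean), `BaseOk.valid/inner`, `endpoint_of` (Loc/Build.lean),
  `Inner.goal68` (Loc/Prop68.lean), `Inner.bessel` (Loc/Bessel.lean) and the exports of block [S6a] (Loc/S6aAdapt.lean).   No sorry in this file.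
-/
import Claimed.Agent.R258.Loc.Build
import Claimed.Agent.R258.Loc.Prop68
import Claimed.Agent.R258.Loc.Bessel
import Claimed.Agent.R258.Loc.Numerics
import Claimed.Agent.R258.Loc.S6aAdapt
import Claimed.Agent.R258.Pack022
import Claimed.Agent.R258.Color.Num
import Claimed.Agent.R258.S10.Att

set_option autoImplicit false
open MeasureTheory

namespace Claimed.Agent.R258

theorem BaseSeg.Valid.loc_mono_M {X : BaseSeg} {c0 C0 q η D M M' LU : ℝ} (h : X.Valid c0 C0 q η D M LU) (hM : M ≤ M') :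
    X.Valid c0 C0 q η D M' LU :=
  { h with mult := fun J hJ A hA h' => (h.mult J hJ A hA h').trans hM }

theorem BaseSeg.Valid.loc_LU_nonneg {X : BaseSeg} {c0 C0 q η D M LU : ℝ} (h : X.Valid c0 C0 q η D M LU) : 0 ≤ LU := by
  have h1 := h.U_sq 0 X.root h.tree.root_mem ∅ (by simp)
  simp only [Finset.sum_empty] at h1
  exact nonneg_of_mul_nonneg_left h1 (cell_len_pos _)

open LocSys in
/-- **the main construction of Sec. 6** from the goals of block [S6a] -/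
theorem loc_mainGoal2_of (c0 C0 : ℝ) (hc0 : 0 < c0) (hsep : LocSepGoal c0 C0) (hsame : LocSameGoal c0 C0) (hpath : LocPathGoal)
    (htag : LocTagOkGoal) : LocMainGoal2 c0 C0 := by
  classical
  intro θ Cb Cn hθ0 hθ1 hCb hCn
  obtain ⟨Cm, hCm, hnum⟩ := loc_numerics c0 C0 hsep hsame hpath Cb Cn hCb hCn
  refine ⟨Cm, hCm, fun C3 ε hC3 hε => ?_⟩
  obtain ⟨k1, hk1, hN⟩ := hnum C3 hC3
  obtain ⟨ε', hε'⟩ : ∃ ε' : ℝ, ε' = min ε (1 / 2) := ⟨_, rfl⟩
  have hε'0 : 0 < ε' := by rw [hε']; exact lt_min hε (by norm_num)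
  have hε'1 : ε' < 1 := by rw [hε']; exact lt_of_le_of_lt (min_le_right _ _) (by norm_num)
  have hε'ε : ε' ≤ ε := by rw [hε']; exact min_le_left _ _
  obtain ⟨D0, hD0⟩ := loc_fail_small hε'0
  refine ⟨max k1 (Real.log ((D0 : ℝ) + 1)), le_max_of_le_left hk1, ?_⟩
  intro k q hk hq X hX pat hpat N0 hU P hP1 hPk
  obtain ⟨D, M, LU, hDge, hDle, hM, hLU, hV⟩ := hX
  have hk1' : k1 ≤ k := le_trans (le_max_left _ _) hk
  have hk0 : 0 ≤ k := by linarith
  have hD1 : 1 ≤ D := le_trans (Real.one_le_exp hk0) hDge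
  have hD0D : (D0 : ℝ) ≤ D := by
    have h1 : Real.log ((D0 : ℝ) + 1) ≤ k := le_trans (le_max_right _ _) hk
    have h2 : (D0 : ℝ) + 1 ≤ Real.exp k := by
      rw [← Real.exp_log (by positivity : (0 : ℝ) < (D0 : ℝ) + 1)]
      exact Real.exp_le_exp.2 h1
    linarith
  obtain ⟨M', hM'def⟩ : ∃ M' : ℝ, M' = max M 1 := ⟨_, rfl⟩
  have hV' : X.Valid c0 C0 q (Real.exp (-(k ^ θ))) D M' LU := hV.loc_mono_M (by rw [hM'def]; exact le_max_left _ _)
  have hM' : M' ≤ D ^ Cb := by rw [hM'def]; exact max_le hM (Real.one_le_rpow hD1 (by linarith))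
  obtain ⟨A, Hed, hA⟩ := hN k D M' P hk1' hDge hDle (by rw [hM'def]; exact le_max_right _ _) hM' hP1 hPk
  have hAD := hA.D_eq
  have hAM := hA.M_eq
  subst hAD
  subst hAM
  have hp : A.D ≤ (((loc_params ⌈A.D⌉₊ P).D : ℕ) : ℝ) := Nat.le_ceil _
  have hc1 : 1 ≤ ⌈A.D⌉₊ := Nat.one_le_ceil_iff.2 (by linarith)
  have hadm : (loc_params ⌈A.D⌉₊ P).Adm := loc_params_adm hc1 P
  have hD0c : D0 ≤ ⌈A.D⌉₊ := by
    have : (D0 : ℝ) ≤ ((⌈A.D⌉₊ : ℕ) : ℝ) := hD0D.trans (Nat.le_ceil _)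
    exact_mod_cast this
  obtain ⟨CS, stops, hst, hgood⟩ := loc_colourSys_stops
    (X.locBase hV' (loc_tagSys Hed A.Hb A.dmax) (loc_params ⌈A.D⌉₊ P) hp) hadm hε'1 (hD0 _ P hD0c) X.root X.T
    (fun I hI => hV.tree.le_root I hI)
  obtain ⟨Y0, hY0⟩ : ∃ Y0 : LocSys LocTag, Y0 = ⟨X, pat, _, CS, X.bcat⟩ := ⟨_, rfl⟩
  have hB : Y0.BaseOk c0 C0 q (Real.exp (-(k ^ θ))) LU A := by
    subst hY0
    exact ⟨hq, hV', fun I v => BaseSeg.mem_bpres' I v, fun v => rfl, fun v hv => hv, hadm, hP1⟩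
  have hnumY : A.Num Y0.p k C3 := by subst hY0; exact hA.num
  have hE := hB.eng hnumY htag hA.dmax_eq hA.Hb_eq hA.same
  obtain ⟨N1, hN01, hlab⟩ := hB.bases_lab N0 (by subst hY0; exact hU)
  have hρ : ∀ I f, Y0.Named I f → 1 ≤ Y0.rkM f ∧ Y0.rkM f ≤ Y0.p.L + 5 := fun I f h =>
    ⟨(rkM_range I f h).1, by have := (rkM_range I f h).2; omega⟩
  have hsub : Y0.X.S.filter Y0.CS.good ⊆ Y0.X.S := Finset.filter_subset _ _
  obtain ⟨c', hT⟩ := tree_closure (N0 := N1) hc0 hE (hB.bcat_ok hnumY) hρ (Y0.X.S.filter Y0.CS.good) hsub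
    (fun I _ => bases_card hnumY I) (fun I hI => hlab I (hB.xv.S_sub (hsub hI)))
  have hcnt : Y0.CatCnt c' A.n := hT.catCnt_main hE hsub hρ (fun J hJ => hB.bcat_cnt hnumY J hJ)
  have hval := hB.valid hnumY (by subst hY0; exact hA.L_le_Dm) hsub hT hcnt
  have hinn := hB.inner hnumY htag hA.dmax_eq hA.Hb_eq hA.same (by subst hY0; exact hA.sep) hT hcnt
  have hl : ∀ Φ ∈ (Y0.setCat c').cat.cols, 0 < (Y0.setCat c').cat.rank Φ.lab → N0 ≤ Φ.lab := by
    intro Φ hΦ hr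
    by_cases hold : Φ ∈ Y0.X.bcat.cols
    · have : c'.rank Φ.lab = 0 := hT.le.rank Φ hold
      exact absurd hr (by show ¬ 0 < c'.rank Φ.lab; omega)
    · exact hN01.trans (hT.new Φ hΦ hold).2.2.1
  have hend : (Y0.setCat c').EndpointGoal A.Hpath := endpoint_of (by subst hY0; exact hA.path)
  refine ⟨Y0.setCat c', A, by subst hY0; rfl, by subst hY0; rfl, by subst hY0; rfl,
    ⟨hval, ⟨LU, hV.loc_LU_nonneg, hLU, by subst hY0; exact hV'⟩, hM', hDle, hinn, hl, hDge, hnumY.D_le, hA.Dm_le, hA.Nb_ge,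
      by subst hY0; exact hA.L_le, hA.m0_le, by subst hY0; exact hA.Hpath_le, hA.Hpath_ge, hinn.goal68 hval hc0 (by subst hY0; exact hpat),
      hinn.bessel hval, hend⟩,
    stops, ⟨fun S hS => (hst.lt S hS).le, hst.len.trans (mul_le_mul_of_nonneg_right hε'ε (cell_len_nonneg _))⟩, ?_⟩
  subst hY0
  exact hgood

/-- **`LocMainGoal2`** -/
theorem loc_mainGoal2 (c0 C0 : ℝ) (hc0 : 0 < c0) (hC0 : 1 ≤ C0) : LocMainGoal2 c0 C0 :=
  loc_mainGoal2_of c0 C0 hc0 (loc_sepGoal c0 C0 hc0 hC0) (loc_sameGoal c0 C0 hc0 hC0) loc_pathGoal loc_tagOkGoal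

end Claimed.Agent.R258
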