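/-
Row 258 (S0498), Sec. 6.6, block [LOC-TR] = Lemma 6.9 (owner: helper28).  FILE TrAlg: pure algebra.
* `put4` (values, updates, spectator products);
* the double Abel summation behind the identity (15): `loc_tr_abel`;
* sums over lists (norm bounds, the form of a list combination).
-/
import Claimed.Agent.R258.Loc.BaseFacts

set_option autoImplicit false
open MeasureTheory

namespace Claimed.Agent.R258

/-! ### `put4` -/

section put4
variable {α : Type*} {a b c d : Fin 4}

theorem loc_tr_slot_cases : ∀ a b c d : Fin 4, slot4 a b c d → ∀ l : Fin 4, l = a ∨ l = b ∨ l = c ∨ l = d := by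
  unfold slot4; decide

theorem loc_tr_slot4_swap (h : slot4 a b c d) : slot4 a b d c :=
  ⟨h.1, h.2.2.1, h.2.1, h.2.2.2.2.1, h.2.2.2.1, h.2.2.2.2.2.symm⟩

theorem loc_tr_put4_a (xa xb xc xd : α) : put4 a b c xa xb xc xd a = xa := by simp [put4]

theorem loc_tr_put4_b (h : slot4 a b c d) (xa xb xc xd : α) : put4 a b c xa xb xc xd b = xb := by
  simp [put4, h.1.symm]

theorem loc_tr_put4_c (h : slot4 a b c d) (xa xb xc xd : α) : put4 a b c xa xb xc xd c = xc := by
  simp [put4, h.2.1.symm, h.2.2.2.1.symm]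

theorem loc_tr_put4_d (h : slot4 a b c d) (xa xb xc xd : α) : put4 a b c xa xb xc xd d = xd := by
  simp [put4, h.2.2.1.symm, h.2.2.2.2.1.symm, h.2.2.2.2.2.symm]

/-- a tuple is determined by its four values -/
theorem loc_tr_put4_eq (h : slot4 a b c d) (z : Fin 4 → α) : z = put4 a b c (z a) (z b) (z c) (z d) := by
  funext l
  rcases loc_tr_slot_cases a b c d h l with rfl | rfl | rfl | rfl
  · rw [loc_tr_put4_a]
  · rw [loc_tr_put4_b h]
  · rw [loc_tr_put4_c h]
  · rw [loc_tr_put4_d h]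

theorem loc_tr_upd_a (h : slot4 a b c d) (xa xb xc xd y : α) :
    Function.update (put4 a b c xa xb xc xd) a y = put4 a b c y xb xc xd := by
  rw [loc_tr_put4_eq h (Function.update (put4 a b c xa xb xc xd) a y), Function.update_self,
    Function.update_of_ne h.1.symm, Function.update_of_ne h.2.1.symm, Function.update_of_ne h.2.2.1.symm,
    loc_tr_put4_b h, loc_tr_put4_c h, loc_tr_put4_d h]

theorem loc_tr_upd_c (h : slot4 a b c d) (xa xb xc xd y : α) :
    Function.update (put4 a b c xa xb xc xd) c y = put4 a b c xa xb y xd := by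
  rw [loc_tr_put4_eq h (Function.update (put4 a b c xa xb xc xd) c y), Function.update_self,
    Function.update_of_ne h.2.1, Function.update_of_ne h.2.2.2.1, Function.update_of_ne h.2.2.2.2.2.symm,
    loc_tr_put4_a, loc_tr_put4_b h, loc_tr_put4_d h]

theorem loc_tr_upd_d (h : slot4 a b c d) (xa xb xc xd y : α) :
    Function.update (put4 a b c xa xb xc xd) d y = put4 a b c xa xb xc y := by
  rw [loc_tr_put4_eq h (Function.update (put4 a b c xa xb xc xd) d y), Function.update_self,
    Function.update_of_ne h.2.2.1, Function.update_of_ne h.2.2.2.2.1, Function.update_of_ne h.2.2.2.2.2,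
    loc_tr_put4_a, loc_tr_put4_b h, loc_tr_put4_c h]

end put4

/-- the spectators of the pair `(c, a)` are `b, d` etc. -/
theorem loc_tr_erase : ∀ a b c d : Fin 4, slot4 a b c d →
    ((Finset.univ.erase c).erase a : Finset (Fin 4)) = {b, d} ∧
    ((Finset.univ.erase d).erase c : Finset (Fin 4)) = {a, b} ∧
    ((Finset.univ.erase a).erase d : Finset (Fin 4)) = {b, c} := by
  unfold slot4; decide

section oth
variable {a b c d : Fin 4} {I : Cell}

theorem loc_tr_oth_ca (h : slot4 a b c d) (z : Fin 4 → XV) : loc_oth I z c a = n2 I (z b) * n2 I (z d) := by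
  unfold loc_oth
  rw [(loc_tr_erase a b c d h).1, Finset.prod_pair h.2.2.2.2.1]

theorem loc_tr_oth_dc (h : slot4 a b c d) (z : Fin 4 → XV) : loc_oth I z d c = n2 I (z a) * n2 I (z b) := by
  unfold loc_oth
  rw [(loc_tr_erase a b c d h).2.1, Finset.prod_pair h.1]

theorem loc_tr_oth_ad (h : slot4 a b c d) (z : Fin 4 → XV) : loc_oth I z a d = n2 I (z b) * n2 I (z c) := by
  unfold loc_oth
  rw [(loc_tr_erase a b c d h).2.2, Finset.prod_pair h.2.2.2.1]

end oth

/-! ### Abel summation -/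

theorem loc_tr_tele (g : ℕ → ℂ) (n : ℕ) : ∑ q ∈ Finset.Icc 1 n, (g q - g (q - 1)) = g n - g 0 := by
  induction n with
  | zero => simp
  | succ n ih =>
    rw [Finset.sum_Icc_succ_top (by omega), ih, Nat.add_sub_cancel]
    ring

theorem loc_tr_abel1 (g : ℕ → ℂ) (h0 : g 0 = 0) (n : ℕ) :
    ∑ p ∈ Finset.Icc 1 (n + 1), (p : ℂ) * (g p - g (p - 1)) = ((n : ℂ) + 1) * g (n + 1) - ∑ p ∈ Finset.Icc 1 n, g p := by
  induction n with
  | zero => simp [h0]
  | succ n ih =>
    rw [Finset.sum_Icc_succ_top (by omega), ih, Finset.sum_Icc_succ_top (by omega), Nat.add_sub_cancel]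
    push_cast
    ring

/-- **the double Abel summation** -/
theorem loc_tr_abel (N : ℕ) (β : ℕ → ℕ → ℂ) (h0 : ∀ q, β 0 q = 0) (h0' : ∀ p, β p 0 = 0) :
    ∑ p ∈ Finset.Icc 1 (N + 1), ∑ q ∈ Finset.Icc 1 (N + 1),
        ((((p : ℤ) - (q : ℤ) : ℤ) : ℂ)) * (β p q - β (p - 1) q - β p (q - 1) + β (p - 1) (q - 1)) =
      ∑ q ∈ Finset.Icc 1 N, β (N + 1) q - ∑ p ∈ Finset.Icc 1 N, β p (N + 1) := by
  have e1 : ∑ p ∈ Finset.Icc 1 (N + 1), ∑ q ∈ Finset.Icc 1 (N + 1),
      (p : ℂ) * (β p q - β (p - 1) q - β p (q - 1) + β (p - 1) (q - 1)) =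
      ((N : ℂ) + 1) * β (N + 1) (N + 1) - ∑ p ∈ Finset.Icc 1 N, β p (N + 1) := by
    rw [← loc_tr_abel1 (fun p => β p (N + 1)) (h0 _) N]
    refine Finset.sum_congr rfl fun p _ => ?_
    rw [← Finset.mul_sum]
    congr 1
    have := loc_tr_tele (fun q => β p q - β (p - 1) q) (N + 1)
    simp only [h0', sub_self, sub_zero] at this
    rw [← this]
    exact Finset.sum_congr rfl fun q _ => by ring
  have e2 : ∑ p ∈ Finset.Icc 1 (N + 1), ∑ q ∈ Finset.Icc 1 (N + 1),
      (q : ℂ) * (β p q - β (p - 1) q - β p (q - 1) + β (p - 1) (q - 1)) =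
      ((N : ℂ) + 1) * β (N + 1) (N + 1) - ∑ q ∈ Finset.Icc 1 N, β (N + 1) q := by
    rw [Finset.sum_comm, ← loc_tr_abel1 (fun q => β (N + 1) q) (h0' _) N]
    refine Finset.sum_congr rfl fun q _ => ?_
    rw [← Finset.mul_sum]
    congr 1
    have := loc_tr_tele (fun p => β p q - β p (q - 1)) (N + 1)
    simp only [h0, sub_self, sub_zero] at this
    rw [← this]
    exact Finset.sum_congr rfl fun p _ => by ring
  have e3 : ∀ p q : ℕ, ((((p : ℤ) - (q : ℤ) : ℤ) : ℂ)) * (β p q - β (p - 1) q - β p (q - 1) + β (p - 1) (q - 1)) =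
      (p : ℂ) * (β p q - β (p - 1) q - β p (q - 1) + β (p - 1) (q - 1)) -
        (q : ℂ) * (β p q - β (p - 1) q - β p (q - 1) + β (p - 1) (q - 1)) := by
    intro p q
    push_cast
    ring
  simp only [e3, Finset.sum_sub_distrib]
  rw [e1, e2]
  ring

/-! ### sums over lists -/

theorem loc_tr_list_norm_le {ι : Type*} (L : List ι) (f : ι → ℂ) (K : ℝ) (h : ∀ x ∈ L, ‖f x‖ ≤ K) :
    ‖(L.map f).sum‖ ≤ L.length * K := by
  induction L with
  | nil => simp
  | cons x t ih =>
    rw [List.map_cons, List.sum_cons, List.length_cons]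
    refine (norm_add_le _ _).trans ?_
    have h1 := h x (List.mem_cons_self)
    have h2 := ih fun y hy => h y (List.mem_cons_of_mem _ hy)
    push_cast
    linarith

/-- the form of a combination indexed by a list, in one slot -/
theorem loc_tr_form_list {c0 C0 : ℝ} {I : Cell} {w : ℝ × ℝ → ℂ} (hc0 : 0 < c0) (hw : Admissible c0 C0 I w)
    (z : Fin 4 → XV) (l : Fin 4) {ι : Type*} (L : List ι) (s : ι → ℂ) (v : ι → XV) :
    formV I w (Function.update z l ((L.map fun x => s x • v x).sum)) =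
      (L.map fun x => s x * formV I w (Function.update z l (v x))).sum := by
  induction L with
  | nil => simpa using loc_form_zero hc0 hw z l
  | cons x t ih =>
    rw [List.map_cons, List.sum_cons, List.map_cons, List.sum_cons, loc_form_add hc0 hw, loc_form_smul hc0 hw, ih]

end Claimed.Agent.R258
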