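/-
Row 258 (S0498), Sec. 6.6, block [LOC-TR] = Lemma 6.9 (owner: helper28).  FILE TrStep: THE EXACT IDENTITY (15) of one transfer step.
For an arbitrary tuple `z` and slots `a ≠ c`:
  `H(x_a, Q̄_c x_c) = H(Q̄^h_a x_a, x_c) + ∑_{p,q=1}^{P+1} ((p-q)/P) H(A_a^p x_a, A_c^q x_c)`.
Proof: `β(p,q) = H(Q'_a(p) x_a, Q'_c(q) x_c)`, mixed differences, `loc_tr_abel`.
-/
import Claimed.Agent.R258.Loc.TrAlg

set_option autoImplicit false
open MeasureTheory

namespace Claimed.Agent.R258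

namespace LocSys

variable {Tag : Type} (Y : LocSys Tag) {c0 C0 : ℝ} {I : Cell} {w : ℝ × ℝ → ℂ}

theorem Qm'_zero (l : Fin 4) (f : LocFilt) (I : Cell) : Y.Qm' l f 0 I = 0 := by simp [Qm']

theorem Qh'_zero (hc : LocCat) (l : Fin 4) (f : LocFilt) (I : Cell) : Y.Qh' hc l f 0 I = 0 := by simp [Qh']

theorem Qm'_mid (l : Fin 4) (f : LocFilt) {pd : ℕ} (h1 : 1 ≤ pd) (h2 : pd ≤ Y.p.P) (I : Cell) :
    Y.Qm' l f pd I = Y.Qm l f pd I := by
  have : pd ≠ 0 := by omega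
  simp [Qm', this, h2]

theorem Qh'_mid (hc : LocCat) (l : Fin 4) (f : LocFilt) {pd : ℕ} (h1 : 1 ≤ pd) (h2 : pd ≤ Y.p.P) (I : Cell) :
    Y.Qh' hc l f pd I = Y.Qh hc l f pd I := by
  have : pd ≠ 0 := by omega
  simp [Qh', this, h2]

theorem Qm'_top (l : Fin 4) (f : LocFilt) (I : Cell) : Y.Qm' l f (Y.p.P + 1) I = restr I.set := by
  simp [Qm']

theorem Qh'_top (hc : LocCat) (l : Fin 4) (f : LocFilt) (I : Cell) : Y.Qh' hc l f (Y.p.P + 1) I = restr I.set := by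
  simp [Qh']

/-- **the identity (15)** -/
theorem tr_step (hc0 : 0 < c0) (hw : Admissible c0 C0 I w) (hP : 1 ≤ Y.p.P) (hc : LocCat) {a c : Fin 4} (hac : a ≠ c)
    (f : LocFilt) (z : Fin 4 → XV) (xa xc : XV) :
    formV I w (Function.update (Function.update z a xa) c (Y.Qbar c f I xc)) =
      formV I w (Function.update (Function.update z a (Y.Qhbar hc a f I xa)) c xc) +
      ∑ pa ∈ Finset.Icc 1 (Y.p.P + 1), ∑ pc ∈ Finset.Icc 1 (Y.p.P + 1),
        ((((pa : ℤ) - (pc : ℤ) : ℤ) : ℂ) / (Y.p.P : ℂ)) *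
          formV I w (Function.update (Function.update z a (Y.bandH hc a f pa I xa)) c (Y.bandM c f pc I xc)) := by
  have hP0 : (Y.p.P : ℂ) ≠ 0 := by
    have : Y.p.P ≠ 0 := by omega
    exact_mod_cast this
  have sw : ∀ x y : XV, Function.update (Function.update z a x) c y = Function.update (Function.update z c y) a x :=
    fun x y => Function.update_comm hac x y z
  obtain ⟨β, hβ⟩ : ∃ β : ℕ → ℕ → ℂ, ∀ p q, β p q =
      formV I w (Function.update (Function.update z a (Y.Qh' hc a f p I xa)) c (Y.Qm' c f q I xc)) := ⟨_, fun _ _ => rfl⟩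
  have b0 : ∀ q, β 0 q = 0 := by
    intro q
    rw [hβ, Qh'_zero, zero_apply, sw, loc_form_zero hc0 hw]
  have b0' : ∀ p, β p 0 = 0 := by
    intro p
    rw [hβ, Qm'_zero, zero_apply, loc_form_zero hc0 hw]
  have bd : ∀ p q, formV I w (Function.update (Function.update z a (Y.bandH hc a f p I xa)) c (Y.bandM c f q I xc)) =
      β p q - β (p - 1) q - β p (q - 1) + β (p - 1) (q - 1) := by
    intro p q
    unfold bandM bandH
    rw [sub_apply, sub_apply, loc_form_sub hc0 hw, sw, sw,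
      loc_form_sub hc0 hw, loc_form_sub hc0 hw, ← sw, ← sw, ← sw, ← sw, ← hβ, ← hβ, ← hβ, ← hβ]
    ring
  have l1 : formV I w (Function.update (Function.update z a xa) c (Y.Qbar c f I xc)) =
      (Y.p.P : ℂ)⁻¹ * ∑ q ∈ Finset.Icc 1 Y.p.P, β (Y.p.P + 1) q := by
    have e : Y.Qbar c f I xc = ((Y.p.P : ℂ)⁻¹) • ∑ pd ∈ Finset.Icc 1 Y.p.P, Y.Qm c f pd I xc := by
      simp [Qbar]
    rw [e, loc_form_smul hc0 hw, loc_form_sum hc0 hw]
    congr 1
    refine Finset.sum_congr rfl fun q hq => ?_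
    rw [hβ, Qh'_top, Qm'_mid Y c f (Finset.mem_Icc.1 hq).1 (Finset.mem_Icc.1 hq).2, sw, sw, loc_form_restr hc0 hw]
  have l2 : formV I w (Function.update (Function.update z a (Y.Qhbar hc a f I xa)) c xc) =
      (Y.p.P : ℂ)⁻¹ * ∑ p ∈ Finset.Icc 1 Y.p.P, β p (Y.p.P + 1) := by
    have e : Y.Qhbar hc a f I xa = ((Y.p.P : ℂ)⁻¹) • ∑ pd ∈ Finset.Icc 1 Y.p.P, Y.Qh hc a f pd I xa := by
      simp [Qhbar]
    rw [e, sw, loc_form_smul hc0 hw, loc_form_sum hc0 hw]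
    congr 1
    refine Finset.sum_congr rfl fun p hp => ?_
    rw [hβ, Qm'_top, Qh'_mid Y hc a f (Finset.mem_Icc.1 hp).1 (Finset.mem_Icc.1 hp).2, loc_form_restr hc0 hw, sw]
  have l3 := loc_tr_abel Y.p.P β b0 b0'
  rw [l1, l2]
  simp only [bd]
  have l4 : ∑ pa ∈ Finset.Icc 1 (Y.p.P + 1), ∑ pc ∈ Finset.Icc 1 (Y.p.P + 1),
      ((((pa : ℤ) - (pc : ℤ) : ℤ) : ℂ) / (Y.p.P : ℂ)) * (β pa pc - β (pa - 1) pc - β pa (pc - 1) + β (pa - 1) (pc - 1)) =
      (Y.p.P : ℂ)⁻¹ * ∑ pa ∈ Finset.Icc 1 (Y.p.P + 1), ∑ pc ∈ Finset.Icc 1 (Y.p.P + 1),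
      ((((pa : ℤ) - (pc : ℤ) : ℤ) : ℂ)) * (β pa pc - β (pa - 1) pc - β pa (pc - 1) + β (pa - 1) (pc - 1)) := by
    rw [Finset.mul_sum]
    refine Finset.sum_congr rfl fun p _ => ?_
    rw [Finset.mul_sum]
    refine Finset.sum_congr rfl fun q _ => ?_
    rw [div_eq_mul_inv]
    ring
  rw [l4, l3]
  ring

end LocSys

end Claimed.Agent.R258
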