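/-
Row 258 (S0498), Sec. 6.6, block [LOC-TR] = Lemma 6.9 (owner: helper28).  FILE TrFar: THE FAR BANDS (Step 2 of `Loc/Transfer.lean`).
One active good cell `I`, roles `a b c d`; the outgoing filter `f` sits on the slot `c`, the OTHER complementary slot is `d`
(for `fromC = false` apply everything with `c ↔ d`, `loc_tr_slot4_swap`).
TOP: `LocSys.tr_far`:  `‖H(A_a^{pa} x_a, S_b, A_c^{pc} x_c, x_d)‖ ≤ (16 τ₃ + 16 D² n(𝓛+5) τ₂) ‖S_a‖ ‖S_b‖` for `|pa - pc| > 2`.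
-/
import Claimed.Agent.R258.Loc.TrStep

set_option autoImplicit false
open MeasureTheory

namespace Claimed.Agent.R258

section pair
variable {c0 C0 : ℝ} {I : Cell} {w : ℝ × ℝ → ℂ}

theorem loc_tr_pair_sub_left (hc0 : 0 < c0) (hw : Admissible c0 C0 I w) {l l' : Fin 4} (hl : l ≠ l') {x x' y : XV} {t t' : ℝ}
    (h : PairSmall I w l l' x y t) (h' : PairSmall I w l l' x' y t') : PairSmall I w l l' (x - x') y (t + t') :=
  (loc_pair_sub_right hc0 hw hl.symm h.symm h'.symm).symm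

theorem loc_tr_pair_zero_left (hc0 : 0 < c0) (hw : Admissible c0 C0 I w) (l l' : Fin 4) (y : XV) : PairSmall I w l l' 0 y 0 :=
  (loc_pair_zero_right hc0 hw l' l y).symm

end pair

namespace LocSys

section sizes
variable {Tag : Type} (Y : LocSys Tag)

theorem tr_n2_Qm' (l : Fin 4) (f : LocFilt) (pd : ℕ) (I : Cell) (x : XV) : n2 I (Y.Qm' l f pd I x) ≤ n2 I x := by
  unfold Qm'
  split_ifs
  · rw [zero_apply, xv_n2_zero]; exact xv_n2_nonneg I x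
  · exact Y.n2_gQ_le Y.cat Y.rkM l f pd I x
  · exact (xv_n2_restr I x).le

theorem tr_n2_Qh' (hc : LocCat) (l : Fin 4) (f : LocFilt) (pd : ℕ) (I : Cell) (x : XV) :
    n2 I (Y.Qh' hc l f pd I x) ≤ n2 I x := by
  unfold Qh'
  split_ifs
  · rw [zero_apply, xv_n2_zero]; exact xv_n2_nonneg I x
  · exact Y.n2_gQ_le hc Y.rkH l f pd I x
  · exact (xv_n2_restr I x).le

theorem tr_n2_bandM (l : Fin 4) (f : LocFilt) (pd : ℕ) (I : Cell) (x : XV) : n2 I (Y.bandM l f pd I x) ≤ 2 * n2 I x := by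
  unfold bandM
  rw [sub_apply]
  have := s5f_n2_sub I (Y.Qm' l f pd I x) (Y.Qm' l f (pd - 1) I x)
  linarith [Y.tr_n2_Qm' l f pd I x, Y.tr_n2_Qm' l f (pd - 1) I x]

theorem tr_n2_bandH (hc : LocCat) (l : Fin 4) (f : LocFilt) (pd : ℕ) (I : Cell) (x : XV) :
    n2 I (Y.bandH hc l f pd I x) ≤ 2 * n2 I x := by
  unfold bandH
  rw [sub_apply]
  have := s5f_n2_sub I (Y.Qh' hc l f pd I x) (Y.Qh' hc l f (pd - 1) I x)
  linarith [Y.tr_n2_Qh' hc l f pd I x, Y.tr_n2_Qh' hc l f (pd - 1) I x]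

theorem tr_n2_evalP (hP : 1 ≤ Y.p.P) (l : Fin 4) (I : Cell) (h : List LocFilt) (x : XV) : n2 I (Y.evalP l I h x) ≤ n2 I x := by
  rw [evalP_eq]; exact Y.n2_gEval_le Y.cat Y.rkM hP l I _ x

theorem tr_n2_evalD (hP : 1 ≤ Y.p.P) (hc : LocCat) (l : Fin 4) (I : Cell) (h : List LocFilt) (x : XV) :
    n2 I (Y.evalD hc l I h x) ≤ n2 I x := by
  rw [evalD_eq]; exact Y.n2_gEval_le hc Y.rkH hP l I _ x

/-- a band as a difference of residuals -/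
theorem tr_bandM_res (l : Fin 4) (f : LocFilt) (pd : ℕ) (I : Cell) (x : XV) :
    Y.bandM l f pd I x = (restr I.set - Y.Qm' l f (pd - 1) I) x - (restr I.set - Y.Qm' l f pd I) x := by
  unfold bandM
  simp only [sub_apply]
  abel

theorem tr_bandH_res (hc : LocCat) (l : Fin 4) (f : LocFilt) (pd : ℕ) (I : Cell) (x : XV) :
    Y.bandH hc l f pd I x = (restr I.set - Y.Qh' hc l f (pd - 1) I) x - (restr I.set - Y.Qh' hc l f pd I) x := by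
  unfold bandH
  simp only [sub_apply]
  abel

end sizes

section named
variable (Y : LocSys LocTag)

theorem tr_rank_pos {I : Cell} {f : LocFilt} (h : Y.Named I f) : 1 ≤ f.rank Y.p := by
  cases f with
  | cum m => simp only [LocFilt.rank]; omega
  | ball j G => have := h.1; simp only [LocFilt.rank]; omega

theorem tr_rank_lt {I : Cell} {f : LocFilt} (h : Y.Named I f) : f.rank Y.p < Y.hrank := by
  cases f with
  | cum m => simp only [LocFilt.rank, hrank]; omega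
  | ball j G => have := h.2.1; simp only [LocFilt.rank, hrank]; omega

/-- neighbour closure of the vertex masks of a named filter at the pads `pad0 + pa`, `pa ≤ P + 1` -/
theorem tr_msk_nbr (hP : 1 ≤ Y.p.P) {I : Cell} {f : LocFilt} (hf : Y.Named I f) {pa : ℕ} (hpa : pa ≤ Y.p.P + 1) {v v' : ℕ}
    (hv : v ∈ Y.msk f (f.pad0 Y.p + pa) I) (hv' : v' ∈ Y.B.pres I)
    (hd : Y.B.T.d I.depth (Y.B.tag v) (Y.B.tag v') ≤ 1) : v' ∈ Y.msk f (f.pad0 Y.p + pa + 1) I := by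
  cases f with
  | cum m => exact Y.CS.cumMask_nbr m _ I hv hv' hd
  | ball j G =>
    obtain ⟨h1, h4, hu⟩ := hf
    refine Y.CS.mask_nbr G I _ v v' hu ?_ hv hv' hd
    simp only [LocFilt.pad0, LocParams.Hmax]
    have e1 : 10 * (j - 1) * Y.p.P ≤ 30 * Y.p.P := Nat.mul_le_mul_right _ (by omega)
    have e2 : Y.p.P ≤ Y.p.P * (Y.p.L + 1) := Nat.le_mul_of_pos_right _ (by omega)
    have e3 : 20 * Y.p.P * (Y.p.L + 1) = 20 * (Y.p.P * (Y.p.L + 1)) := by ring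
    have e4 : 100 * Y.p.P * (Y.p.L + 1) = 100 * (Y.p.P * (Y.p.L + 1)) := by ring
    change 20 * Y.p.P * (Y.p.L + 1) + 10 * (j - 1) * Y.p.P + pa < 100 * Y.p.P * (Y.p.L + 1)
    omega

end named

variable {Y : LocSys LocTag} {c0 C0 k C3 : ℝ} {A : Acc}

/-! ### case (a): `pa > pc + 2` -/

theorem tr_far_a1 (hc0 : 0 < c0) (hV : Y.Valid A.Dm A.m0) (hI : Y.Inner c0 C0 k C3 A) {hc : LocCat}
    {bases : Cell → Finset (Fin 4 × XV)} (hHI : Y.HInner hc bases A) {I : Cell} (hIS : I ∈ Y.X.S) (hg : Y.CS.good I)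
    {a c : Fin 4} (hca : c ≠ a) {Sa : XV} (hb : (a, Sa) ∈ bases I) {f : LocFilt} (hf : Y.Named I f) {ha : List LocFilt}
    (lha : ha.length ≤ A.m0) (hha : ∀ e ∈ ha, Y.Named I e) {q pd : ℕ} (hq : q ≤ pd) (hq' : q ≤ Y.p.P) (h1 : 1 ≤ pd)
    (h2 : pd ≤ Y.p.P + 1) (xc : XV) :
    PairSmall I (Y.X.w I) c a (Y.Qm' c f q I xc) ((restr I.set - Y.Qh' hc a f pd I) (Y.evalD hc a I ha Sa))
      (A.τ3 * n2 I xc * n2 I Sa) := by
  have hw := hI.adm hIS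
  have hnn : 0 ≤ A.τ3 * n2 I xc * n2 I Sa :=
    mul_nonneg (mul_nonneg hI.num.τ3_pos.le (xv_n2_nonneg _ _)) (xv_n2_nonneg _ _)
  rcases Nat.lt_or_ge Y.p.P pd with h3 | h3
  · have : pd = Y.p.P + 1 := by omega
    subst this
    rw [Qh'_top, sub_self, zero_apply]
    exact (loc_pair_zero_right hc0 hw c a _).mono hnn
  rcases Nat.eq_zero_or_pos q with rfl | hq0
  · rw [Qm'_zero, zero_apply]
    exact (loc_tr_pair_zero_left hc0 hw c a _).mono hnn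
  rw [Qm'_mid Y c f hq0 hq', Qh'_mid Y hc a f h1 h3, Qm_eq]
  obtain ⟨e, he, hsum⟩ := Y.gQ_expand Y.cat Y.rkM hI.D_pos (hI.catOk hV) hI.catCnt c f q (hI.le_root (hI.S_sub hIS)) xc
  rw [he]
  refine (loc_pair_sum_left' hc0 hw hca _ e (fun Φ => Φ.vec I) _ (tol A.D A.τ3 A.n Y.hrank * n2 I Sa) ?_).mono ?_
  · intro Φ hΦ
    rw [mem_glm] at hΦ
    obtain ⟨m1, m2, m3, -, m5⟩ := hΦ
    have := hHI.closed I hIS hg (a, Sa) hb f pd hf h1 h3 ha lha hha Φ m1 m2 (by rw [m3]; exact hca)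
      (Y.msk_mono_pad f (by omega) I m5)
    rw [m3] at this
    exact this
  · have t1 := hI.tol_cancel (Y.tr_rank_lt hf)
    have t0 := hI.tol_nonneg Y.hrank
    calc (∑ Φ ∈ Y.glm Y.cat Y.rkM c f q I, ‖e Φ‖) * (tol A.D A.τ3 A.n Y.hrank * n2 I Sa)
        ≤ (A.D * Real.sqrt (A.n (Y.rkM f)) * n2 I xc) * (tol A.D A.τ3 A.n Y.hrank * n2 I Sa) :=
          mul_le_mul_of_nonneg_right hsum (mul_nonneg t0 (xv_n2_nonneg _ _))
      _ = (A.D * Real.sqrt (A.n (f.rank Y.p)) * tol A.D A.τ3 A.n Y.hrank) * (n2 I xc * n2 I Sa) := by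
          simp only [rkM]; ring
      _ ≤ A.τ3 * (n2 I xc * n2 I Sa) :=
          mul_le_mul_of_nonneg_right t1 (mul_nonneg (xv_n2_nonneg _ _) (xv_n2_nonneg _ _))
      _ = A.τ3 * n2 I xc * n2 I Sa := by ring

theorem tr_far_a2 (hc0 : 0 < c0) (hV : Y.Valid A.Dm A.m0) (hI : Y.Inner c0 C0 k C3 A) {hc : LocCat}
    {bases : Cell → Finset (Fin 4 × XV)} (hHI : Y.HInner hc bases A) {I : Cell} (hIS : I ∈ Y.X.S) (hg : Y.CS.good I)
    {a c : Fin 4} (hca : c ≠ a) {Sa : XV} (hb : (a, Sa) ∈ bases I) {f : LocFilt} (hf : Y.Named I f) {ha : List LocFilt}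
    (lha : ha.length ≤ A.m0) (hha : ∀ e ∈ ha, Y.Named I e) {pa pc : ℕ} (h1 : pc + 2 < pa) (h2 : pa ≤ Y.p.P + 1) (xc : XV) :
    PairSmall I (Y.X.w I) c a (Y.bandM c f pc I xc) (Y.bandH hc a f pa I (Y.evalD hc a I ha Sa))
      (4 * (A.τ3 * n2 I xc * n2 I Sa)) := by
  have hw := hI.adm hIS
  have key : ∀ q, q ≤ pc → PairSmall I (Y.X.w I) c a (Y.Qm' c f q I xc) (Y.bandH hc a f pa I (Y.evalD hc a I ha Sa))
      (A.τ3 * n2 I xc * n2 I Sa + A.τ3 * n2 I xc * n2 I Sa) := by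
    intro q hq
    rw [tr_bandH_res]
    exact loc_pair_sub_right hc0 hw hca
      (tr_far_a1 hc0 hV hI hHI hIS hg hca hb hf lha hha (by omega) (by omega) (by omega) (by omega) xc)
      (tr_far_a1 hc0 hV hI hHI hIS hg hca hb hf lha hha (by omega) (by omega) (by omega) (by omega) xc)
  have := loc_tr_pair_sub_left hc0 hw hca (key pc le_rfl) (key (pc - 1) (Nat.sub_le _ _))
  unfold bandM
  rw [sub_apply]
  refine this.mono (le_of_eq ?_)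
  ring

/-! ### case (b): `pc > pa + 2` -/

/-- near sources: the main closure -/
theorem tr_far_b1 (hc0 : 0 < c0) (hI : Y.Inner c0 C0 k C3 A) {I : Cell} (hIS : I ∈ Y.X.S) (hg : Y.CS.good I)
    {c d : Fin 4} (hdc : d ≠ c) (hpc : Y.pat c = false) {f : LocFilt} (hf : Y.Named I f) {hcl : List LocFilt}
    (lhc : hcl.length ≤ A.m0) (hhc : ∀ e ∈ hcl, Y.Named I e) {Ψ : Col} (hΨ : Ψ ∈ Y.cat.cols) (hbi : I ≤ Ψ.birth)
    (hs : Y.cat.slot Ψ.lab = d) (hr : Y.cat.rank Ψ.lab < f.rank Y.p) {pd : ℕ} (h1 : 1 ≤ pd) (h2 : pd ≤ Y.p.P + 1)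
    (hv : Y.cat.vtx Ψ.lab ∈ Y.msk f (f.pad0 Y.p + pd) I) :
    PairSmall I (Y.X.w I) d c (Ψ.vec I) ((restr I.set - Y.Qm' c f pd I) (Y.evalP c I hcl (Y.X.B c I)))
      (tol A.D A.τ3 A.n (f.rank Y.p) * 2) := by
  have hw := hI.adm hIS
  have t0 := hI.tol_nonneg (f.rank Y.p)
  rcases Nat.lt_or_ge Y.p.P pd with h3 | h3
  · have : pd = Y.p.P + 1 := by omega
    subst this
    rw [Qm'_top, sub_self, zero_apply]
    exact (loc_pair_zero_right hc0 hw d c _).mono (by positivity)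
  rw [Qm'_mid Y c f h1 h3]
  have := hI.closed I hIS hg c f pd hf h1 h3 (pos hcl) (by simpa [pos] using lhc)
    (by
      intro e he
      simp only [pos, List.mem_map] at he
      obtain ⟨g, hg1, rfl⟩ := he
      exact hhc g hg1) Ψ hΨ hbi (by rw [hs]; exact hdc) hr hv
  rw [hs, ← evalP_eq_evalH, z_eq_B c I hpc] at this
  refine this.mono (mul_le_mul_of_nonneg_left ?_ t0)
  rw [← z_eq_B c I hpc]
  exact hI.z_size c (hI.S_sub hIS)

/-- near sources against the band -/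
theorem tr_far_b1' (hc0 : 0 < c0) (hI : Y.Inner c0 C0 k C3 A) {I : Cell} (hIS : I ∈ Y.X.S) (hg : Y.CS.good I)
    {c d : Fin 4} (hdc : d ≠ c) (hpc : Y.pat c = false) {f : LocFilt} (hf : Y.Named I f) {hcl : List LocFilt}
    (lhc : hcl.length ≤ A.m0) (hhc : ∀ e ∈ hcl, Y.Named I e) {Ψ : Col} (hΨ : Ψ ∈ Y.cat.cols) (hbi : I ≤ Ψ.birth)
    (hs : Y.cat.slot Ψ.lab = d) (hr : Y.cat.rank Ψ.lab < f.rank Y.p) {pa pc : ℕ} (h1 : pa + 2 < pc) (h2 : pc ≤ Y.p.P + 1)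
    (hv : Y.cat.vtx Ψ.lab ∈ Y.msk f (f.pad0 Y.p + pa + 1) I) :
    PairSmall I (Y.X.w I) d c (Ψ.vec I) (Y.bandM c f pc I (Y.evalP c I hcl (Y.X.B c I)))
      (tol A.D A.τ3 A.n (f.rank Y.p) * 4) := by
  have hw := hI.adm hIS
  rw [tr_bandM_res]
  refine (loc_pair_sub_right hc0 hw hdc
    (tr_far_b1 hc0 hI hIS hg hdc hpc hf lhc hhc hΨ hbi hs hr (pd := pc - 1) (by omega) (by omega)
      (Y.msk_mono_pad f (by omega) I hv))
    (tr_far_b1 hc0 hI hIS hg hdc hpc hf lhc hhc hΨ hbi hs hr (pd := pc) (by omega) (by omega)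
      (Y.msk_mono_pad f (by omega) I hv))).mono (le_of_eq ?_)
  ring

/-- a separated pair (helper column, main column) -/
theorem tr_far_b2 (hc0 : 0 < c0) (hV : Y.Valid A.Dm A.m0) (hI : Y.Inner c0 C0 k C3 A) {hc : LocCat}
    {bases : Cell → Finset (Fin 4 × XV)} (hH : Y.HelpValid hc A.Dm) (hHI : Y.HInner hc bases A) {I : Cell} (hIS : I ∈ Y.X.S)
    {a d : Fin 4} (had : a ≠ d) {Θ Ψ : Col} (hΘ : Θ ∈ hc.cols) (hΘb : I ≤ Θ.birth) (hΘs : hc.slot Θ.lab = a)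
    (hΨ : Ψ ∈ Y.cat.cols) (hΨb : I ≤ Ψ.birth) (hΨs : Y.cat.slot Ψ.lab = d)
    (hd : 1 < Y.B.T.d I.depth (Y.B.tag (hc.vtx Θ.lab)) (Y.B.tag (Y.cat.vtx Ψ.lab))) :
    PairSmall I (Y.X.w I) a d (Θ.vec I) (Ψ.vec I) A.τ2 := by
  have hw := hI.adm hIS
  have hroot := hI.le_root (hI.S_sub hIS)
  have ok1 := hHI.catOk hV hI hH
  have ok2 := hI.catOk hV
  have g1 := ok1.tag_ok hI hΘ hroot hΘb
  have g2 := ok2.tag_ok hI hΨ hroot hΨb
  have c1 := ok1.tag_col Θ hΘ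
  have c2 := ok2.tag_col Ψ hΨ
  rw [hΘs] at g1 c1
  rw [hΨs] at g2 c2
  exact loc_pair_of_sep hc0 hI.sep Θ Ψ (hc.chart Θ.lab) (Y.cat.chart Ψ.lab) a d I (Y.X.w I) had hw (ok1.chart Θ hΘ)
    (ok2.chart Ψ hΨ) (ok1.cplx Θ hΘ) (ok2.cplx Ψ hΨ) (ok1.bdd Θ hΘ) (ok2.bdd Ψ hΨ) g1 g2 (by rw [c1, c2]; exact hd)

/-- far sources against one helper projection -/
theorem tr_far_b3 (hc0 : 0 < c0) (hV : Y.Valid A.Dm A.m0) (hI : Y.Inner c0 C0 k C3 A) {hc : LocCat}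
    {bases : Cell → Finset (Fin 4 × XV)} (hH : Y.HelpValid hc A.Dm) (hHI : Y.HInner hc bases A) {I : Cell} (hIS : I ∈ Y.X.S)
    {a d : Fin 4} (had : a ≠ d) {f : LocFilt} (hf : Y.Named I f) {Ψ : Col}
    (hΨ : Ψ ∈ Y.cat.cols) (hΨb : I ≤ Ψ.birth) (hΨs : Y.cat.slot Ψ.lab = d) {pa q : ℕ} (hq : q ≤ pa) (hpa : pa ≤ Y.p.P)
    (hv : Y.cat.vtx Ψ.lab ∉ Y.msk f (f.pad0 Y.p + pa + 1) I) (xa : XV) :
    PairSmall I (Y.X.w I) a d (Y.Qh' hc a f q I xa) (Ψ.vec I) (A.D * Real.sqrt (A.n (Y.p.L + 5)) * n2 I xa * A.τ2) := by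
  have hw := hI.adm hIS
  have hroot := hI.le_root (hI.S_sub hIS)
  have hnn : 0 ≤ A.D * Real.sqrt (A.n (Y.p.L + 5)) * n2 I xa * A.τ2 :=
    mul_nonneg (mul_nonneg (mul_nonneg hI.D_pos.le (Real.sqrt_nonneg _)) (xv_n2_nonneg _ _)) hI.num.τ2_pos.le
  rcases Nat.eq_zero_or_pos q with rfl | hq0
  · rw [Qh'_zero, zero_apply]
    exact (loc_tr_pair_zero_left hc0 hw a d _).mono hnn
  rw [Qh'_mid Y hc a f hq0 (by omega), Qh_eq]
  obtain ⟨e, he, hsum⟩ := Y.gQ_expand hc Y.rkH hI.D_pos (hHI.catOk hV hI hH) (hHI.catCnt hV hI hH) a f q hroot xa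
  rw [he]
  refine (loc_pair_sum_left' hc0 hw had _ e (fun Φ => Φ.vec I) _ A.τ2 ?_).mono ?_
  · intro Θ hΘ
    rw [mem_glm] at hΘ
    obtain ⟨m1, m2, m3, -, m5⟩ := hΘ
    refine tr_far_b2 hc0 hV hI hH hHI hIS had m1 m2 m3 hΨ hΨb hΨs ?_
    by_contra hcon
    exact hv (Y.tr_msk_nbr hV.P_pos hf (by omega) (Y.msk_mono_pad f (by omega) I m5)
      ((hI.catOk hV).vtx Ψ hΨ I hroot hΨb) (not_lt.1 hcon))
  · refine mul_le_mul_of_nonneg_right (hsum.trans (le_of_eq ?_)) hI.num.τ2_pos.le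
    simp [rkH, hrank]

/-- expansion of the argument of the other complementary slot into sources of rank `< rank f` -/
theorem tr_xd_expand (hV : Y.Valid A.Dm A.m0) (hI : Y.Inner c0 C0 k C3 A) {I : Cell} (hIT : I ∈ Y.X.T) {d : Fin 4}
    (hpd : Y.pat d = false) {f : LocFilt} (hf : Y.Named I f) {hdl : List LocFilt}
    (hhead : ∀ g ∈ hdl.head?, g.rank Y.p < f.rank Y.p) :
    ∃ (T : Finset Col) (e : Col → ℂ) (r : ℕ), r < f.rank Y.p ∧ Y.evalP d I hdl (Y.X.B d I) = ∑ Ψ ∈ T, e Ψ • Ψ.vec I ∧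
      (∀ Ψ ∈ T, Ψ ∈ Y.cat.cols ∧ I ≤ Ψ.birth ∧ Y.cat.slot Ψ.lab = d ∧ Y.cat.rank Ψ.lab ≤ r) ∧
      ∑ Ψ ∈ T, ‖e Ψ‖ ≤ A.D * Real.sqrt (A.n r) * 2 := by
  classical
  have hroot := hI.le_root hIT
  cases hdl with
  | nil =>
    obtain ⟨e, he, hsum⟩ := hI.basic_expand hV d hpd hIT
    refine ⟨Y.cat.lm d 0 (Y.B.pres I : Set ℕ) I, e, 0, Y.tr_rank_pos hf, ?_, ?_, ?_⟩
    · rw [← z_eq_B d I hpd, he]
      simp only [evalP, map_sum, map_smul, xv_restr_vec_self]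
    · intro Ψ hΨ
      simp only [LocCat.lm, Finset.mem_filter] at hΨ
      exact ⟨hΨ.1, hΨ.2.1, hΨ.2.2.1, hΨ.2.2.2.1⟩
    · have h1 : 1 ≤ Real.sqrt (A.n 0) := by
        rw [Real.one_le_sqrt]; exact hI.n_ge_one 0
      have hD := hI.D_pos
      nlinarith
  | cons g t =>
    obtain ⟨e, he, hsum⟩ := Y.gQbar_expand Y.cat Y.rkM hI.D_pos hV.P_pos (hI.catOk hV) hI.catCnt d g hroot
      (Y.evalP d I t (Y.X.B d I))
    refine ⟨Y.glm Y.cat Y.rkM d g Y.p.P I, e, g.rank Y.p, hhead g (by simp), ?_, ?_, ?_⟩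
    · rw [← he]; rfl
    · intro Ψ hΨ
      rw [mem_glm] at hΨ
      exact ⟨hΨ.1, hΨ.2.1, hΨ.2.2.1, hΨ.2.2.2.1⟩
    · refine hsum.trans (mul_le_mul_of_nonneg_left ?_ (mul_nonneg hI.D_pos.le (Real.sqrt_nonneg _)))
      refine (Y.tr_n2_evalP hV.P_pos d I t _).trans ?_
      rw [← z_eq_B d I hpd]
      exact hI.z_size d hIT

/-- the constant of one far band -/
noncomputable def trK (Y : LocSys LocTag) (A : Acc) : ℝ := 16 * A.τ3 + 16 * A.D ^ 2 * A.n (Y.p.L + 5) * A.τ2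

theorem trK_nonneg (hI : Y.Inner c0 C0 k C3 A) : 0 ≤ Y.trK A := by
  unfold trK
  have h1 := hI.num.τ3_pos
  have h2 := hI.num.τ2_pos
  have h3 := hI.n_ge_one (Y.p.L + 5)
  have h4 := hI.D_pos
  positivity

/-- case (a) -/
theorem tr_far_a (hc0 : 0 < c0) (hV : Y.Valid A.Dm A.m0) (hI : Y.Inner c0 C0 k C3 A) {hc : LocCat}
    {bases : Cell → Finset (Fin 4 × XV)} (hHI : Y.HInner hc bases A) {I : Cell} (hIS : I ∈ Y.X.S) (hg : Y.CS.good I)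
    {a b c d : Fin 4} (h4 : slot4 a b c d) (hpc : Y.pat c = false) (hpd : Y.pat d = false) {Sa Sb : XV}
    (hb : (a, Sa) ∈ bases I) {f : LocFilt} (hf : Y.Named I f) {ha hcl hdl : List LocFilt}
    (lha : ha.length ≤ A.m0) (hha : ∀ e ∈ ha, Y.Named I e) {pa pc : ℕ} (h1 : pc + 2 < pa) (h2 : pa ≤ Y.p.P + 1)
    (z : Fin 4 → XV) (za : z a = Y.bandH hc a f pa I (Y.evalD hc a I ha Sa)) (zb : z b = Sb)
    (zc : z c = Y.bandM c f pc I (Y.evalP c I hcl (Y.X.B c I))) (zd : z d = Y.evalP d I hdl (Y.X.B d I)) :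
    ‖formV I (Y.X.w I) z‖ ≤ 16 * A.τ3 * n2 I Sa * n2 I Sb := by
  have hIT := hI.S_sub hIS
  have P1 := (tr_far_a2 hc0 hV hI hHI hIS hg h4.2.1.symm hb hf lha hha h1 h2 (Y.evalP c I hcl (Y.X.B c I))).le z zc za
  rw [loc_tr_oth_ca h4, zb, zd] at P1
  have s1 : n2 I (Y.evalP c I hcl (Y.X.B c I)) ≤ 2 := by
    refine (Y.tr_n2_evalP hV.P_pos c I hcl _).trans ?_
    rw [← z_eq_B c I hpc]; exact hI.z_size c hIT
  have s2 : n2 I (Y.evalP d I hdl (Y.X.B d I)) ≤ 2 := by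
    refine (Y.tr_n2_evalP hV.P_pos d I hdl _).trans ?_
    rw [← z_eq_B d I hpd]; exact hI.z_size d hIT
  have n1 := xv_n2_nonneg I (Y.evalP c I hcl (Y.X.B c I))
  have n2' := xv_n2_nonneg I (Y.evalP d I hdl (Y.X.B d I))
  have n3 := xv_n2_nonneg I Sa
  have n4 := xv_n2_nonneg I Sb
  have ht := hI.num.τ3_pos.le
  refine P1.trans ?_
  generalize n2 I (Y.evalP c I hcl (Y.X.B c I)) = u at *
  generalize n2 I (Y.evalP d I hdl (Y.X.B d I)) = v at *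
  generalize n2 I Sa = sa at *
  generalize n2 I Sb = sb at *
  have e1 : u * v ≤ 2 * 2 := mul_le_mul s1 s2 n2' (by norm_num)
  have e2 : 0 ≤ A.τ3 * sa * sb := mul_nonneg (mul_nonneg ht n3) n4
  calc 4 * (A.τ3 * u * sa) * (sb * v) = 4 * (A.τ3 * sa * sb) * (u * v) := by ring
    _ ≤ 4 * (A.τ3 * sa * sb) * (2 * 2) := mul_le_mul_of_nonneg_left e1 (by positivity)
    _ = 16 * A.τ3 * sa * sb := by ring

theorem tr_num_near {S tl za sa sb D q τ3 : ℝ} (hS0 : 0 ≤ S) (hS : S ≤ D * q * 2) (hza0 : 0 ≤ za) (hza : za ≤ 2 * sa)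
    (ht : D * q * tl ≤ τ3) (htl : 0 ≤ tl) (hsa : 0 ≤ sa) (hsb : 0 ≤ sb) :
    S * (tl * 4) * (za * sb) ≤ 16 * τ3 * sa * sb := by
  have hDq : 0 ≤ D * q * 2 := hS0.trans hS
  calc S * (tl * 4) * (za * sb) ≤ (D * q * 2) * (tl * 4) * (2 * sa * sb) := by
        apply mul_le_mul
        · exact mul_le_mul_of_nonneg_right hS (by positivity)
        · exact mul_le_mul_of_nonneg_right hza hsb
        · positivity
        · positivity
    _ = (D * q * tl) * (16 * (sa * sb)) := by ring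
    _ ≤ τ3 * (16 * (sa * sb)) := mul_le_mul_of_nonneg_right ht (by positivity)
    _ = 16 * τ3 * sa * sb := by ring

theorem tr_num_far {S D q Q N xa sa sb zc τ2 : ℝ} (hS0 : 0 ≤ S) (hS : S ≤ D * q * 2) (hD : 0 ≤ D) (hqQ : q ≤ Q) (hQ : 0 ≤ Q)
    (hQQ : Q * Q = N) (hxa0 : 0 ≤ xa) (hxa : xa ≤ sa) (hzc0 : 0 ≤ zc) (hzc : zc ≤ 4) (hsb : 0 ≤ sb) (ht : 0 ≤ τ2) :
    S * (D * Q * xa * τ2 + D * Q * xa * τ2) * (sb * zc) ≤ 16 * D ^ 2 * N * τ2 * sa * sb := by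
  have hsa : 0 ≤ sa := hxa0.trans hxa
  calc S * (D * Q * xa * τ2 + D * Q * xa * τ2) * (sb * zc)
      ≤ (D * Q * 2) * (D * Q * sa * τ2 + D * Q * sa * τ2) * (sb * 4) := by
        apply mul_le_mul
        · apply mul_le_mul
          · exact hS.trans (mul_le_mul_of_nonneg_right (mul_le_mul_of_nonneg_left hqQ hD) (by norm_num))
          · have : D * Q * xa * τ2 ≤ D * Q * sa * τ2 :=
              mul_le_mul_of_nonneg_right (mul_le_mul_of_nonneg_left hxa (by positivity)) ht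
            linarith
          · positivity
          · positivity
        · exact mul_le_mul_of_nonneg_left hzc hsb
        · positivity
        · positivity
    _ = 16 * D ^ 2 * (Q * Q) * τ2 * sa * sb := by ring
    _ = 16 * D ^ 2 * N * τ2 * sa * sb := by rw [hQQ]

/-- case (b) -/
theorem tr_far_b (hc0 : 0 < c0) (hV : Y.Valid A.Dm A.m0) (hI : Y.Inner c0 C0 k C3 A) {hc : LocCat}
    {bases : Cell → Finset (Fin 4 × XV)} (hH : Y.HelpValid hc A.Dm) (hHI : Y.HInner hc bases A) {I : Cell} (hIS : I ∈ Y.X.S)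
    (hg : Y.CS.good I) {a b c d : Fin 4} (h4 : slot4 a b c d) (hpc : Y.pat c = false) (hpd : Y.pat d = false) {Sa Sb : XV}
    {f : LocFilt} (hf : Y.Named I f) {ha hcl hdl : List LocFilt}
    (lhc : hcl.length ≤ A.m0) (hhc : ∀ e ∈ hcl, Y.Named I e) (hhead : ∀ g ∈ hdl.head?, g.rank Y.p < f.rank Y.p)
    {pa pc : ℕ} (h1 : pa + 2 < pc) (h2 : pc ≤ Y.p.P + 1)
    (z : Fin 4 → XV) (za : z a = Y.bandH hc a f pa I (Y.evalD hc a I ha Sa)) (zb : z b = Sb)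
    (zc : z c = Y.bandM c f pc I (Y.evalP c I hcl (Y.X.B c I))) (zd : z d = Y.evalP d I hdl (Y.X.B d I)) :
    ‖formV I (Y.X.w I) z‖ ≤ Y.trK A * n2 I Sa * n2 I Sb := by
  classical
  have hIT := hI.S_sub hIS
  have hw := hI.adm hIS
  obtain ⟨T, e, r, hr, hxd, hT, hsum⟩ := tr_xd_expand hV hI hIT hpd hf hhead
  have hdc : d ≠ c := h4.2.2.2.2.2.symm
  have had : a ≠ d := h4.2.2.1
  obtain ⟨xa, hxa⟩ : ∃ xa, xa = Y.evalD hc a I ha Sa := ⟨_, rfl⟩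
  have sxa : n2 I xa ≤ n2 I Sa := by rw [hxa]; exact Y.tr_n2_evalD hV.P_pos hc a I ha Sa
  rw [← hxa] at za
  obtain ⟨Tn, hTn⟩ : ∃ Tn, Tn = T.filter fun Ψ => Y.cat.vtx Ψ.lab ∈ Y.msk f (f.pad0 Y.p + pa + 1) I := ⟨_, rfl⟩
  obtain ⟨Tf, hTf⟩ : ∃ Tf, Tf = T.filter fun Ψ => ¬ Y.cat.vtx Ψ.lab ∈ Y.msk f (f.pad0 Y.p + pa + 1) I := ⟨_, rfl⟩
  have hsplit : z d = ∑ Ψ ∈ Tn, e Ψ • Ψ.vec I + ∑ Ψ ∈ Tf, e Ψ • Ψ.vec I := by
    rw [zd, hxd, hTn, hTf, Finset.sum_filter_add_sum_filter_not]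
  have hsn : ∑ Ψ ∈ Tn, ‖e Ψ‖ ≤ A.D * Real.sqrt (A.n r) * 2 := by
    refine le_trans ?_ hsum
    rw [hTn]
    exact Finset.sum_le_sum_of_subset_of_nonneg (Finset.filter_subset _ _) fun _ _ _ => norm_nonneg _
  have hsf : ∑ Ψ ∈ Tf, ‖e Ψ‖ ≤ A.D * Real.sqrt (A.n r) * 2 := by
    refine le_trans ?_ hsum
    rw [hTf]
    exact Finset.sum_le_sum_of_subset_of_nonneg (Finset.filter_subset _ _) fun _ _ _ => norm_nonneg _
  -- near part
  have N1 : PairSmall I (Y.X.w I) d c (∑ Ψ ∈ Tn, e Ψ • Ψ.vec I) (Y.bandM c f pc I (Y.evalP c I hcl (Y.X.B c I)))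
      ((∑ Ψ ∈ Tn, ‖e Ψ‖) * (tol A.D A.τ3 A.n (f.rank Y.p) * 4)) := by
    refine loc_pair_sum_left' hc0 hw hdc _ e (fun Ψ => Ψ.vec I) _ _ ?_
    intro Ψ hΨ
    rw [hTn, Finset.mem_filter] at hΨ
    obtain ⟨m1, m2, m3, m4⟩ := hT Ψ hΨ.1
    exact tr_far_b1' hc0 hI hIS hg hdc hpc hf lhc hhc m1 m2 m3 (by omega) h1 h2 hΨ.2
  have N2 := N1.le (Function.update z d (∑ Ψ ∈ Tn, e Ψ • Ψ.vec I)) (by simp) (by rw [Function.update_of_ne hdc.symm, zc])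
  rw [loc_oth_update_left, loc_tr_oth_dc h4, zb] at N2
  -- far part
  have F1 : PairSmall I (Y.X.w I) a d (Y.bandH hc a f pa I xa) (∑ Ψ ∈ Tf, e Ψ • Ψ.vec I)
      ((∑ Ψ ∈ Tf, ‖e Ψ‖) * (A.D * Real.sqrt (A.n (Y.p.L + 5)) * n2 I xa * A.τ2 +
        A.D * Real.sqrt (A.n (Y.p.L + 5)) * n2 I xa * A.τ2)) := by
    refine loc_pair_sum_right' hc0 hw had _ e _ (fun Ψ => Ψ.vec I) _ ?_
    intro Ψ hΨ
    rw [hTf, Finset.mem_filter] at hΨ
    obtain ⟨m1, m2, m3, -⟩ := hT Ψ hΨ.1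
    unfold bandH
    rw [sub_apply]
    exact loc_tr_pair_sub_left hc0 hw had
      (tr_far_b3 hc0 hV hI hH hHI hIS had hf m1 m2 m3 le_rfl (by omega) hΨ.2 xa)
      (tr_far_b3 hc0 hV hI hH hHI hIS had hf m1 m2 m3 (Nat.sub_le _ _) (by omega) hΨ.2 xa)
  have F2 := F1.le (Function.update z d (∑ Ψ ∈ Tf, e Ψ • Ψ.vec I)) (by rw [Function.update_of_ne had, za]) (by simp)
  rw [loc_oth_update_right, loc_tr_oth_ad h4, zb] at F2
  -- sizes
  have sza : n2 I (z a) ≤ 2 * n2 I Sa := by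
    rw [za]; exact (Y.tr_n2_bandH hc a f pa I xa).trans (by linarith)
  have szc : n2 I (z c) ≤ 4 := by
    rw [zc]
    refine (Y.tr_n2_bandM c f pc I _).trans ?_
    have : n2 I (Y.evalP c I hcl (Y.X.B c I)) ≤ 2 := by
      refine (Y.tr_n2_evalP hV.P_pos c I hcl _).trans ?_
      rw [← z_eq_B c I hpc]; exact hI.z_size c hIT
    linarith
  have hz : z = Function.update z d (z d) := (Function.update_eq_self d z).symm
  rw [hz, hsplit, loc_form_add hc0 hw]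
  refine (norm_add_le _ _).trans ?_
  have t1 := hI.tol_cancel hr
  have t0 := hI.tol_nonneg (f.rank Y.p)
  have hmono : A.n r ≤ A.n (Y.p.L + 5) := hI.num.n_mono (by have := Y.tr_rank_lt hf; simp only [hrank] at this; omega)
  have hsq : Real.sqrt (A.n r) ≤ Real.sqrt (A.n (Y.p.L + 5)) := Real.sqrt_le_sqrt hmono
  have hnn : 0 ≤ A.n (Y.p.L + 5) := by linarith [hI.n_ge_one (Y.p.L + 5)]
  have hss : Real.sqrt (A.n (Y.p.L + 5)) * Real.sqrt (A.n (Y.p.L + 5)) = A.n (Y.p.L + 5) := Real.mul_self_sqrt hnn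
  have hD := hI.D_pos.le
  have ht2 := hI.num.τ2_pos.le
  have ht3 := hI.num.τ3_pos.le
  have n3 := xv_n2_nonneg I Sa
  have n4 := xv_n2_nonneg I Sb
  have n5 := xv_n2_nonneg I (z a)
  have n6 := xv_n2_nonneg I (z c)
  have n7 := xv_n2_nonneg I xa
  have q0 := Real.sqrt_nonneg (A.n r)
  have q1 := Real.sqrt_nonneg (A.n (Y.p.L + 5))
  have B1 : ‖formV I (Y.X.w I) (Function.update z d (∑ Ψ ∈ Tn, e Ψ • Ψ.vec I))‖ ≤ 16 * A.τ3 * n2 I Sa * n2 I Sb :=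
    N2.trans (tr_num_near (Finset.sum_nonneg fun _ _ => norm_nonneg _) hsn n5 sza t1 t0 n3 n4)
  have B2 : ‖formV I (Y.X.w I) (Function.update z d (∑ Ψ ∈ Tf, e Ψ • Ψ.vec I))‖ ≤
      16 * A.D ^ 2 * A.n (Y.p.L + 5) * A.τ2 * n2 I Sa * n2 I Sb :=
    F2.trans (tr_num_far (Finset.sum_nonneg fun _ _ => norm_nonneg _) hsf hD hsq q1 hss n7 sxa n6 szc n4 ht2)
  unfold trK
  calc _ ≤ 16 * A.τ3 * n2 I Sa * n2 I Sb + 16 * A.D ^ 2 * A.n (Y.p.L + 5) * A.τ2 * n2 I Sa * n2 I Sb := add_le_add B1 B2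
    _ = _ := by ring

/-- **the far bands** -/
theorem tr_far (hc0 : 0 < c0) (hV : Y.Valid A.Dm A.m0) (hI : Y.Inner c0 C0 k C3 A) {hc : LocCat}
    {bases : Cell → Finset (Fin 4 × XV)} (hH : Y.HelpValid hc A.Dm) (hHI : Y.HInner hc bases A) {I : Cell} (hIS : I ∈ Y.X.S)
    (hg : Y.CS.good I) {a b c d : Fin 4} (h4 : slot4 a b c d) (hpc : Y.pat c = false) (hpd : Y.pat d = false) {Sa Sb : XV}
    (hb : (a, Sa) ∈ bases I) {f : LocFilt} (hf : Y.Named I f) {ha hcl hdl : List LocFilt}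
    (lha : ha.length ≤ A.m0) (hha : ∀ e ∈ ha, Y.Named I e)
    (lhc : hcl.length ≤ A.m0) (hhc : ∀ e ∈ hcl, Y.Named I e) (hhead : ∀ g ∈ hdl.head?, g.rank Y.p < f.rank Y.p)
    {pa pc : ℕ} (hpa : pa ≤ Y.p.P + 1) (hpc' : pc ≤ Y.p.P + 1) (hfar : ¬ (pa ≤ pc + 2 ∧ pc ≤ pa + 2))
    (z : Fin 4 → XV) (za : z a = Y.bandH hc a f pa I (Y.evalD hc a I ha Sa)) (zb : z b = Sb)
    (zc : z c = Y.bandM c f pc I (Y.evalP c I hcl (Y.X.B c I))) (zd : z d = Y.evalP d I hdl (Y.X.B d I)) :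
    ‖formV I (Y.X.w I) z‖ ≤ Y.trK A * n2 I Sa * n2 I Sb := by
  rcases Nat.lt_or_ge (pc + 2) pa with h | h
  · refine (tr_far_a hc0 hV hI hHI hIS hg h4 hpc hpd hb hf lha hha h hpa z za zb zc zd).trans ?_
    have n3 := xv_n2_nonneg I Sa
    have n4 := xv_n2_nonneg I Sb
    refine mul_le_mul_of_nonneg_right (mul_le_mul_of_nonneg_right ?_ n3) n4
    unfold trK
    have h2 := hI.num.τ2_pos
    have h3 := hI.n_ge_one (Y.p.L + 5)
    have h4 := hI.D_pos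
    have : 0 ≤ 16 * A.D ^ 2 * A.n (Y.p.L + 5) * A.τ2 := by positivity
    linarith
  · exact tr_far_b hc0 hV hI hH hHI hIS hg h4 hpc hpd hf lhc hhc hhead (by omega) hpc' z za zb zc zd

end LocSys

end Claimed.Agent.R258
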